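import Mathlib

/-!
# The convolution ring of functions on a monoid with finite antidiagonals
-/

set_option linter.unusedSectionVars false

namespace Vale.Agent.P269.H728

open Finset

/-- functions on `B` (a Novikov-type ring) -/
def Nov (B : Type) : Type := B → ℂ

namespace Nov

variable {B : Type} [AddCommMonoid B] [DecidableEq B] [Finset.HasAntidiagonal B]

instance : AddCommGroup (Nov B) := inferInstanceAs (AddCommGroup (B → ℂ))

instance : Mul (Nov B) := ⟨fun f g d =>
  ∑ dd ∈ Finset.HasAntidiagonal.antidiagonal d, f dd.1 * g dd.2⟩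

instance : One (Nov B) := ⟨fun d => if d = 0 then 1 else 0⟩

lemma add_apply (f g : Nov B) (d : B) : (f + g) d = f d + g d := rfl
lemma zero_apply (d : B) : (0 : Nov B) d = 0 := rfl
lemma mul_apply (f g : Nov B) (d : B) :
    (f * g) d = ∑ dd ∈ Finset.HasAntidiagonal.antidiagonal d, f dd.1 * g dd.2 := rfl
lemma one_apply (d : B) : (1 : Nov B) d = if d = 0 then 1 else 0 := rfl

protected lemma mul_comm' (f g : Nov B) : f * g = g * f := by
  funext d
  rw [mul_apply, mul_apply]
  apply Finset.sum_nbij' (fun p => p.swap) (fun p => p.swap)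
  · intro p hp
    rw [Finset.HasAntidiagonal.mem_antidiagonal] at hp ⊢
    simp only [Prod.fst_swap, Prod.snd_swap]
    rw [add_comm]; exact hp
  · intro p hp
    rw [Finset.HasAntidiagonal.mem_antidiagonal] at hp ⊢
    simp only [Prod.fst_swap, Prod.snd_swap]
    rw [add_comm]; exact hp
  · intro p _; rfl
  · intro p _; rfl
  · intro p _
    simp only [Prod.fst_swap, Prod.snd_swap]
    ring

protected lemma mul_assoc' (f g k : Nov B) : f * g * k = f * (g * k) := by
  funext d
  simp only [mul_apply, Finset.sum_mul, Finset.mul_sum, Finset.sum_sigma']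
  apply Finset.sum_nbij' (fun ⟨⟨_i, j⟩, ⟨k, l⟩⟩ ↦ ⟨(k, l + j), (l, j)⟩)
    (fun ⟨⟨i, _j⟩, ⟨k, l⟩⟩ ↦ ⟨(i + k, l), (i, k)⟩)
  all_goals
    rintro ⟨⟨a, b⟩, ⟨c, e⟩⟩ h
    simp only [Finset.mem_sigma, Finset.HasAntidiagonal.mem_antidiagonal] at h ⊢
    obtain ⟨h1, h2⟩ := h
    subst h2
    first
      | (subst h1; simp [add_assoc])
      | (subst h1; simp [mul_assoc])

protected lemma one_mul' (f : Nov B) : 1 * f = f := by
  funext d
  rw [mul_apply, Finset.sum_eq_single (0, d)]
  · simp [one_apply]
  · rintro ⟨a, b⟩ hp hne
    rw [Finset.HasAntidiagonal.mem_antidiagonal] at hp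
    simp only at hp
    rw [one_apply, if_neg, zero_mul]
    rintro rfl
    apply hne
    rw [zero_add] at hp
    rw [hp]
  · intro h
    exfalso
    apply h
    rw [Finset.HasAntidiagonal.mem_antidiagonal]
    simp

protected lemma left_distrib' (f g k : Nov B) : f * (g + k) = f * g + f * k := by
  funext d
  rw [add_apply, mul_apply, mul_apply, mul_apply, ← Finset.sum_add_distrib]
  apply Finset.sum_congr rfl
  intro dd _
  rw [add_apply]
  ring

instance : CommRing (Nov B) :=
  { (inferInstance : AddCommGroup (Nov B)) with
    mul := (· * ·)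
    one := 1
    mul_assoc := Nov.mul_assoc'
    one_mul := Nov.one_mul'
    mul_one := fun f => by rw [Nov.mul_comm', Nov.one_mul']
    left_distrib := Nov.left_distrib'
    right_distrib := fun f g k => by
      rw [Nov.mul_comm', Nov.left_distrib', Nov.mul_comm' k f, Nov.mul_comm' k g]
    zero_mul := fun f => by
      funext d
      rw [mul_apply]
      exact Finset.sum_eq_zero fun dd _ => by rw [zero_apply, zero_mul]
    mul_zero := fun f => by
      funext d
      rw [mul_apply]
      exact Finset.sum_eq_zero fun dd _ => by rw [zero_apply, mul_zero]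
    mul_comm := Nov.mul_comm' }

/-- constants -/
noncomputable def const (c : ℂ) : Nov B := fun d => if d = 0 then c else 0

lemma const_apply (c : ℂ) (d : B) : (const c : Nov B) d = if d = 0 then c else 0 := rfl

/-- constants -/
noncomputable def constHom : ℂ →+* Nov B where
  toFun c := const c
  map_one' := rfl
  map_zero' := by funext d; simp [zero_apply, const_apply]
  map_add' a b := by
    funext d
    rw [add_apply, const_apply, const_apply, const_apply]
    by_cases h : d = 0 <;> simp [h]
  map_mul' a b := by
    funext d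
    rw [mul_apply]
    simp only [const_apply]
    by_cases h : d = 0
    · subst h
      rw [Finset.sum_eq_single (0, 0)]
      · simp
      · rintro ⟨x, y⟩ hp hne
        rw [Finset.HasAntidiagonal.mem_antidiagonal] at hp
        simp only at hp ⊢
        by_cases hx : x = 0
        · subst hx
          rw [zero_add] at hp
          subst hp
          exact absurd rfl hne
        · simp [hx]
      · intro h
        exfalso
        apply h
        rw [Finset.HasAntidiagonal.mem_antidiagonal]
        simp
    · rw [if_neg h]
      symm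
      apply Finset.sum_eq_zero
      rintro ⟨x, y⟩ hp
      rw [Finset.HasAntidiagonal.mem_antidiagonal] at hp
      simp only at hp ⊢
      by_cases hx : x = 0
      · subst hx
        rw [zero_add] at hp
        subst hp
        simp [h]
      · simp [hx]

noncomputable instance : Algebra ℂ (Nov B) := constHom.toAlgebra

lemma algebraMap_apply' (c : ℂ) (d : B) :
    (algebraMap ℂ (Nov B) c) d = if d = 0 then c else 0 := rfl

lemma smul_apply (c : ℂ) (f : Nov B) (d : B) : (c • f) d = c * f d := by
  rw [Algebra.smul_def, mul_apply, Finset.sum_eq_single (0, d)]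
  · simp [algebraMap_apply']
  · rintro ⟨a, b⟩ hp hne
    rw [Finset.HasAntidiagonal.mem_antidiagonal] at hp
    simp only at hp
    rw [algebraMap_apply', if_neg, zero_mul]
    rintro rfl
    apply hne
    rw [zero_add] at hp
    rw [hp]
  · intro h
    exfalso
    apply h
    rw [Finset.HasAntidiagonal.mem_antidiagonal]
    simp

lemma neg_apply (f : Nov B) (d : B) : (-f) d = - f d := rfl

lemma sum_apply' {ι : Type*} (s : Finset ι) (f : ι → Nov B) (d : B) :
    (∑ i ∈ s, f i) d = ∑ i ∈ s, f i d := by
  classical
  induction s using Finset.induction_on with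
  | empty => rfl
  | insert i s hi ih => rw [Finset.sum_insert hi, Finset.sum_insert hi, add_apply, ih]

lemma neg_one_pow_mul_apply (n : ℕ) (f : Nov B) (d : B) :
    ((-1) ^ n * f) d = (-1) ^ n * f d := by
  rcases Nat.even_or_odd n with h | h
  · rw [h.neg_one_pow, h.neg_one_pow, one_mul, one_mul]
  · rw [h.neg_one_pow, h.neg_one_pow, neg_one_mul, neg_one_mul, neg_apply]

end Nov

end Vale.Agent.P269.H728
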