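import Vale.Agent.P269.Defs

/-!
# Signed unshuffle sums with values in a commutative ring
-/

namespace Vale.Agent.P269.H728

open Vale.Agent.P269

variable {X : Cohomology} {R : Type*} [CommRing R]

/-- total degree of a list of insertions -/
def pl (l : List X.Ins) : ℕ := (l.map X.par).sum

@[simp] lemma pl_nil : pl ([] : List X.Ins) = 0 := rfl
@[simp] lemma pl_cons (x : X.Ins) (l : List X.Ins) : pl (x :: l) = X.par x + pl l := by
  simp [pl]
@[simp] lemma pl_append (l l' : List X.Ins) : pl (l ++ l') = pl l + pl l' := by
  simp [pl]

/-- signed unshuffle sum -/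
def sp (f : List X.Ins → List X.Ins → R) : List X.Ins → R
  | [] => f [] []
  | x :: l => sp (fun a b => f (x :: a) b) l +
      sp (fun a b => (-1) ^ (X.par x * pl a) * f a (x :: b)) l

@[simp] lemma sp_nil (f : List X.Ins → List X.Ins → R) : sp f [] = f [] [] := rfl
lemma sp_cons (f : List X.Ins → List X.Ins → R) (x : X.Ins) (l : List X.Ins) :
    sp f (x :: l) = sp (fun a b => f (x :: a) b) l +
      sp (fun a b => (-1) ^ (X.par x * pl a) * f a (x :: b)) l := rfl

lemma sp_congr {l : List X.Ins} {f g : List X.Ins → List X.Ins → R}
    (h : ∀ a b, pl a + pl b = pl l → a.length + b.length = l.length → f a b = g a b) :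
    sp f l = sp g l := by
  induction l generalizing f g with
  | nil => exact h [] [] rfl rfl
  | cons x l ih =>
    rw [sp_cons, sp_cons]
    congr 1
    · apply ih
      intro a b hab hl
      apply h
      · simp [← hab, add_assoc]
      · simp [← hl]; omega
    · apply ih
      intro a b hab hl
      rw [h]
      · simp [← hab]; ring
      · simp [← hl]; omega

lemma sp_congr' {l : List X.Ins} {f g : List X.Ins → List X.Ins → R}
    (h : ∀ a b, f a b = g a b) : sp f l = sp g l := sp_congr fun a b _ _ => h a b

lemma sp_zero (l : List X.Ins) : sp (fun _ _ => (0 : R)) l = 0 := by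
  induction l with
  | nil => rfl
  | cons x l ih => rw [sp_cons]; simp [ih]

lemma sp_add (f g : List X.Ins → List X.Ins → R) (l : List X.Ins) :
    sp (fun a b => f a b + g a b) l = sp f l + sp g l := by
  induction l generalizing f g with
  | nil => rfl
  | cons x l ih =>
    rw [sp_cons, sp_cons, sp_cons, ih]
    simp only [mul_add]
    rw [ih]
    ring

lemma sp_mul (c : R) (f : List X.Ins → List X.Ins → R) (l : List X.Ins) :
    sp (fun a b => c * f a b) l = c * sp f l := by
  induction l generalizing f with
  | nil => rfl
  | cons x l ih =>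
    rw [sp_cons, sp_cons, ih, mul_add, ← ih (fun a b => (-1) ^ (X.par x * pl a) * f a (x :: b))]
    congr 1
    apply sp_congr'
    intro a b
    ring

lemma sp_smul {S : Type*} [CommRing S] [Algebra S R] (c : S) (f : List X.Ins → List X.Ins → R)
    (l : List X.Ins) :
    sp (fun a b => c • f a b) l = c • sp f l := by
  simp only [Algebra.smul_def]
  exact sp_mul _ _ _

lemma sp_neg (f : List X.Ins → List X.Ins → R) (l : List X.Ins) :
    sp (fun a b => - f a b) l = - sp f l := by
  have := sp_mul (-1) f l
  simpa using this

lemma sp_sub (f g : List X.Ins → List X.Ins → R) (l : List X.Ins) :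
    sp (fun a b => f a b - g a b) l = sp f l - sp g l := by
  simp only [sub_eq_add_neg]
  rw [sp_add, sp_neg]

lemma sp_sum {ι : Type*} (s : Finset ι) (f : ι → List X.Ins → List X.Ins → R)
    (l : List X.Ins) :
    sp (fun a b => ∑ i ∈ s, f i a b) l = ∑ i ∈ s, sp (f i) l := by
  classical
  induction s using Finset.induction_on with
  | empty => simp [sp_zero]
  | insert i s hi ih =>
    simp only [Finset.sum_insert hi]
    rw [sp_add, ih]

/-- swapping the two parts -/
lemma sp_comm (f : List X.Ins → List X.Ins → R) (l : List X.Ins) :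
    sp f l = sp (fun a b => (-1) ^ (pl a * pl b) * f b a) l := by
  induction l generalizing f with
  | nil => simp
  | cons x l ih =>
    rw [sp_cons, sp_cons, ih, ih (fun a b => (-1) ^ (X.par x * pl a) * f a (x :: b)), add_comm]
    congr 1
    · apply sp_congr'
      intro a b
      rw [← mul_assoc, ← pow_add, pl_cons, add_mul, mul_comm (pl a) (pl b)]
      rw [add_comm]
    · apply sp_congr'
      intro a b
      rw [← mul_assoc, ← pow_add, pl_cons]
      congr 1
      rw [mul_add, ← add_assoc, mul_comm (pl a) (X.par x), ← two_mul, pow_add, pow_mul]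
      simp

/-- sign depending on the total degree can be pulled out -/
lemma sp_sign (n : ℕ) (f : List X.Ins → List X.Ins → R) (l : List X.Ins) :
    sp (fun a b => (-1) ^ (n * pl a) * ((-1) ^ (n * pl b) * f a b)) l =
      (-1) ^ (n * pl l) * sp f l := by
  rw [← sp_mul]
  apply sp_congr
  intro a b hab _
  rw [← hab, ← mul_assoc, ← pow_add, ← mul_add]

lemma sp_assoc (f : List X.Ins → List X.Ins → List X.Ins → R) (l : List X.Ins) :
    sp (fun a b => sp (fun b₁ b₂ => f a b₁ b₂) b) l =
      sp (fun a b => sp (fun a₁ a₂ => f a₁ a₂ b) a) l := by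
  induction l generalizing f with
  | nil => rfl
  | cons x l ih =>
    rw [sp_cons, sp_cons, ih]
    simp only [sp_cons]
    rw [sp_add]
    rw [add_assoc]
    congr 1
    simp only [mul_add]
    rw [sp_add]
    congr 1
    · rw [← ih (fun a b₁ b₂ => (-1) ^ (X.par x * pl a) * f a (x :: b₁) b₂)]
      apply sp_congr'
      intro a b
      rw [sp_mul]
    · have := ih (fun a b₁ b₂ => (-1) ^ (X.par x * pl a) * ((-1) ^ (X.par x * pl b₁) *
        f a b₁ (x :: b₂)))
      simp only [sp_mul, sp_sign] at this
      exact this

/-- sum over the choice of one entry, which is moved to the front -/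
def pk (f : X.Ins → List X.Ins → R) : List X.Ins → R
  | [] => 0
  | x :: l => f x l + pk (fun y l' => (-1) ^ (X.par x * X.par y) * f y (x :: l')) l

@[simp] lemma pk_nil (f : X.Ins → List X.Ins → R) : pk f [] = 0 := rfl
lemma pk_cons (f : X.Ins → List X.Ins → R) (x : X.Ins) (l : List X.Ins) :
    pk f (x :: l) = f x l + pk (fun y l' => (-1) ^ (X.par x * X.par y) * f y (x :: l')) l := rfl

lemma pk_congr {l : List X.Ins} {f g : X.Ins → List X.Ins → R}
    (h : ∀ y l', X.par y + pl l' = pl l → l'.length + 1 = l.length → f y l' = g y l') :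
    pk f l = pk g l := by
  induction l generalizing f g with
  | nil => rfl
  | cons x l ih =>
    rw [pk_cons, pk_cons]
    congr 1
    · apply h <;> simp
    · apply ih
      intro y l' h1 h2
      rw [h]
      · rw [pl_cons, pl_cons, ← h1]; ring
      · simp [← h2]

lemma pk_congr' {l : List X.Ins} {f g : X.Ins → List X.Ins → R}
    (h : ∀ y l', f y l' = g y l') : pk f l = pk g l := pk_congr fun a b _ _ => h a b

lemma pk_add (f g : X.Ins → List X.Ins → R) (l : List X.Ins) :
    pk (fun a b => f a b + g a b) l = pk f l + pk g l := by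
  induction l generalizing f g with
  | nil => simp
  | cons x l ih =>
    rw [pk_cons, pk_cons, pk_cons]
    simp only [mul_add]
    rw [ih]
    ring

lemma pk_zero (l : List X.Ins) : pk (fun _ _ => (0 : R)) l = 0 := by
  induction l with
  | nil => rfl
  | cons x l ih => rw [pk_cons]; simp [ih]

lemma pk_mul (c : R) (f : X.Ins → List X.Ins → R) (l : List X.Ins) :
    pk (fun a b => c * f a b) l = c * pk f l := by
  induction l generalizing f with
  | nil => simp
  | cons x l ih =>
    rw [pk_cons, pk_cons, mul_add,
      ← ih (fun y l' => (-1) ^ (X.par x * X.par y) * f y (x :: l'))]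
    congr 1
    apply pk_congr'
    intro a b
    ring

lemma pk_neg (f : X.Ins → List X.Ins → R) (l : List X.Ins) :
    pk (fun a b => - f a b) l = - pk f l := by
  have := pk_mul (-1) f l
  simpa using this

lemma pk_sum {ι : Type*} (s : Finset ι) (f : ι → X.Ins → List X.Ins → R)
    (l : List X.Ins) :
    pk (fun a b => ∑ i ∈ s, f i a b) l = ∑ i ∈ s, pk (f i) l := by
  classical
  induction s using Finset.induction_on with
  | empty => simp [pk_zero]
  | insert i s hi ih =>
    simp only [Finset.sum_insert hi]
    rw [pk_add, ih]

lemma pk_sign (n : ℕ) (f : X.Ins → List X.Ins → R) (l : List X.Ins) :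
    pk (fun y l' => (-1) ^ (n * X.par y) * ((-1) ^ (n * pl l') * f y l')) l =
      (-1) ^ (n * pl l) * pk f l := by
  rw [← pk_mul]
  apply pk_congr
  intro a b hab _
  rw [← hab, ← mul_assoc, ← pow_add, ← mul_add]

/-- choosing an entry, then splitting with the chosen entry in the first part -/
lemma pk_spA (g : X.Ins → List X.Ins → List X.Ins → R) (l : List X.Ins) :
    pk (fun y l' => sp (fun a b => g y a b) l') l =
      sp (fun a b => pk (fun y a' => g y a' b) a) l := by
  induction l generalizing g with
  | nil => simp
  | cons x l ih =>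
    rw [pk_cons, sp_cons]
    simp only [pk_cons, sp_cons, mul_add]
    rw [sp_add, pk_add, add_assoc]
    congr 1
    congr 1
    · rw [← ih]
      apply pk_congr'
      intro y l'
      rw [sp_mul]
    · have := ih (fun y a b => (-1) ^ (X.par x * X.par y) * ((-1) ^ (X.par x * pl a) *
        g y a (x :: b)))
      simp only [sp_mul, pk_sign] at this
      exact this

/-- choosing an entry, then splitting with the chosen entry in the second part -/
lemma pk_spB (g : List X.Ins → X.Ins → List X.Ins → R) (l : List X.Ins) :
    pk (fun y l' => sp (fun a b => (-1) ^ (X.par y * pl a) * g a y b) l') l =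
      sp (fun a b => pk (fun y b' => g a y b') b) l := by
  induction l generalizing g with
  | nil => simp
  | cons x l ih =>
    rw [pk_cons, sp_cons]
    simp only [pk_cons, sp_cons, mul_add]
    rw [sp_add, pk_add]
    have h1 : pk (fun y l' => (-1) ^ (X.par x * X.par y) *
        sp (fun a b => (-1) ^ (X.par y * pl (x :: a)) * g (x :: a) y b) l') l =
        sp (fun a b => pk (fun y b' => g (x :: a) y b') b) l := by
      rw [← ih (fun a y b => g (x :: a) y b)]
      apply pk_congr'
      intro y l'
      rw [← sp_mul]
      apply sp_congr'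
      intro a b
      rw [← mul_assoc, ← pow_add, pl_cons, mul_add, ← add_assoc, mul_comm (X.par y) (X.par x),
        ← two_mul, pow_add, pow_mul]
      simp
    have h2 : pk (fun y l' => (-1) ^ (X.par x * X.par y) *
        sp (fun a b => (-1) ^ (X.par x * pl a) * ((-1) ^ (X.par y * pl a) * g a y (x :: b))) l') l =
        sp (fun a b => (-1) ^ (X.par x * pl a) * pk (fun y b' => (-1) ^ (X.par x * X.par y) *
          g a y (x :: b')) b) l := by
      have := ih (fun a y b => (-1) ^ (X.par x * pl a) * ((-1) ^ (X.par x * X.par y) *
        g a y (x :: b)))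
      simp only [pk_mul] at this
      rw [← this]
      apply pk_congr'
      intro y l'
      rw [← sp_mul]
      apply sp_congr'
      intro a b
      ring
    rw [h1, h2]
    ring

/-- extend the operator `T` on insertions to a derivation -/
def dv (T : X.Ins → (X.Ins → R) →ₗ[R] R) (F : List X.Ins → R) : List X.Ins → R
  | [] => 0
  | x :: l => T x (fun y => F (y :: l)) + dv T (fun l' => F (x :: l')) l

end Vale.Agent.P269.H728
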