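import Vale.Agent.P269.H728.LX

/-!
# Genus zero: symmetric functions of insertions, consequences of the recursion relation
-/

namespace Vale.Agent.P269.H728

open Vale.Agent.P269 Finset

variable {X : Cohomology} {R : Type*} [CommRing R]

lemma sgn_eq {m n : ℕ} (h : Even m ↔ Even n) : (-1 : R) ^ m = (-1) ^ n := by
  rcases Nat.even_or_odd m with hm | hm
  · rw [Even.neg_one_pow hm, Even.neg_one_pow (h.mp hm)]
  · have hn : Odd n := by
      rw [← Nat.not_even_iff_odd] at hm ⊢
      tauto
    rw [Odd.neg_one_pow hm, Odd.neg_one_pow hn]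

lemma sgn_z {m n : ℕ} (h : (m : ZMod 2) = n) : (-1 : R) ^ m = (-1) ^ n := by
  rw [ZMod.natCast_eq_natCast_iff'] at h
  apply sgn_eq
  rw [Nat.even_iff, Nat.even_iff, h]

lemma even_z {m : ℕ} (h : Even m) : (m : ZMod 2) = 0 := by
  rw [ZMod.natCast_eq_zero_iff]
  exact h.two_dvd

lemma iff_z {m n : ℕ} (h : Even m ↔ Even n) : (m : ZMod 2) = n := by
  rw [ZMod.natCast_eq_natCast_iff', ]
  rcases Nat.even_or_odd m with hm | hm
  · rw [Nat.even_iff.mp hm, Nat.even_iff.mp (h.mp hm)]
  · have hn : Odd n := by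
      rw [← Nat.not_even_iff_odd] at hm ⊢
      tauto
    rw [Nat.odd_iff.mp hm, Nat.odd_iff.mp hn]

lemma sq_z (c : ZMod 2) : c * c = c := by
  revert c; decide

lemma sign_key (u v y b c A B : ℕ) (h1 : Even (c + (v + A))) (h2 : Even b ↔ Even c) :
    (-1 : R) ^ (u * (v + (A + B)) + y * (A + B) + b + c * (v + A) + (u * (b + B) + y * B)) =
      (-1) ^ (y * A) := by
  apply sgn_z
  have e1 := even_z h1
  have e2 := iff_z h2
  have e3 := sq_z (c : ZMod 2)
  have e4 : (2 : ZMod 2) = 0 := rfl
  push_cast at e1 ⊢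
  linear_combination ((u : ZMod 2) + c) * e1 + ((u : ZMod 2) + 1) * e2 +
    ((u : ZMod 2) * B + y * B) * e4 - e3

/-- graded symmetry -/
def Sym (F : List X.Ins → R) : Prop :=
  ∀ l₁ x y l₂, F (l₁ ++ x :: y :: l₂) = (-1) ^ (X.par x * X.par y) * F (l₁ ++ y :: x :: l₂)

lemma Sym.cons {F : List X.Ins → R} (h : Sym F) (u : X.Ins) : Sym (fun l => F (u :: l)) :=
  fun l₁ x y l₂ => h (u :: l₁) x y l₂

lemma Sym.mv {F : List X.Ins → R} (h : Sym F) (p l₁ : List X.Ins) (x : X.Ins)
    (l₂ : List X.Ins) :
    F (p ++ (l₁ ++ x :: l₂)) = (-1) ^ (X.par x * pl l₁) * F (p ++ x :: (l₁ ++ l₂)) := by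
  induction l₁ generalizing p with
  | nil => simp
  | cons y l₁ ih =>
    have h1 := ih (p ++ [y])
    simp only [List.append_assoc, List.singleton_append] at h1
    rw [List.cons_append, h1, h, ← mul_assoc, ← pow_add, pl_cons, List.cons_append]
    congr 2
    ring

lemma Sym.sw {F : List X.Ins → R} (h : Sym F) (x y : X.Ins) (l : List X.Ins) :
    F (x :: y :: l) = (-1) ^ (X.par x * X.par y) * F (y :: x :: l) := h [] x y l

lemma Sym.sw1 {F : List X.Ins → R} (h : Sym F) (u x y : X.Ins) (l : List X.Ins) :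
    F (u :: x :: y :: l) = (-1) ^ (X.par x * X.par y) * F (u :: y :: x :: l) := h [u] x y l

/-- `T` preserves parity -/
def ParT (T : X.Ins → (X.Ins → R) →ₗ[R] R) : Prop :=
  ∀ y (f : X.Ins → R) (n : ℕ), T y (fun y' => (-1) ^ (n * X.par y') * f y') =
    (-1) ^ (n * X.par y) * T y f

lemma dv_eq_pk {T : X.Ins → (X.Ins → R) →ₗ[R] R} (hT : ParT T) {G : List X.Ins → R}
    (hG : Sym G) (l : List X.Ins) :
    dv T G l = pk (fun y l' => T y (fun y' => G (y' :: l'))) l := by
  induction l generalizing G with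
  | nil => rfl
  | cons x l ih =>
    rw [pk_cons, dv, ih (hG.cons x)]
    congr 1
    apply pk_congr'
    intro y l'
    rw [← hT]
    congr 1
    funext y'
    exact hG.sw _ _ _

lemma map_sp (φ : (X.Ins → R) →ₗ[R] R) (f : List X.Ins → List X.Ins → X.Ins → R)
    (l : List X.Ins) :
    φ (fun y => sp (fun a b => f a b y) l) = sp (fun a b => φ (f a b)) l := by
  induction l generalizing f with
  | nil => rfl
  | cons x l ih =>
    simp only [sp_cons]
    have h1 := map_add φ (fun y => sp (fun a b => f (x :: a) b y) l)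
      (fun y => sp (fun a b => (-1) ^ (X.par x * pl a) * f a (x :: b) y) l)
    refine Eq.trans h1 ?_
    rw [ih, ih (fun a b y => (-1) ^ (X.par x * pl a) * f a (x :: b) y)]
    congr 1
    apply sp_congr'
    intro a b
    exact map_smul φ ((-1) ^ (X.par x * pl a)) (f a (x :: b))

/-- extracting splittings whose first part is empty -/
lemma sp_first (c : R) (k : List X.Ins → R) (l : List X.Ins) :
    sp (fun a b => (if a = [] then c else 0) * k b) l = c * k l := by
  induction l generalizing k with
  | nil => simp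
  | cons x l ih =>
    rw [sp_cons]
    have h1 : sp (fun a b => (if x :: a = [] then c else 0) * k b) l = 0 := by
      have h0 : sp (fun a b => (if x :: a = [] then c else 0) * k b) l =
          sp (fun _ _ => (0 : R)) l := by
        apply sp_congr'
        intro a b
        simp
      rw [h0, sp_zero]
    have h2 : sp (fun a b => (-1) ^ (X.par x * pl a) *
        ((if a = [] then c else 0) * k (x :: b))) l =
        sp (fun a b => (if a = [] then c else 0) * (fun b => k (x :: b)) b) l := by
      apply sp_congr'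
      intro a b
      by_cases ha : a = []
      · subst ha; simp
      · simp [ha]
    rw [h1, h2, ih, zero_add]

/-- extracting splittings whose second part is empty -/
lemma sp_last (c : R) (k : List X.Ins → R) (l : List X.Ins) :
    sp (fun a b => k a * (if b = [] then c else 0)) l = k l * c := by
  rw [sp_comm]
  have : sp (fun a b => (-1) ^ (pl a * pl b) * (k b * (if a = [] then c else 0))) l =
      sp (fun a b => (if a = [] then c else 0) * k b) l := by
    apply sp_congr'
    intro a b
    by_cases ha : a = []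
    · subst ha; simp [mul_comm]
    · simp [ha]
  rw [this, sp_first, mul_comm]

/-- splittings whose first part is a singleton -/
lemma sp_single (s : List X.Ins → R) (hs : ∀ l, l.length ≠ 1 → s l = 0)
    (k : List X.Ins → R) (l : List X.Ins) :
    sp (fun a b => s a * k b) l = pk (fun y l' => s [y] * k l') l := by
  induction l generalizing s k with
  | nil => simp [hs]
  | cons x l ih =>
    rw [sp_cons, pk_cons]
    congr 1
    · rw [← sp_first]
      apply sp_congr'
      intro a b
      by_cases ha : a = []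
      · subst ha; simp
      · rw [hs, if_neg ha]
        simpa using ha
    · have h1 := ih (fun a => (-1) ^ (X.par x * pl a) * s a)
        (fun l hl => by rw [hs l hl, mul_zero]) (fun b => k (x :: b))
      have h2 : sp (fun a b => (-1) ^ (X.par x * pl a) * (s a * k (x :: b))) l =
          sp (fun a b => ((-1) ^ (X.par x * pl a) * s a) * k (x :: b)) l := by
        apply sp_congr'
        intro a b
        ring
      rw [h2, h1]
      apply pk_congr'
      intro y l'
      simp only [pl_cons, pl_nil, add_zero]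
      ring

variable [Algebra ℂ R]

/-- contraction with the inverse of the pairing -/
noncomputable def nd (f : X.I → X.I → R) : R := ∑ b, ∑ c, X.η⁻¹ b c • f b c

lemma nd_congr {f g : X.I → X.I → R}
    (h : ∀ b c, X.η⁻¹ b c ≠ 0 → f b c = g b c) : nd f = nd g := by
  unfold nd
  apply Finset.sum_congr rfl
  intro b _
  apply Finset.sum_congr rfl
  intro c _
  by_cases hbc : X.η⁻¹ b c = 0
  · simp [hbc]
  · rw [h b c hbc]

lemma nd_congr' {f g : X.I → X.I → R} (h : ∀ b c, f b c = g b c) : nd f = nd g :=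
  nd_congr fun b c _ => h b c

lemma nd_add (f g : X.I → X.I → R) : nd (fun b c => f b c + g b c) = nd f + nd g := by
  unfold nd
  simp only [smul_add, Finset.sum_add_distrib]

lemma nd_neg (f : X.I → X.I → R) : nd (fun b c => - f b c) = - nd f := by
  unfold nd
  simp only [smul_neg, Finset.sum_neg_distrib]

lemma nd_sub (f g : X.I → X.I → R) : nd (fun b c => f b c - g b c) = nd f - nd g := by
  unfold nd
  simp only [smul_sub, Finset.sum_sub_distrib]

lemma nd_mul (r : R) (f : X.I → X.I → R) : nd (fun b c => r * f b c) = r * nd f := by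
  unfold nd
  simp only [Finset.mul_sum, mul_smul_comm]

lemma nd_smul (r : ℂ) (f : X.I → X.I → R) : nd (fun b c => r • f b c) = r • nd f := by
  unfold nd
  simp only [Finset.smul_sum]
  apply Finset.sum_congr rfl
  intro b _
  apply Finset.sum_congr rfl
  intro c _
  rw [smul_comm]

lemma nd_zero : nd (fun (_ _ : X.I) => (0 : R)) = 0 := by
  unfold nd; simp

lemma nd_swap (f : X.I → X.I → R) :
    nd f = nd (fun b c => (-1) ^ (pc b) * f c b) := by
  unfold nd
  rw [Finset.sum_comm]
  apply Finset.sum_congr rfl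
  intro b _
  apply Finset.sum_congr rfl
  intro c _
  rw [ηinv_symm b c, mul_smul]
  change _ = X.η⁻¹ b c • ((-1) ^ (pc b) * f c b)
  rcases Nat.even_or_odd (pc b) with h | h
  · rw [Even.neg_one_pow h, Even.neg_one_pow h, one_smul, one_mul]
  · rw [Odd.neg_one_pow h, Odd.neg_one_pow h]
    simp

lemma map_nd (φ : (X.Ins → R) →ₗ[R] R) (f : X.I → X.I → X.Ins → R) :
    φ (fun y => nd (fun b c => f b c y)) = nd (fun b c => φ (f b c)) := by
  unfold nd
  have : (fun y => ∑ b, ∑ c, X.η⁻¹ b c • f b c y) = ∑ b, ∑ c, X.η⁻¹ b c • f b c := by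
    funext y
    simp [Finset.sum_apply]
  rw [this, map_sum]
  apply Finset.sum_congr rfl
  intro b _
  rw [map_sum]
  apply Finset.sum_congr rfl
  intro c _
  rw [LinearMap.map_smul_of_tower]

lemma sp_nd (f : X.I → X.I → List X.Ins → List X.Ins → R) (l : List X.Ins) :
    sp (fun a b => nd (fun i j => f i j a b)) l = nd (fun i j => sp (f i j) l) := by
  unfold nd
  rw [sp_sum]
  apply Finset.sum_congr rfl
  intro i _
  rw [sp_sum]
  apply Finset.sum_congr rfl
  intro j _
  rw [sp_smul]

lemma pk_smul (c : ℂ) (f : X.Ins → List X.Ins → R) (l : List X.Ins) :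
    pk (fun a b => c • f a b) l = c • pk f l := by
  simp only [Algebra.smul_def]
  exact pk_mul _ _ _

lemma pk_nd (f : X.I → X.I → X.Ins → List X.Ins → R) (l : List X.Ins) :
    pk (fun a b => nd (fun i j => f i j a b)) l = nd (fun i j => pk (f i j) l) := by
  unfold nd
  rw [pk_sum]
  apply Finset.sum_congr rfl
  intro i _
  rw [pk_sum]
  apply Finset.sum_congr rfl
  intro j _
  rw [pk_smul]

lemma map_nT (φ : (X.Ins → R) →ₗ[R] R) (u : X.Ins) (f : X.Ins → X.Ins → R) :
    φ (fun y => nT u (fun w => f w y)) = nT u (fun w => φ (f w)) := by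
  unfold nT
  have : (fun y => (X.μ u.2 + u.1 + 1 / 2) • f (zz u) y + ∑ c, X.R u.2 c • f (u.1, c) y) =
      (X.μ u.2 + u.1 + 1 / 2) • f (zz u) + ∑ c, X.R u.2 c • f (u.1, c) := by
    funext y
    simp [Finset.sum_apply]
  rw [this, map_add, map_sum, LinearMap.map_smul_of_tower]
  congr 1
  apply Finset.sum_congr rfl
  intro c _
  rw [LinearMap.map_smul_of_tower]

lemma nT_add (u : X.Ins) (f g : X.Ins → R) :
    nT u (fun w => f w + g w) = nT u f + nT u g := by
  unfold nT
  simp only [smul_add, Finset.sum_add_distrib]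
  abel

lemma nT_neg (u : X.Ins) (f : X.Ins → R) :
    nT u (fun w => - f w) = - nT u f := by
  unfold nT
  simp only [smul_neg, Finset.sum_neg_distrib]
  abel

lemma nT_mul (u : X.Ins) (r : R) (f : X.Ins → R) :
    nT u (fun w => r * f w) = r * nT u f := by
  unfold nT
  simp only [mul_add, Finset.mul_sum, mul_smul_comm]

lemma nT_smul (u : X.Ins) (r : ℂ) (f : X.Ins → R) :
    nT u (fun w => r • f w) = r • nT u f := by
  simp only [Algebra.smul_def]
  exact nT_mul _ _ _

lemma nT_sum {ι : Type*} (s : Finset ι) (u : X.Ins) (f : ι → X.Ins → R) :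
    nT u (fun w => ∑ i ∈ s, f i w) = ∑ i ∈ s, nT u (f i) := by
  classical
  induction s using Finset.induction_on with
  | empty => simp [nT]
  | insert i s hi ih =>
    simp only [Finset.sum_insert hi]
    rw [nT_add, ih]

lemma nT_nd (u : X.Ins) (f : X.I → X.I → X.Ins → R) :
    nT u (fun w => nd (fun b c => f b c w)) = nd (fun b c => nT u (f b c)) := by
  unfold nd
  rw [nT_sum]
  apply Finset.sum_congr rfl
  intro i _
  rw [nT_sum]
  apply Finset.sum_congr rfl
  intro j _
  rw [nT_smul]

lemma nT_sp (u : X.Ins) (f : X.Ins → List X.Ins → List X.Ins → R) (l : List X.Ins) :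
    nT u (fun w => sp (f w) l) = sp (fun a b => nT u (fun w => f w a b)) l := by
  unfold nT
  rw [sp_add, sp_smul, sp_sum]
  simp only [sp_smul]

lemma nT_pk (u : X.Ins) (f : X.Ins → X.Ins → List X.Ins → R) (l : List X.Ins) :
    nT u (fun w => pk (f w) l) = pk (fun a b => nT u (fun w => f w a b)) l := by
  unfold nT
  rw [pk_add, pk_smul, pk_sum]
  simp only [pk_smul]

/-- the pairing, with values in `R` -/
noncomputable def pairR (M : Matrix X.I X.I ℂ) (l : List X.Ins) : R :=
  algebraMap ℂ R (X.pairing M l)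

lemma pairing_len (M : Matrix X.I X.I ℂ) (l : List X.Ins) (h : l.length ≠ 2) :
    X.pairing M l = 0 := by
  match l, h with
  | [], _ => rfl
  | [x], _ => simp [Cohomology.pairing]
  | [x, y], h => simp at h
  | x :: y :: z :: l, _ => simp [Cohomology.pairing]

lemma pairing_succ (M : Matrix X.I X.I ℂ) (n : ℕ) (a : X.I) (l : List X.Ins) :
    X.pairing M ((n + 1, a) :: l) = 0 := by
  simp [Cohomology.pairing]

lemma pairing_succ' (M : Matrix X.I X.I ℂ) (n : ℕ) (x : X.Ins) (a : X.I) (l : List X.Ins) :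
    X.pairing M (x :: (n + 1, a) :: l) = 0 := by
  simp [Cohomology.pairing]

lemma pairR_len (M : Matrix X.I X.I ℂ) (l : List X.Ins) (h : l.length ≠ 2) :
    pairR (R := R) M l = 0 := by
  rw [pairR, pairing_len M l h, map_zero]

lemma pairR_succ (M : Matrix X.I X.I ℂ) (n : ℕ) (a : X.I) (l : List X.Ins) :
    pairR (R := R) M ((n + 1, a) :: l) = 0 := by
  rw [pairR, pairing_succ, map_zero]

lemma pairR_succ' (M : Matrix X.I X.I ℂ) (n : ℕ) (x : X.Ins) (a : X.I) (l : List X.Ins) :
    pairR (R := R) M (x :: (n + 1, a) :: l) = 0 := by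
  rw [pairR, pairing_succ', map_zero]

lemma pairR_two (M : Matrix X.I X.I ℂ) (a b : X.I) :
    pairR (R := R) M [(0, a), (0, b)] = algebraMap ℂ R (M a b) := rfl

lemma par_virT (K : ℕ) : ParT (X := X) (R := R) (virT K) := by
  intro y f n
  rw [virT_eq, virT_eq, Finset.mul_sum]
  apply Finset.sum_congr rfl
  intro i _
  split_ifs with h
  · rw [mul_smul_comm, Finset.mul_sum]
    congr 1
    apply Finset.sum_congr rfl
    intro b _
    by_cases hb : (X.R ^ i) y.2 b = 0
    · simp [hb]
    · rw [mul_smul_comm]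
      congr 2
      apply sgn_eq
      rw [Nat.even_mul, Nat.even_mul]
      have := Rpow_par i y.2 b hb
      unfold pc at this
      unfold Cohomology.par
      simp only
      tauto
  · rw [mul_zero]

lemma par_lowT : ParT (X := X) (R := R) lowT := by
  have h : (lowT : X.Ins → (X.Ins → R) →ₗ[R] R) = virT 0 := by
    funext x
    apply LinearMap.ext
    intro f
    rw [virT_zero]
  rw [h]
  exact par_virT 0

/-- a genus zero potential (with values in a ring of Novikov type) -/
structure Gen0 (F : List X.Ins → R) : Prop where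
  sym : Sym F
  even : ∀ l, F l ≠ 0 → Even (pl l)
  string : ∀ l, F ((0, X.one) :: l) = dv lowT F l + pairR X.η l
  dilaton : ∀ l, F ((1, X.one) :: l) = ((l.length : ℂ) - 2) • F l
  trr : ∀ m a l x y, F ((m + 1, a) :: l ++ [x, y]) =
    nd (fun b c => sp (fun l₁ l₂ => F ((m, a) :: l₁ ++ [(0, b)]) *
      F ((0, c) :: l₂ ++ [x, y])) l)
  el : ∀ l, - virT 1 (1, X.one) (fun y => F (y :: l)) + dv (virT 1) F l +
    pairR (X.R * X.η) l = 0

namespace Gen0

variable {F : List X.Ins → R} (h : Gen0 F)
include h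

lemma trr2 (u v y : X.Ins) (C : List X.Ins) :
    F (u :: zz v :: y :: C) = nd (fun b c => sp (fun A B => (-1) ^ (X.par y * pl A) *
      (F ((0, c) :: v :: A) * F (u :: (0, b) :: y :: B))) C) := by
  have e1 := h.trr v.1 v.2 C u y
  have e2 : F ((v.1 + 1, v.2) :: C ++ [u, y]) =
      (-1) ^ (X.par u * (X.par v + pl C) + X.par y * pl C) * F (u :: zz v :: y :: C) := by
    have a1 := h.sym.mv [] ((v.1 + 1, v.2) :: C) u [y]
    have a2 := h.sym.mv [u, zz v] C y []
    simp only [List.nil_append, List.append_nil] at a1 a2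
    have a3 : F ((v.1 + 1, v.2) :: C ++ [u, y]) = F ((v.1 + 1, v.2) :: C ++ u :: [y]) := rfl
    rw [a3, a1]
    have a4 : F (u :: ((v.1 + 1, v.2) :: C ++ [y])) = F ([u, zz v] ++ (C ++ y :: [])) := by
      simp [zz]
    rw [a4, a2, ← mul_assoc, ← pow_add]
    congr 2
  have e3 : ∀ A (b : X.I), F ((v.1, v.2) :: A ++ [(0, b)]) =
      (-1) ^ (pc b * (X.par v + pl A)) * F ((0, b) :: v :: A) := by
    intro A b
    have a1 := h.sym.mv [] ((v.1, v.2) :: A) (0, b) []
    simp only [List.nil_append, List.append_nil] at a1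
    rw [a1]
    rfl
  have e4 : ∀ B (c : X.I), F ((0, c) :: B ++ [u, y]) =
      (-1) ^ (X.par u * (pc c + pl B) + X.par y * pl B) * F (u :: (0, c) :: y :: B) := by
    intro B c
    have a1 := h.sym.mv [] ((0, c) :: B) u [y]
    have a2 := h.sym.mv [u, (0, c)] B y []
    simp only [List.nil_append, List.append_nil] at a1 a2
    have a3 : F ((0, c) :: B ++ [u, y]) = F ((0, c) :: B ++ u :: [y]) := rfl
    rw [a3, a1]
    have a4 : F (u :: ((0, c) :: B ++ [y])) = F ([u, (0, c)] ++ (B ++ y :: [])) := by
      simp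
    rw [a4, a2, ← mul_assoc, ← pow_add]
    rfl
  rw [e2] at e1
  have e5 : F (u :: zz v :: y :: C) = (-1) ^ (X.par u * (X.par v + pl C) + X.par y * pl C) *
      ((-1) ^ (X.par u * (X.par v + pl C) + X.par y * pl C) * F (u :: zz v :: y :: C)) := by
    rw [← mul_assoc, ← pow_add, ← two_mul, pow_mul]
    simp
  rw [e5, e1, nd_swap, ← nd_mul]
  apply nd_congr
  intro b c hbc
  have hp := ηinv_par b c hbc
  rw [← mul_assoc, ← pow_add, ← sp_mul]
  apply sp_congr
  intro A B hAB _
  rw [e3, e4]
  by_cases hz : F ((0, c) :: v :: A) = 0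
  · rw [hz]; simp
  · have hev := h.even _ hz
    have hpc : X.par ((0, c) : X.Ins) = pc c := rfl
    simp only [pl_cons, hpc] at hev
    rw [← sign_key (X.par u) (X.par v) (X.par y) (pc b) (pc c) (pl A) (pl B) hev hp, ← hAB]
    simp only [pow_add]
    ring

end Gen0

end Vale.Agent.P269.H728
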