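import Vale.Agent.P269.H728.CIRing

/-!
# P269: properties of the explicit cohomology ring
-/

namespace Vale.Agent.P269.CI

open Vale.Agent.P269

variable {N : ℕ} {deg : List ℕ} (h : Ok N deg)

include h

theorem η_degX (a b : Basis N deg) (hab : ηX a b ≠ 0) :
    pX a + pX b = N - deg.length ∧ qX a + qX b = N - deg.length := by
  rw [ηX_eq h] at hab
  rw [pX_eq h, qX_eq h]
  exact (X₀ h).η_deg a b hab

theorem η_symmX (a b : Basis N deg) :
    (ηX b a : ℂ) = (-1) ^ ((pX a + qX a) * (pX b + qX b)) * ηX a b := by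
  rw [ηX_eq h, pX_eq h, qX_eq h]
  exact (X₀ h).η_symm a b

theorem η_nondegX : IsUnit (ηX : Matrix (Basis N deg) (Basis N deg) ℂ).det := by
  rw [ηX_eq h]
  exact (X₀ h).η_nondeg

theorem R_degX (a b : Basis N deg) (hab : RX a b ≠ 0) : pX b = pX a + 1 ∧ qX b = qX a + 1 := by
  rw [RX_eq h] at hab
  rw [pX_eq h, qX_eq h]
  exact (X₀ h).R_deg a b hab

theorem R_selfX (a b : Basis N deg) : ∑ c, RX a c * (ηX c b : ℂ) = ∑ c, ηX a c * RX b c := by
  rw [RX_eq h, ηX_eq h]
  exact (X₀ h).R_self a b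

end Vale.Agent.P269.CI
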