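import Vale.Agent.P269.IntData

/-!
# P269: an explicit model of a cohomology ring generated by `h` and primitive middle classes

Basis `1, h, …, h^D` and primitive classes of degree `D`, with `h^i h^j = h^{i+j}`, `h ∪ v = 0` and
`v ∪ w = (v, w) pt` for primitive `v`, `w`.
-/

namespace Vale.Agent.P269.Ring

open Vale.Agent.P269

/-- Primitive classes with their Hodge types `(pr a, D - pr a)` and their pairing `bl`, with
inverse `bl'`. -/
structure Prim (D : ℕ) where
  /-- index set of the primitive classes -/
  P : Type
  [ft : Fintype P]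
  [de : DecidableEq P]
  /-- the Hodge type is `(pr a, D - pr a)` -/
  pr : P → ℕ
  pr_le : ∀ a, pr a ≤ D
  /-- the pairing -/
  bl : P → P → ℂ
  /-- the inverse of the pairing -/
  bl' : P → P → ℂ
  bl_deg : ∀ a b, bl a b ≠ 0 → pr a + pr b = D
  bl_symm : ∀ a b, bl b a = (-1) ^ D * bl a b
  bl_mul : ∀ a b, ∑ c, bl a c * bl' c b = if a = b then 1 else 0

attribute [instance] Prim.ft Prim.de

variable {D : ℕ} (V : Prim D) (δ ρ : ℂ)

/-- index set of the basis: `inl i` is `h^i` -/
abbrev Ix : Type := Fin (D + 1) ⊕ V.P

variable {V} in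
/-- first Hodge degree -/
def pI : Ix V → ℕ
  | Sum.inl i => i
  | Sum.inr a => V.pr a

variable {V} in
/-- second Hodge degree -/
def qI : Ix V → ℕ
  | Sum.inl i => i
  | Sum.inr a => D - V.pr a

/-- the pairing, with `∫ h^D = δ` -/
def ηI : Matrix (Ix V) (Ix V) ℂ
  | Sum.inl i, Sum.inl j => if (i : ℕ) + j = D then δ else 0
  | Sum.inr a, Sum.inr b => V.bl a b
  | _, _ => 0

/-- the inverse of the pairing -/
noncomputable def ηI' : Matrix (Ix V) (Ix V) ℂ
  | Sum.inl i, Sum.inl j => if (i : ℕ) + j = D then δ⁻¹ else 0
  | Sum.inr a, Sum.inr b => V.bl' a b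
  | _, _ => 0

/-- the product with `ρ h` -/
def RI : Matrix (Ix V) (Ix V) ℂ
  | Sum.inl i, Sum.inl j => if (j : ℕ) = i + 1 then ρ else 0
  | _, _ => 0

theorem ηI_mul (hδ : δ ≠ 0) : ηI V δ * ηI' V δ = 1 := by
  ext x y
  rw [Matrix.mul_apply, Fintype.sum_sum_type]
  rcases x with i | a
  · have h2 : ∑ b : V.P, ηI V δ (Sum.inl i) (Sum.inr b) * ηI' V δ (Sum.inr b) y = 0 :=
      Finset.sum_eq_zero fun b _ => by simp [ηI]
    rw [h2, add_zero]
    rcases y with j | b
    · rw [Finset.sum_eq_single (⟨D - i, by omega⟩ : Fin (D + 1))]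
      · have hi : (i : ℕ) + (D - i) = D := by omega
        simp only [ηI, ηI', hi, if_true]
        by_cases hij : i = j
        · subst hij
          rw [if_pos (by omega), Matrix.one_apply_eq, mul_inv_cancel₀ hδ]
        · rw [if_neg (by intro h; apply hij; ext; omega), mul_zero,
            Matrix.one_apply_ne (by simpa using hij)]
      · intro k _ hk
        simp only [ηI]
        rw [if_neg, zero_mul]
        intro h
        apply hk
        ext
        simp
        omega
      · simp
    · rw [Matrix.one_apply_ne (by simp)]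
      exact Finset.sum_eq_zero fun k _ => by simp [ηI']
  · have h2 : ∑ b : Fin (D + 1), ηI V δ (Sum.inr a) (Sum.inl b) * ηI' V δ (Sum.inl b) y = 0 :=
      Finset.sum_eq_zero fun b _ => by simp [ηI]
    rw [h2, zero_add]
    rcases y with j | b
    · rw [Matrix.one_apply_ne (by simp)]
      exact Finset.sum_eq_zero fun k _ => by simp [ηI']
    · simp only [ηI, ηI', V.bl_mul, Matrix.one_apply, Sum.inr.injEq]

/-- the cohomology with its pairing -/
noncomputable def coh (hδ : δ ≠ 0) : Cohomology where
  D := D
  I := Ix V
  p := pI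
  q := qI
  one := Sum.inl 0
  η := ηI V δ
  R := RI V ρ
  p_one := rfl
  q_one := rfl
  η_deg x y h := by
    rcases x with i | a <;> rcases y with j | b <;> simp only [ηI] at h
    · rw [ite_ne_right_iff] at h
      exact ⟨h.1, h.1⟩
    · exact absurd rfl h
    · exact absurd rfl h
    · have h1 := V.pr_le a
      have h2 := V.bl_deg a b h
      simp only [pI, qI]
      omega
  η_symm x y := by
    rcases x with i | a <;> rcases y with j | b <;> simp only [ηI]
    · have : (-1 : ℂ) ^ ((pI (Sum.inl i : Ix V) + qI (Sum.inl i : Ix V)) *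
          (pI (Sum.inl j : Ix V) + qI (Sum.inl j : Ix V))) = 1 := by
        simp only [pI, qI]
        exact Even.neg_one_pow ⟨i * (j + j), by ring⟩
      rw [this, one_mul, add_comm]
    · rw [mul_zero]
    · rw [mul_zero]
    · have h1 := V.pr_le a
      have h2 := V.pr_le b
      have h3 : (-1 : ℂ) ^ ((pI (Sum.inr a : Ix V) + qI (Sum.inr a : Ix V)) *
          (pI (Sum.inr b : Ix V) + qI (Sum.inr b : Ix V))) = (-1) ^ D := by
        have e1 : pI (Sum.inr a : Ix V) + qI (Sum.inr a : Ix V) = D := by
          simp only [pI, qI]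
          omega
        have e2 : pI (Sum.inr b : Ix V) + qI (Sum.inr b : Ix V) = D := by
          simp only [pI, qI]
          omega
        rw [e1, e2, pow_mul]
        rcases Nat.even_or_odd D with h | h
        · rw [h.neg_one_pow, one_pow]
        · rw [h.neg_one_pow, h.neg_one_pow]
      rw [h3, V.bl_symm]
  η_nondeg := by
    have := ηI_mul V δ hδ
    exact Matrix.isUnit_det_of_right_inverse this
  R_deg x y h := by
    rcases x with i | a <;> rcases y with j | b <;> simp only [RI] at h
    · rw [ite_ne_right_iff] at h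
      exact ⟨h.1, h.1⟩
    · exact absurd rfl h
    · exact absurd rfl h
    · exact absurd rfl h
  R_self x y := by
    rw [Fintype.sum_sum_type, Fintype.sum_sum_type]
    rcases x with i | a <;> rcases y with j | b <;>
      simp only [ηI, RI, zero_mul, mul_zero, Finset.sum_const_zero, add_zero]
    have h1 : ∀ (i j : Fin (D + 1)), ∑ x : Fin (D + 1),
        (if (x : ℕ) = i + 1 then ρ else 0) * (if (x : ℕ) + j = D then δ else 0) =
        if (i : ℕ) + 1 + j = D then ρ * δ else 0 := by
      intro i j
      by_cases hi : (i : ℕ) + 1 < D + 1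
      · rw [Finset.sum_eq_single (⟨i + 1, hi⟩ : Fin (D + 1))]
        · simp
        · intro x _ hx
          rw [if_neg, zero_mul]
          intro h
          apply hx
          ext
          exact h
        · simp
      · rw [if_neg (by omega)]
        refine Finset.sum_eq_zero fun x _ => ?_
        rw [if_neg, zero_mul]
        intro h
        have := x.2
        omega
    rw [h1 i j]
    have h2 : ∑ x : Fin (D + 1), (if (i : ℕ) + x = D then δ else 0) *
        (if (x : ℕ) = j + 1 then ρ else 0) = ∑ x : Fin (D + 1),
        (if (x : ℕ) = j + 1 then ρ else 0) * (if (x : ℕ) + i = D then δ else 0) := by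
      refine Finset.sum_congr rfl fun x _ => ?_
      rw [mul_comm, add_comm (i : ℕ) x]
    rw [h2, h1 j i]
    congr 1
    exact propext ⟨fun h => by omega, fun h => by omega⟩

theorem coh_η_inv (hδ : δ ≠ 0) : (coh V δ ρ hδ).η⁻¹ = ηI' V δ :=
  Matrix.inv_eq_right_inv (ηI_mul V δ hδ)

/-- products of basis classes: `h^m`, a primitive class, or a multiple of the class of a point -/
inductive St : Type
  | amb (m : ℕ) : St
  | prim (a : V.P) : St
  | top (x : ℂ) : St

variable {V} in
/-- the product of two products of basis classes -/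
def mulS : St V → St V → St V
  | St.amb n, St.amb m => St.amb (n + m)
  | St.amb n, St.prim a => if n = 0 then St.prim a else St.top 0
  | St.amb n, St.top x => if n = 0 then St.top x else St.top 0
  | St.prim a, St.amb m => if m = 0 then St.prim a else St.top 0
  | St.prim a, St.prim b => St.top (V.bl a b)
  | St.prim _, St.top _ => St.top 0
  | St.top x, St.amb m => if m = 0 then St.top x else St.top 0
  | St.top _, St.prim _ => St.top 0
  | St.top _, St.top _ => St.top 0

variable {V} in
/-- a basis class -/
def emb : Ix V → St V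
  | Sum.inl i => St.amb i
  | Sum.inr a => St.prim a

variable {V} in
/-- the integral over `X` -/
noncomputable def intS : St V → ℂ
  | St.amb m => if m = D then δ else 0
  | St.prim _ => 0
  | St.top x => x

variable {V} in
/-- the product of a list of basis classes -/
def prodS (l : List (Ix V)) : St V := l.foldr (fun x s => mulS (emb x) s) (St.amb 0)

variable {V}

theorem amb_mul (s : St V) : mulS (St.amb 0) s = s := by
  cases s <;> simp [mulS]

theorem mul_amb (s : St V) : mulS s (St.amb 0) = s := by
  cases s <;> simp [mulS]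

theorem mulS_assoc (s t u : St V) : mulS (mulS s t) u = mulS s (mulS t u) := by
  cases s with
  | amb m =>
    cases t with
    | amb n =>
      cases u with
      | amb k => simp [mulS, add_assoc]
      | prim a =>
        simp only [mulS]
        rcases m with _ | m <;> rcases n with _ | n <;> simp
      | top x =>
        simp only [mulS]
        rcases m with _ | m <;> rcases n with _ | n <;> simp
    | prim a =>
      cases u with
      | amb k => rcases m with _ | m <;> rcases k with _ | k <;> simp [mulS]
      | prim b => rcases m with _ | m <;> simp [mulS]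
      | top x => rcases m with _ | m <;> simp [mulS]
    | top x =>
      cases u with
      | amb k => rcases m with _ | m <;> rcases k with _ | k <;> simp [mulS]
      | prim b => rcases m with _ | m <;> simp [mulS]
      | top x => rcases m with _ | m <;> simp [mulS]
  | prim a =>
    cases t with
    | amb n =>
      cases u with
      | amb k => rcases n with _ | n <;> rcases k with _ | k <;> simp [mulS]
      | prim b => rcases n with _ | n <;> simp [mulS]
      | top x => rcases n with _ | n <;> simp [mulS]
    | prim b =>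
      cases u with
      | amb k => rcases k with _ | k <;> simp [mulS]
      | prim c => simp [mulS]
      | top x => simp [mulS]
    | top x =>
      cases u with
      | amb k => rcases k with _ | k <;> simp [mulS]
      | prim c => simp [mulS]
      | top x => simp [mulS]
  | top x =>
    cases t with
    | amb n =>
      cases u with
      | amb k => rcases n with _ | n <;> rcases k with _ | k <;> simp [mulS]
      | prim b => rcases n with _ | n <;> simp [mulS]
      | top x => rcases n with _ | n <;> simp [mulS]
    | prim b =>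
      cases u with
      | amb k => rcases k with _ | k <;> simp [mulS]
      | prim c => simp [mulS]
      | top x => simp [mulS]
    | top x =>
      cases u with
      | amb k => rcases k with _ | k <;> simp [mulS]
      | prim c => simp [mulS]
      | top x => simp [mulS]

theorem prodS_nil : prodS ([] : List (Ix V)) = St.amb 0 := rfl

theorem prodS_cons (x : Ix V) (l : List (Ix V)) : prodS (x :: l) = mulS (emb x) (prodS l) := rfl

theorem prodS_append (l₁ l₂ : List (Ix V)) : prodS (l₁ ++ l₂) = mulS (prodS l₁) (prodS l₂) := by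
  induction l₁ with
  | nil => rw [List.nil_append, prodS_nil, amb_mul]
  | cons x l ih => rw [List.cons_append, prodS_cons, prodS_cons, ih, mulS_assoc]

theorem prodS_singleton (x : Ix V) : prodS [x] = emb x := by
  rw [prodS_cons, prodS_nil, mul_amb]

/-- scaling a multiple of the point class scales the integral -/
theorem int_top (u w : St V) (c x : ℂ) :
    intS δ (mulS u (mulS (St.top (c * x)) w)) = c * intS δ (mulS u (mulS (St.top x) w)) := by
  cases u with
  | amb m =>
    cases w with
    | amb k => rcases m with _ | m <;> rcases k with _ | k <;> simp [mulS, intS]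
    | prim b => rcases m with _ | m <;> simp [mulS, intS]
    | top y => rcases m with _ | m <;> simp [mulS, intS]
  | prim a =>
    cases w with
    | amb k => rcases k with _ | k <;> simp [mulS, intS]
    | prim b => simp [mulS, intS]
    | top y => simp [mulS, intS]
  | top z =>
    cases w with
    | amb k => rcases k with _ | k <;> simp [mulS, intS]
    | prim b => simp [mulS, intS]
    | top y => simp [mulS, intS]

/-- powers of `h` are central -/
theorem amb_comm (m : ℕ) (s : St V) : mulS (St.amb m) s = mulS s (St.amb m) := by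
  cases s with
  | amb n => simp [mulS, add_comm]
  | prim a => simp [mulS]
  | top x => simp [mulS]

/-- the product has Hodge degrees `m`, `n`, or vanishes -/
def Deg : St V → ℕ → ℕ → Prop
  | St.amb k, m, n => m = k ∧ n = k
  | St.prim a, m, n => m = V.pr a ∧ n = D - V.pr a
  | St.top x, m, n => x = 0 ∨ (m = D ∧ n = D)

theorem Deg.mul {s : St V} {m n : ℕ} (h : Deg s m n) (x : Ix V) :
    Deg (mulS (emb x) s) (pI x + m) (qI x + n) := by
  rcases x with i | a
  · cases s with
    | amb k =>
      simp only [Deg, emb, mulS, pI, qI] at h ⊢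
      omega
    | prim b =>
      simp only [Deg, emb, mulS, pI, qI] at h ⊢
      by_cases hi : (i : ℕ) = 0
      · rw [if_pos hi]
        simp only
        omega
      · rw [if_neg hi]
        simp
    | top y =>
      simp only [Deg, emb, mulS, pI, qI] at h ⊢
      by_cases hi : (i : ℕ) = 0
      · rw [if_pos hi]
        simp only
        rcases h with h | h
        · exact Or.inl h
        · right
          omega
      · rw [if_neg hi]
        simp
  · have h1 := V.pr_le a
    cases s with
    | amb k =>
      simp only [Deg, emb, mulS, pI, qI] at h ⊢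
      by_cases hk : k = 0
      · rw [if_pos hk]
        simp only
        omega
      · rw [if_neg hk]
        simp
    | prim b =>
      simp only [Deg, emb, mulS, pI, qI] at h ⊢
      by_cases hb : V.bl a b = 0
      · exact Or.inl hb
      · right
        have h2 := V.bl_deg a b hb
        omega
    | top y =>
      left
      rfl

theorem deg_prodS (l : List (Ix V)) : Deg (prodS l) (l.map pI).sum (l.map qI).sum := by
  induction l with
  | nil => exact ⟨rfl, rfl⟩
  | cons x l ih =>
    rw [prodS_cons, List.map_cons, List.map_cons, List.sum_cons, List.sum_cons]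
    exact ih.mul x

theorem Deg.eq_of_int_ne {s : St V} {m n : ℕ} (h : Deg s m n) (hs : intS δ s ≠ 0) :
    m = D ∧ n = D := by
  cases s with
  | amb k =>
    simp only [intS, ite_ne_right_iff] at hs
    obtain ⟨h1, h2⟩ := h
    exact ⟨h1.trans hs.1, h2.trans hs.1⟩
  | prim b => exact absurd rfl hs
  | top y =>
    rcases h with h | h
    · exact absurd h hs
    · exact h

theorem int_two (x y : Ix V) : intS δ (mulS (emb x) (emb y)) = ηI V δ x y := by
  rcases x with i | a <;> rcases y with j | b <;> simp only [emb, mulS, ηI]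
  · rfl
  · by_cases hi : (i : ℕ) = 0
    · rw [if_pos hi]
      rfl
    · rw [if_neg hi]
      rfl
  · by_cases hi : (j : ℕ) = 0
    · rw [if_pos hi]
      rfl
    · rw [if_neg hi]
      rfl
  · rfl

theorem int_swap (u w : St V) (x y : Ix V) :
    intS δ (mulS u (mulS (emb x) (mulS (emb y) w))) =
      (-1) ^ ((pI x + qI x) * (pI y + qI y)) *
        intS δ (mulS u (mulS (emb y) (mulS (emb x) w))) := by
  rcases x with i | a
  · have h1 : mulS (emb (Sum.inl i : Ix V)) (mulS (emb y) w) =
        mulS (emb y) (mulS (emb (Sum.inl i)) w) := by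
      rw [← mulS_assoc, ← mulS_assoc]
      congr 1
      exact amb_comm _ _
    have h2 : (-1 : ℂ) ^ ((pI (Sum.inl i : Ix V) + qI (Sum.inl i : Ix V)) * (pI y + qI y)) = 1 := by
      have e : pI (Sum.inl i : Ix V) + qI (Sum.inl i : Ix V) = i + i := rfl
      rw [e]
      exact Even.neg_one_pow ⟨i * (pI y + qI y), by ring⟩
    rw [h1, h2, one_mul]
  · rcases y with j | b
    · have h1 : mulS (emb (Sum.inl j : Ix V)) (mulS (emb (Sum.inr a)) w) =
          mulS (emb (Sum.inr a)) (mulS (emb (Sum.inl j)) w) := by
        rw [← mulS_assoc, ← mulS_assoc]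
        congr 1
      have h2 : (-1 : ℂ) ^ ((pI (Sum.inr a : Ix V) + qI (Sum.inr a : Ix V)) *
          (pI (Sum.inl j : Ix V) + qI (Sum.inl j : Ix V))) = 1 := by
        simp only [pI, qI]
        exact Even.neg_one_pow ⟨(V.pr a + (D - V.pr a)) * j, by ring⟩
      rw [h1, h2, one_mul]
    · have h1 := V.pr_le a
      have h2 := V.pr_le b
      have h3 : (-1 : ℂ) ^ ((pI (Sum.inr a : Ix V) + qI (Sum.inr a : Ix V)) *
          (pI (Sum.inr b : Ix V) + qI (Sum.inr b : Ix V))) = (-1) ^ D := by
        have e1 : pI (Sum.inr a : Ix V) + qI (Sum.inr a : Ix V) = D := by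
          simp only [pI, qI]
          omega
        have e2 : pI (Sum.inr b : Ix V) + qI (Sum.inr b : Ix V) = D := by
          simp only [pI, qI]
          omega
        rw [e1, e2, pow_mul]
        rcases Nat.even_or_odd D with h | h
        · rw [h.neg_one_pow, one_pow]
        · rw [h.neg_one_pow, h.neg_one_pow]
      rw [h3, ← mulS_assoc (emb (Sum.inr a)), ← mulS_assoc (emb (Sum.inr b))]
      have h4 : mulS (emb (Sum.inr a)) (emb (Sum.inr b)) =
          St.top ((-1) ^ D * V.bl b a : ℂ) := by
        simp only [emb, mulS]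
        rw [← V.bl_symm]
      have h5 : mulS (emb (Sum.inr b)) (emb (Sum.inr a)) = St.top (V.bl b a : ℂ) := rfl
      rw [h4, h5, int_top]

theorem ηI_mul' (hδ : δ ≠ 0) : ηI' V δ * ηI V δ = 1 :=
  mul_eq_one_comm.1 (ηI_mul V δ hδ)

/-- the contraction with the inverse pairing -/
theorem int_split (hδ : δ ≠ 0) (hD : D ≠ 0) (u w : St V) :
    ∑ x, ∑ y, ηI' V δ x y * (intS δ (mulS u (emb x)) * intS δ (mulS (emb y) w)) =
      intS δ (mulS u w) := by
  have key : ∀ (f g : Ix V → ℂ), ∑ x, ∑ y, ηI' V δ x y * (f x * g y) =
      (∑ i : Fin (D + 1), δ⁻¹ * (f (Sum.inl i) * g (Sum.inl (Fin.rev i)))) +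
      ∑ a, ∑ b, V.bl' a b * (f (Sum.inr a) * g (Sum.inr b)) := by
    intro f g
    rw [Fintype.sum_sum_type]
    congr 1
    · refine Finset.sum_congr rfl fun i _ => ?_
      rw [Fintype.sum_sum_type]
      have h2 : ∑ b : V.P, ηI' V δ (Sum.inl i) (Sum.inr b) * (f (Sum.inl i) * g (Sum.inr b)) = 0 :=
        Finset.sum_eq_zero fun b _ => by simp [ηI']
      rw [h2, add_zero, Finset.sum_eq_single (Fin.rev i)]
      · simp only [ηI']
        rw [if_pos]
        rw [Fin.val_rev]
        omega
      · intro k _ hk
        simp only [ηI']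
        rw [if_neg, zero_mul]
        intro h
        apply hk
        ext
        rw [Fin.val_rev]
        omega
      · simp
    · refine Finset.sum_congr rfl fun a _ => ?_
      rw [Fintype.sum_sum_type]
      have h2 : ∑ j : Fin (D + 1), ηI' V δ (Sum.inr a) (Sum.inl j) *
          (f (Sum.inr a) * g (Sum.inl j)) = 0 :=
        Finset.sum_eq_zero fun b _ => by simp [ηI']
      rw [h2, zero_add]
      rfl
  rw [key]
  cases u with
  | amb m =>
    have hA : ∀ a : V.P, intS δ (mulS (St.amb m) (emb (Sum.inr a : Ix V))) = 0 := by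
      intro a
      simp only [emb, mulS]
      split_ifs <;> rfl
    rw [Finset.sum_eq_zero (s := (Finset.univ : Finset V.P)) fun a _ =>
      Finset.sum_eq_zero fun b _ => by rw [hA, zero_mul, mul_zero], add_zero]
    have hB : ∀ i : Fin (D + 1), intS δ (mulS (St.amb m) (emb (Sum.inl i : Ix V))) =
        if m + i = D then δ else 0 := fun i => rfl
    by_cases hm : m ≤ D
    · rw [Finset.sum_eq_single (⟨D - m, by omega⟩ : Fin (D + 1))]
      · rw [hB, if_pos (by simp only; omega)]
        have hr : (Fin.rev (⟨D - m, by omega⟩ : Fin (D + 1))) = (⟨m, by omega⟩ : Fin (D + 1)) := by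
          ext
          rw [Fin.val_rev]
          simp only
          omega
        rw [hr, ← mul_assoc, inv_mul_cancel₀ hδ, one_mul]
        rfl
      · intro i _ hi
        rw [hB, if_neg, zero_mul, mul_zero]
        intro h
        apply hi
        ext
        simp only
        omega
      · simp
    · rw [Finset.sum_eq_zero fun i _ => by
        rw [hB, if_neg (by omega), zero_mul, mul_zero]]
      cases w with
      | amb k => exact (if_neg (by omega)).symm
      | prim b =>
        simp only [mulS]
        rw [if_neg (by omega)]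
        rfl
      | top x =>
        simp only [mulS]
        rw [if_neg (by omega)]
        rfl
  | prim a =>
    have hA : ∀ i : Fin (D + 1), intS δ (mulS (St.prim a) (emb (Sum.inl i : Ix V))) = 0 := by
      intro i
      simp only [emb, mulS]
      split_ifs <;> rfl
    rw [Finset.sum_eq_zero (s := (Finset.univ : Finset (Fin (D + 1)))) fun i _ => by
      rw [hA, zero_mul, mul_zero], zero_add]
    have hB : ∀ b : V.P, intS δ (mulS (St.prim a) (emb (Sum.inr b : Ix V))) = V.bl a b :=
      fun b => rfl
    simp only [hB]
    rw [Finset.sum_comm]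
    have h1 : ∀ c : V.P, ∑ b, V.bl' b c * (V.bl a b * intS δ (mulS (emb (Sum.inr c)) w)) =
        (if a = c then 1 else 0) * intS δ (mulS (emb (Sum.inr c)) w) := by
      intro c
      rw [← V.bl_mul, Finset.sum_mul]
      exact Finset.sum_congr rfl fun b _ => by ring
    simp only [h1, ite_mul, one_mul, zero_mul, Finset.sum_ite_eq, Finset.mem_univ, if_true]
    rfl
  | top x =>
    have hA : ∀ a : V.P, intS δ (mulS (St.top x) (emb (Sum.inr a : Ix V))) = 0 := fun a => rfl
    rw [Finset.sum_eq_zero (s := (Finset.univ : Finset V.P)) fun a _ =>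
      Finset.sum_eq_zero fun b _ => by rw [hA, zero_mul, mul_zero], add_zero]
    have hB : ∀ i : Fin (D + 1), intS δ (mulS (St.top x) (emb (Sum.inl i : Ix V))) =
        if (i : ℕ) = 0 then x else 0 := by
      intro i
      simp only [emb, mulS]
      split_ifs <;> rfl
    rw [Finset.sum_eq_single (0 : Fin (D + 1))]
    · rw [hB, if_pos (Fin.val_zero _)]
      have hr : (Fin.rev (0 : Fin (D + 1)) : ℕ) = D := by
        rw [Fin.val_rev]
        simp
      cases w with
      | amb k =>
        change δ⁻¹ * (x * if (Fin.rev (0 : Fin (D + 1)) : ℕ) + k = D then δ else 0) = _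
        rw [hr]
        simp only [mulS]
        rcases k with _ | k
        · simp only [Nat.add_zero, if_true]
          change _ = x
          field_simp
        · rw [if_neg (by omega), if_neg (by omega)]
          change _ = (0 : ℂ)
          simp
      | prim b =>
        change δ⁻¹ * (x * intS δ (if (Fin.rev (0 : Fin (D + 1)) : ℕ) = 0 then St.prim b
          else St.top 0)) = 0
        rw [hr, if_neg hD]
        simp [intS]
      | top y =>
        change δ⁻¹ * (x * intS δ (if (Fin.rev (0 : Fin (D + 1)) : ℕ) = 0 then St.top y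
          else St.top 0 : St V)) = 0
        rw [hr, if_neg hD]
        simp [intS]
    · intro i _ hi
      rw [hB, if_neg, zero_mul, mul_zero]
      intro h
      apply hi
      ext
      exact h
    · simp

/-- multiplication by `ρ h` -/
theorem sum_RI (f : Ix V → ℂ) (x : Ix V) (F : St V → ℂ) (hF : ∀ y, f y = F (emb y))
    (h0 : F (St.top 0) = 0) (hbig : F (St.amb (D + 1)) = 0) :
    ∑ y, RI V ρ x y * f y = ρ * F (mulS (St.amb 1) (emb x)) := by
  rw [Fintype.sum_sum_type]
  rcases x with i | a
  · have h2 : ∑ b : V.P, RI V ρ (Sum.inl i) (Sum.inr b) * f (Sum.inr b) = 0 :=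
      Finset.sum_eq_zero fun b _ => by simp [RI]
    rw [h2, add_zero]
    by_cases hi : (i : ℕ) + 1 < D + 1
    · rw [Finset.sum_eq_single (⟨i + 1, hi⟩ : Fin (D + 1))]
      · simp only [RI, if_true, hF]
        change ρ * F (St.amb ((i : ℕ) + 1)) = ρ * F (St.amb (1 + (i : ℕ)))
        rw [add_comm]
      · intro k _ hk
        simp only [RI]
        rw [if_neg, zero_mul]
        intro h
        apply hk
        ext
        exact h
      · simp
    · have hi' : (i : ℕ) = D := by omega
      have h3 : mulS (St.amb 1) (emb (Sum.inl i : Ix V)) = St.amb (D + 1) := by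
        simp only [emb, mulS, hi']
        rw [add_comm]
      rw [h3, hbig, mul_zero]
      refine Finset.sum_eq_zero fun k _ => ?_
      simp only [RI]
      rw [if_neg, zero_mul]
      have := k.2
      omega
  · have h3 : mulS (St.amb 1) (emb (Sum.inr a : Ix V)) = St.top 0 := by
      simp [emb, mulS]
    rw [h3, h0, mul_zero]
    rw [Finset.sum_eq_zero fun i _ => by simp [RI], Finset.sum_eq_zero fun i _ => by simp [RI],
      add_zero]

theorem int_big (u w : St V) : intS δ (mulS u (mulS (St.amb (D + 1)) w)) = 0 := by
  rw [← mulS_assoc, ← amb_comm, mulS_assoc]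
  cases hs : mulS u w with
  | amb k =>
    simp only [mulS, intS]
    rw [if_neg (by omega)]
  | prim b =>
    simp [mulS, intS]
  | top y =>
    simp [mulS, intS]

theorem int_zero (u w : St V) : intS δ (mulS u (mulS (St.top 0) w)) = 0 := by
  have := int_top δ u w 0 0
  simpa using this

theorem prod_swap (l₁ l₂ : List (Ix V)) (x y : Ix V) : intS δ (prodS (l₁ ++ x :: y :: l₂)) =
    (-1) ^ ((pI x + qI x) * (pI y + qI y)) * intS δ (prodS (l₁ ++ y :: x :: l₂)) := by
  rw [prodS_append, prodS_append, prodS_cons, prodS_cons, prodS_cons, prodS_cons]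
  exact int_swap δ _ _ x y

theorem prod_one (l : List (Ix V)) : prodS (Sum.inl 0 :: l) = prodS l := by
  rw [prodS_cons]
  change mulS (St.amb 0) (prodS l) = _
  rw [amb_mul]

theorem prod_two (x y : Ix V) : intS δ (prodS [x, y]) = ηI V δ x y := by
  rw [prodS_cons, prodS_singleton]
  exact int_two δ x y

theorem prod_split (hδ : δ ≠ 0) (hD : D ≠ 0) (l₁ l₂ : List (Ix V)) :
    intS δ (prodS (l₁ ++ l₂)) = ∑ x, ∑ y, ηI' V δ x y *
      (intS δ (prodS (l₁ ++ [x])) * intS δ (prodS (y :: l₂))) := by
  rw [prodS_append, ← int_split δ hδ hD]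
  refine Finset.sum_congr rfl fun x _ => Finset.sum_congr rfl fun y _ => ?_
  rw [prodS_append, prodS_singleton, prodS_cons]

theorem prod_c1 (l₁ l₂ : List (Ix V)) (x : Ix V) :
    ∑ b, RI V ρ x b * intS δ (prodS (l₁ ++ b :: l₂)) =
      ∑ b, RI V ρ (Sum.inl 0) b * intS δ (prodS (b :: (l₁ ++ x :: l₂))) := by
  have h1 := sum_RI ρ (fun y => intS δ (prodS (l₁ ++ y :: l₂))) x
    (fun s => intS δ (mulS (prodS l₁) (mulS s (prodS l₂))))
    (fun y => by rw [prodS_append, prodS_cons]) (int_zero δ _ _) (int_big δ _ _)
  have h2 := sum_RI ρ (fun y => intS δ (prodS (y :: (l₁ ++ x :: l₂)))) (Sum.inl 0)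
    (fun s => intS δ (mulS (St.amb 0) (mulS s (prodS (l₁ ++ x :: l₂)))))
    (fun y => by rw [prodS_cons, amb_mul]) (int_zero δ _ _) (int_big δ _ _)
  refine h1.trans (Eq.trans ?_ h2.symm)
  have h3 : mulS (St.amb 1) (emb (Sum.inl 0 : Ix V)) = St.amb 1 := rfl
  have h4 : mulS (prodS l₁) (mulS (mulS (St.amb 1) (emb x)) (prodS l₂)) =
      mulS (St.amb 0) (mulS (mulS (St.amb 1) (emb (Sum.inl 0))) (prodS (l₁ ++ x :: l₂))) := by
    rw [h3, amb_mul, prodS_append, prodS_cons, mulS_assoc, ← mulS_assoc (prodS l₁) (St.amb 1),
      ← amb_comm 1 (prodS l₁), mulS_assoc]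
  rw [h4]

/-- the integrals of products of basis classes -/
noncomputable def intData (hδ : δ ≠ 0) (hD : D ≠ 0) : IntData (coh V δ ρ hδ) where
  int l := intS δ (prodS (V := V) l)
  swap l₁ x y l₂ := prod_swap δ l₁ l₂ x y
  one l := congrArg (intS δ) (prod_one (V := V) l)
  two x y := prod_two δ x y
  deg l h := (deg_prodS (V := V) l).eq_of_int_ne δ h
  split l₁ l₂ := by
    have h1 : (coh V δ ρ hδ).η⁻¹ = ηI' V δ := coh_η_inv V δ ρ hδ
    rw [h1]
    exact prod_split δ hδ hD l₁ l₂
  c1 l₁ x l₂ := prod_c1 δ ρ l₁ l₂ x

end Vale.Agent.P269.Ring
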