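import Vale.Agent.P269.H728.Hodge
import Vale.Agent.P269.H728.Ring

/-!
# P269: the cohomology ring of a complete intersection, properties of the explicit data
-/

namespace Vale.Agent.P269.CI

open Vale.Agent.P269

variable {N : ℕ} {deg : List ℕ} (h : Ok N deg)

theorem sigma_ext {D : ℕ} {f : ℕ → ℕ} (a b : Σ r : Fin (D + 1), Fin (f r))
    (h1 : (a.1 : ℕ) = b.1) (h2 : (a.2 : ℕ) = b.2) : a = b := by
  obtain ⟨⟨r, hr⟩, ⟨i, hi⟩⟩ := a
  obtain ⟨⟨s, hs⟩, ⟨j, hj⟩⟩ := b
  simp only at h1 h2
  subst h1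
  subst h2
  rfl

/-- the primitive classes of a complete intersection -/
noncomputable abbrev primCI : Ring.Prim (N - deg.length) where
  P := Σ r : Fin (N - deg.length + 1), Fin (prim N deg r)
  pr a := a.1
  pr_le a := by
    have := a.1.2
    omega
  bl a b := if (a.1 : ℕ) + b.1 = N - deg.length ∧ (a.2 : ℕ) = b.2 then
      (if (a.1 : ℕ) ≤ b.1 then 1 else (-1) ^ (N - deg.length)) else 0
  bl' a b := if (a.1 : ℕ) + b.1 = N - deg.length ∧ (a.2 : ℕ) = b.2 then
      (if (b.1 : ℕ) ≤ a.1 then 1 else (-1) ^ (N - deg.length)) else 0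
  bl_deg a b hab := by
    rw [ite_ne_right_iff] at hab
    exact hab.1.1
  bl_symm a b := by
    by_cases hc : (a.1 : ℕ) + b.1 = N - deg.length ∧ (a.2 : ℕ) = b.2
    · rw [if_pos hc, if_pos (by rw [add_comm]; exact ⟨hc.1, hc.2.symm⟩)]
      rcases lt_trichotomy (a.1 : ℕ) (b.1 : ℕ) with hab | hab | hab
      · rw [if_neg (by omega), if_pos (by omega), mul_one]
      · rw [if_pos (by omega), if_pos (by omega), mul_one, ← hc.1, ← hab,
          Even.neg_one_pow ⟨_, rfl⟩]
      · rw [if_pos (by omega), if_neg (by omega), ← mul_pow]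
        simp
    · rw [if_neg hc, if_neg (fun hc' => hc (by rw [add_comm]; exact ⟨hc'.1, hc'.2.symm⟩)),
        mul_zero]
  bl_mul a b := by
    have ha := a.1.2
    have ha2 : (a.2 : ℕ) < prim N deg (N - deg.length - a.1) := by
      rw [Hodge.prim_symm h.pos h.lt.le a.1 (by omega)]
      exact a.2.2
    rw [Finset.sum_eq_single
      (⟨⟨N - deg.length - a.1, by omega⟩, ⟨a.2, ha2⟩⟩ :
        Σ r : Fin (N - deg.length + 1), Fin (prim N deg r))]
    · simp only
      have hc1 : (a.1 : ℕ) + (N - deg.length - a.1) = N - deg.length ∧ True := ⟨by omega, trivial⟩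
      rw [if_pos hc1]
      by_cases hab : a = b
      · subst hab
        have hc2 : N - deg.length - (a.1 : ℕ) + a.1 = N - deg.length ∧ (a.2 : ℕ) = a.2 :=
          ⟨by omega, rfl⟩
        rw [if_pos rfl, if_pos hc2]
        by_cases hc3 : (a.1 : ℕ) ≤ N - deg.length - a.1
        · rw [if_pos hc3, mul_one]
        · rw [if_neg hc3, ← mul_pow]
          simp
      · have hc2 : ¬ (N - deg.length - (a.1 : ℕ) + b.1 = N - deg.length ∧ (a.2 : ℕ) = b.2) :=
          fun hc => hab (sigma_ext a b (by omega) hc.2)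
        rw [if_neg hab, if_neg hc2, mul_zero]
    · intro c _ hc
      rw [if_neg, zero_mul]
      intro hc'
      apply hc
      exact sigma_ext c _ (by simp only; omega) hc'.2.symm
    · intro hc
      exact absurd (Finset.mem_univ _) hc

/-- the degree `∫_X h^D` -/
noncomputable def dl (deg : List ℕ) : ℂ := (deg.prod : ℕ)

include h in
theorem dl_ne : dl deg ≠ 0 := by
  unfold dl
  rw [Nat.cast_ne_zero]
  apply List.prod_ne_zero
  intro h0
  have := h.pos 0 h0
  omega

/-- the index `c_1(TX) = (N + 1 - ∑ d_j) h` -/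
noncomputable def ix (N : ℕ) (deg : List ℕ) : ℂ := (N : ℂ) + 1 - (deg.sum : ℕ)

theorem ηX_eq : (ηX : Matrix (Basis N deg) (Basis N deg) ℂ) = Ring.ηI (primCI h) (dl deg) := by
  ext a b
  rcases a with i | a <;> rcases b with j | b <;> rfl

theorem RX_eq : (RX : Matrix (Basis N deg) (Basis N deg) ℂ) = Ring.RI (primCI h) (ix N deg) := by
  ext a b
  rcases a with i | a <;> rcases b with j | b <;> rfl

theorem pX_eq : (pX : Basis N deg → ℕ) = Ring.pI (V := primCI h) := by
  funext a
  rcases a with i | a <;> rfl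

theorem qX_eq : (qX : Basis N deg → ℕ) = Ring.qI (V := primCI h) := by
  funext a
  rcases a with i | a <;> rfl

/-- auxiliary form of the cohomology -/
noncomputable abbrev X₀ : Cohomology := Ring.coh (primCI h) (dl deg) (ix N deg) (dl_ne h)

end Vale.Agent.P269.CI
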