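import Vale.Agent.P269.H728.Vir
import Vale.Agent.P269.H728.Nov
import Vale.Agent.P269.H727.L0

/-!
# All Virasoro constraints in genus zero
-/

namespace Vale.Agent.P269

open Finset H728

namespace H728

variable {X : Cohomology} {B : Type} [AddCommMonoid B] [DecidableEq B]
  [Finset.HasAntidiagonal B]

lemma eval_sp (f : List X.Ins → List X.Ins → Nov B) (l : List X.Ins) (d : B) :
    (sp f l) d = X.splitSum (fun a b => f a b d) l := by
  induction l generalizing f with
  | nil => rfl
  | cons x l ih =>
    rw [sp_cons, Nov.add_apply, ih, ih]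
    simp only [Nov.neg_one_pow_mul_apply]
    rfl

lemma eval_dv {T : X.Ins → (X.Ins → Nov B) →ₗ[Nov B] Nov B} {T' : X.Ins → (X.Ins → ℂ) → ℂ}
    (hT : ∀ x f d, (T x f) d = T' x (fun y => f y d)) (F : List X.Ins → Nov B)
    (l : List X.Ins) (d : B) :
    (dv T F l) d = X.derive T' (fun l => F l d) l := by
  induction l generalizing F with
  | nil => rw [Cohomology.derive_nil]; rfl
  | cons x l ih =>
    rw [dv, Nov.add_apply, ih, hT, Cohomology.derive_cons]

lemma eval_virT (K : ℕ) (x : X.Ins) (f : X.Ins → Nov B) (d : B) :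
    (virT K x f) d = X.vir K x (fun y => f y d) := by
  rw [virT_eq, Nov.sum_apply']
  unfold Cohomology.vir
  apply Finset.sum_congr rfl
  intro i _
  split_ifs with h
  · rw [Nov.smul_apply, Nov.sum_apply']
    congr 1
    apply Finset.sum_congr rfl
    intro b _
    rw [Nov.smul_apply]
  · rfl

lemma eval_lowT (x : X.Ins) (f : X.Ins → Nov B) (d : B) :
    (lowT x f) d = X.low x (fun y => f y d) := by
  rw [← virT_zero, eval_virT, Cohomology.vir_zero]

lemma eval_nd (f : X.I → X.I → Nov B) (d : B) :
    (nd f) d = ∑ b, ∑ c, X.η⁻¹ b c * f b c d := by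
  unfold nd
  rw [Nov.sum_apply']
  apply Finset.sum_congr rfl
  intro b _
  rw [Nov.sum_apply']
  apply Finset.sum_congr rfl
  intro c _
  rw [Nov.smul_apply]

lemma eval_qdM (K : ℕ) (Q : X.Ins → X.Ins → Nov B) (d : B) :
    (qdM K K Q) d = X.quad K (fun x y => Q x y d) := by
  rw [qdM_eq_qq]
  unfold qq Cohomology.quad
  rw [Nov.sum_apply']
  apply Finset.sum_congr rfl
  intro i _
  rw [Nov.sum_apply']
  apply Finset.sum_congr rfl
  intro mn _
  rw [Nov.sum_apply', Finset.mul_sum]
  apply Finset.sum_congr rfl
  intro a _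
  rw [Nov.sum_apply', Finset.mul_sum]
  unfold Cf
  simp only [Nov.smul_apply, Finset.mul_sum, Finset.sum_mul]
  rw [Finset.sum_comm]
  apply Finset.sum_congr rfl
  intro b _
  apply Finset.sum_congr rfl
  intro c _
  ring

lemma eval_pairR (M : Matrix X.I X.I ℂ) (l : List X.Ins) (d : B) :
    (pairR M l : Nov B) d = if d = 0 then X.pairing M l else 0 := by
  unfold pairR
  rw [Nov.algebraMap_apply']

/-- the genus zero correlators, as functions of the curve class -/
def F0 (G : GWTheory X B) (l : List X.Ins) : Nov B := fun d => G.corr 0 d l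

lemma F0_apply (G : GWTheory X B) (l : List X.Ins) (d : B) : F0 G l d = G.corr 0 d l := rfl

lemma corr_even (G : GWTheory X B) (g : ℕ) (d : B) (l : List X.Ins) (h : G.corr g d l ≠ 0) :
    Even (pl l) := by
  have h1 := G.dim_p g d l h
  have h2 := G.dim_q g d l h
  have h3 : (l.map fun x => (x.1 + X.p x.2 : ℤ)).sum = (l.map fun x => (x.1 + X.q x.2 : ℤ)).sum := by
    rw [h1, h2]
  have h4 : ∀ l : List X.Ins, ((pl l : ℕ) : ℤ) =
      (l.map fun x => (x.1 + X.p x.2 : ℤ)).sum + (l.map fun x => (x.1 + X.q x.2 : ℤ)).sum -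
        2 * (l.map fun x => (x.1 : ℤ)).sum := by
    intro l
    induction l with
    | nil => simp
    | cons x l ih =>
      rw [pl_cons]
      simp only [List.map_cons, List.sum_cons]
      push_cast
      rw [ih]
      unfold Cohomology.par
      push_cast
      ring
  have h5 := h4 l
  rw [← h3] at h5
  have h6 : Even ((pl l : ℕ) : ℤ) := by
    rw [h5]
    exact ⟨(l.map fun x => (x.1 + X.p x.2 : ℤ)).sum - (l.map fun x => (x.1 : ℤ)).sum, by ring⟩
  exact_mod_cast h6

lemma gen0 (G : GWTheory X B) : Gen0 (F0 G) where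
  sym := by
    intro l₁ x y l₂
    funext d
    rw [Nov.neg_one_pow_mul_apply, F0_apply, F0_apply]
    exact G.swap 0 d l₁ x y l₂
  even := by
    intro l hl
    have : ∃ d, G.corr 0 d l ≠ 0 := by
      by_contra hcon
      exact hl (funext fun d => by
        by_contra hd
        exact hcon ⟨d, hd⟩)
    obtain ⟨d, hd⟩ := this
    exact corr_even G 0 d l hd
  string := by
    intro l
    funext d
    rw [Nov.add_apply, eval_dv (T' := X.low) eval_lowT, eval_pairR, F0_apply]
    have := G.string 0 d l
    simp only [true_and] at this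
    exact this
  dilaton := by
    intro l
    funext d
    rw [Nov.smul_apply, F0_apply, F0_apply, G.dilaton, if_neg (by simp)]
    push_cast
    ring
  trr := by
    intro m a l x y
    funext d
    rw [eval_nd, F0_apply, G.trr]
    simp only [eval_sp, Nov.mul_apply, F0_apply]
    rw [Finset.sum_comm]
    apply Finset.sum_congr rfl
    intro b _
    rw [Finset.sum_comm]
    apply Finset.sum_congr rfl
    intro c _
    rw [← Finset.mul_sum, ← Cohomology.splitSum_sum]
  el := by
    intro l
    funext d
    have h := G.virasoro_one_of_ne 0 d l (by simp)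
    unfold GWTheory.virasoro at h
    rw [Nov.add_apply, Nov.add_apply, Nov.neg_apply, eval_virT,
      eval_dv (T' := X.vir 1) (eval_virT 1), eval_pairR]
    have h3 : X.quad 1 (G.second 0 d l) = 0 := by simp [Cohomology.quad]
    rw [h3] at h
    simp only [pow_one, mul_zero, add_zero, true_and] at h
    simp only [zero_ne_one, false_and, if_false, add_zero] at h
    exact h

end H728

namespace GWTheory

variable {X : Cohomology} {B : Type} [AddCommMonoid B] [DecidableEq B]
  [Finset.HasAntidiagonal B] (G : GWTheory X B)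

/-- All Virasoro constraints hold in genus zero. -/
theorem virasoro_genus_zero (K : ℕ) (d : B) (l : List X.Ins) : G.virasoro K 0 d l = 0 := by
  have h := congrFun ((gen0 G).VK_eq_zero K l) d
  unfold VK at h
  rw [Nov.add_apply, Nov.add_apply, Nov.add_apply, Nov.neg_apply, Nov.smul_apply, eval_virT,
    eval_dv (T' := X.vir K) (eval_virT K), eval_pairR, eval_qdM, Nov.zero_apply] at h
  unfold virasoro
  rw [if_neg (by simp : ¬ (K = 1 ∧ 0 = 1 ∧ d = 0 ∧ l = [])), add_zero]
  have h2 : G.second 0 d l = fun x y =>
      (sp (fun A C => F0 G (A ++ [x]) * F0 G (y :: C)) l : Nov B) d := by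
    funext x y
    unfold second
    rw [if_pos rfl, zero_add, Finset.Nat.antidiagonal_zero, Finset.sum_singleton, eval_sp]
    simp only [Nov.mul_apply, F0_apply]
    rw [← Cohomology.splitSum_sum]
  rw [h2]
  simp only [true_and]
  exact h

end GWTheory

end Vale.Agent.P269
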