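import Vale.Agent.P269.CIModel
import Vale.Agent.P269.Partition
import Vale.Agent.P269.H133.DegZero
import Vale.Agent.P269.H133.Uniq
import Vale.Agent.P269.H728.Genus0
import Vale.Agent.P269.H727.Main
import Vale.Agent.P269.H727.LWood
import Vale.Agent.P269.H727.Exp3

/-!
# P269: the explicit invariants of a complete intersection form a `GWTheory`
-/

namespace Vale.Agent.P269.CI

open Vale.Agent.P269

variable {N : ℕ} {deg : List ℕ} (h : Ok N deg)

theorem X_D : (X h).D = N - deg.length := rfl

theorem one_le_D : 1 ≤ (X h).D := by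
  have := h.lt
  rw [X_D]
  omega

/-- sum of the exponents of `h` -/
def aS (l : List (Basis N deg)) : ℕ :=
  (l.map (Sum.elim (fun i : Fin (N - deg.length + 1) => (i : ℕ)) fun _ => 0)).sum

/-- the primitive classes -/
def pr (l : List (Basis N deg)) :
    List (Σ r : Fin (N - deg.length + 1), Fin (prim N deg r)) := l.filterMap Sum.getRight?

theorem aS_inl (i : Fin (N - deg.length + 1)) (l : List (Basis N deg)) :
    aS (Sum.inl i :: l) = i + aS l := rfl

theorem aS_inr (a : Σ r : Fin (N - deg.length + 1), Fin (prim N deg r)) (l : List (Basis N deg)) :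
    aS (Sum.inr a :: l) = aS l := by
  simp [aS]

theorem pr_inl (i : Fin (N - deg.length + 1)) (l : List (Basis N deg)) :
    pr (Sum.inl i :: l) = pr l := rfl

theorem pr_inr (a : Σ r : Fin (N - deg.length + 1), Fin (prim N deg r)) (l : List (Basis N deg)) :
    pr (Sum.inr a :: l) = a :: pr l := rfl

theorem sum_pX : ∀ l : List (Basis N deg),
    (l.map pX).sum = aS l + ((pr l).map fun a => (a.1 : ℕ)).sum
  | [] => rfl
  | Sum.inl i :: l => by
    rw [List.map_cons, List.sum_cons, sum_pX l, aS_inl, pr_inl, add_assoc]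
    rfl
  | Sum.inr a :: l => by
    rw [List.map_cons, List.sum_cons, sum_pX l, aS_inr, pr_inr, List.map_cons, List.sum_cons,
      add_left_comm]
    rfl

theorem sum_qX : ∀ l : List (Basis N deg),
    (l.map qX).sum = aS l + ((pr l).map fun a => (N - deg.length - a.1 : ℕ)).sum
  | [] => rfl
  | Sum.inl i :: l => by
    rw [List.map_cons, List.sum_cons, sum_qX l, aS_inl, pr_inl, add_assoc]
    rfl
  | Sum.inr a :: l => by
    rw [List.map_cons, List.sum_cons, sum_qX l, aS_inr, pr_inr, List.map_cons, List.sum_cons,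
      add_left_comm]
    rfl

/-- the product in terms of the total exponent of `h` and of the primitive classes -/
noncomputable def stOf (s : ℕ) : List (primCI h).P → Ring.St (primCI h)
  | [] => Ring.St.amb s
  | [a] => if s = 0 then Ring.St.prim a else Ring.St.top 0
  | [a, b] => if s = 0 then Ring.St.top ((primCI h).bl a b) else Ring.St.top 0
  | _ => Ring.St.top 0

theorem prodS_eq : ∀ l : List (Basis N deg),
    Ring.prodS (V := primCI h) l = stOf h (aS l) (pr l)
  | [] => rfl
  | Sum.inl i :: l => by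
    rw [Ring.prodS_cons, prodS_eq l, aS_inl, pr_inl]
    change Ring.mulS (Ring.St.amb (i : ℕ)) _ = _
    rcases pr l with _ | ⟨a, _ | ⟨b, _ | ⟨c, t⟩⟩⟩
    · rfl
    · by_cases h1 : aS l = 0 <;> by_cases h2 : (i : ℕ) = 0 <;> simp [stOf, Ring.mulS, h1, h2]
    · by_cases h1 : aS l = 0 <;> by_cases h2 : (i : ℕ) = 0 <;> simp [stOf, Ring.mulS, h1, h2]
    · simp [stOf, Ring.mulS]
  | Sum.inr x :: l => by
    rw [Ring.prodS_cons, prodS_eq l, aS_inr, pr_inr]
    change Ring.mulS (Ring.St.prim (V := primCI h) x) _ = _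
    rcases pr l with _ | ⟨a, _ | ⟨b, _ | ⟨c, t⟩⟩⟩
    · rfl
    · by_cases h1 : aS l = 0 <;> simp [stOf, Ring.mulS, h1]
    · by_cases h1 : aS l = 0 <;> simp [stOf, Ring.mulS, h1]
    · simp [stOf, Ring.mulS]

theorem intX_eq (l : List (Basis N deg)) :
    intX l = Ring.intS (dl deg) (Ring.prodS (V := primCI h) l) := by
  rw [prodS_eq]
  unfold intX
  rw [sum_pX, sum_qX]
  change (if _ then (match pr l with
    | [] => (deg.prod : ℂ)
    | [a, b] => ηX (Sum.inr a) (Sum.inr b)
    | _ => 0) else 0) = _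
  rcases pr l with _ | ⟨a, _ | ⟨b, _ | ⟨c, t⟩⟩⟩
  · simp only [List.map_nil, List.sum_nil, add_zero, and_self]
    simp only [stOf, Ring.intS, dl]
  · simp only [stOf]
    split_ifs <;> rfl
  · simp only [List.map_cons, List.map_nil, List.sum_cons, List.sum_nil, add_zero]
    have ha := a.1.2
    have hb := b.1.2
    have e1 : (ηX (Sum.inr a) (Sum.inr b) : ℂ) = (primCI h).bl a b := rfl
    by_cases hc : aS l = 0
    · simp only [stOf]
      rw [if_pos hc]
      by_cases hd : (a.1 : ℕ) + b.1 = N - deg.length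
      · rw [if_pos (by omega), e1]
        rfl
      · rw [if_neg (by omega)]
        change (0 : ℂ) = (primCI h).bl a b
        by_contra h'
        exact hd ((primCI h).bl_deg a b (Ne.symm h'))
    · simp only [stOf]
      rw [if_neg hc, if_neg (by omega)]
      rfl
  · simp only [stOf]
    split_ifs <;> rfl

theorem isCI : IsCompleteIntersection N deg (X h) where
  deg_pos := h.pos
  dim := by
    have := h.lt
    rw [X_D]
    omega
  lefschetz a ha := by
    rcases a with i | a
    · exact absurd rfl ha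
    · have := a.1.2
      change (a.1 : ℕ) + (N - deg.length - a.1) = N - deg.length
      omega
  ambient r hr h2 := by
    rw [X_D] at hr h2
    rw [Finset.card_eq_one]
    refine ⟨(Sum.inl ⟨r, by omega⟩ : Basis N deg), Finset.eq_singleton_iff_unique_mem.2
      ⟨Finset.mem_filter.2 ⟨Finset.mem_univ _, rfl, rfl⟩, fun a ha => ?_⟩⟩
    obtain ⟨-, h3, h4⟩ := Finset.mem_filter.1 ha
    rcases a with i | a
    · congr 1
      ext
      exact h3
    · exfalso
      have h5 := a.1.2
      change (a.1 : ℕ) = r at h3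
      change N - deg.length - (a.1 : ℕ) = r at h4
      omega
  hirzebruch r := by
    rw [Hodge.chiY_coeff h.pos h.lt.le, Finset.sum_filter]
    have e1 : (∑ a : (X h).I, if (X h).p a = r then (-1 : ℤ) ^ (X h).q a else 0) =
        (∑ i : Fin (N - deg.length + 1), if (i : ℕ) = r then (-1 : ℤ) ^ (i : ℕ) else 0) +
        ∑ a : (Σ r : Fin (N - deg.length + 1), Fin (prim N deg r)),
          if (a.1 : ℕ) = r then (-1 : ℤ) ^ (N - deg.length - a.1 : ℕ) else 0 :=
      Fintype.sum_sum_type _
    rw [e1, Fintype.sum_sigma]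
    simp only [Finset.sum_const, Finset.card_univ, Fintype.card_fin]
    congr 1
    · by_cases hr : r < N - deg.length + 1
      · rw [if_pos (by omega), Finset.sum_eq_single (⟨r, hr⟩ : Fin (N - deg.length + 1))]
        · simp
        · intro i _ hi
          rw [if_neg]
          intro h'
          apply hi
          ext
          exact h'
        · simp
      · rw [if_neg (by omega)]
        refine Finset.sum_eq_zero fun i _ => ?_
        have := i.2
        rw [if_neg (by omega)]
    · by_cases hr : r < N - deg.length + 1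
      · rw [Finset.sum_eq_single (⟨r, hr⟩ : Fin (N - deg.length + 1))]
        · simp only [if_true, nsmul_eq_mul]
          rw [mul_comm]
          congr 1
          have : N - deg.length + r = (N - deg.length - r) + 2 * r := by omega
          rw [this, pow_add, pow_mul]
          simp
        · intro i _ hi
          rw [if_neg, smul_zero]
          intro h'
          apply hi
          ext
          exact h'
        · simp
      · rw [Hodge.prim_zero h.pos h.lt.le r (by omega)]
        simp only [Nat.cast_zero, mul_zero]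
        refine Finset.sum_eq_zero fun i _ => ?_
        have := i.2
        rw [if_neg (by omega), smul_zero]

theorem ηX_inv : (ηX : Matrix (Basis N deg) (Basis N deg) ℂ)⁻¹ =
    Ring.ηI' (primCI h) (dl deg) := by
  rw [ηX_eq h]
  exact Matrix.inv_eq_right_inv (Ring.ηI_mul _ _ (dl_ne h))

/-- the cup product integrals -/
noncomputable def A : IntData (X h) where
  int l := intX l
  swap l₁ x y l₂ := by
    change intX _ = (-1) ^ ((pX x + qX x) * (pX y + qX y)) * intX _
    rw [intX_eq h, intX_eq h, pX_eq h, qX_eq h]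
    exact Ring.prod_swap (V := primCI h) (dl deg) l₁ l₂ x y
  one l := by
    rw [intX_eq h, intX_eq h]
    exact congrArg (Ring.intS (dl deg)) (Ring.prod_one (V := primCI h) l)
  two x y := by
    change intX _ = ηX x y
    rw [intX_eq h, ηX_eq h]
    exact Ring.prod_two (V := primCI h) (dl deg) x y
  deg l hl := by
    rw [intX_eq h] at hl
    have := (Ring.deg_prodS (V := primCI h) l).eq_of_int_ne (dl deg) hl
    change (List.map pX l).sum = _ ∧ (List.map qX l).sum = _
    rw [pX_eq h, qX_eq h]
    exact this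
  split l₁ l₂ := by
    change intX _ = ∑ b : Basis N deg, ∑ c : Basis N deg, (ηX⁻¹ : Matrix _ _ ℂ) b c * _
    rw [ηX_inv h]
    simp only [intX_eq h]
    exact Ring.prod_split (V := primCI h) (dl deg) (dl_ne h) (by have := h.lt; omega) l₁ l₂
  c1 l₁ x l₂ := by
    change ∑ b : Basis N deg, RX x b * _ = ∑ b : Basis N deg, RX (Sum.inl 0) b * _
    rw [RX_eq h]
    simp only [intX_eq h]
    exact Ring.prod_c1 (V := primCI h) (dl deg) (ix N deg) l₁ l₂ x

/-- the class `c_{D-1}(TX)`, a multiple of `h^{D-1}` with `∫_X h ∪ c_{D-1} = hcD N deg`, and the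
invariants `⟨⟩_{g,0}`, `g ≥ 2`, of a threefold -/
noncomputable def P (Ng : ℕ → ℂ) : H133.PosData (X h) where
  v := fun b => match b with
    | Sum.inl i => if (i : ℕ) = N - deg.length - 1 then (hcD N deg : ℂ) / dl deg else 0
    | Sum.inr _ => 0
  v_deg b hb := by
    rcases b with i | a
    · simp only [ne_eq, ite_eq_right_iff, Classical.not_imp] at hb
      exact ⟨hb.1, hb.1⟩
    · exact absurd rfl hb
  N := Ng

/-- the degree `c_1(TX)·d` of the class of `d` times a line -/
noncomputable def c1d (N : ℕ) (deg : List ℕ) : ℕ →+ ℤ where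
  toFun d := ((N : ℤ) + 1 - deg.sum) * d
  map_zero' := by simp
  map_add' a b := by push_cast; ring

/-- the explicit theory -/
noncomputable def theory (Ng : ℕ → ℂ) : GWTheory (X h) ℕ :=
  H133.degZero (A h) (P h Ng) (one_le_D h) (c1d N deg)

theorem theory_corr (Ng : ℕ → ℂ) (g d : ℕ) (l : List (X h).Ins) : (theory h Ng).corr g d l =
    if d = 0 then H133.corrZ (A h) (P h Ng) (one_le_D h) g l else 0 := rfl

theorem lowDegree (hD : 2 ≤ N - deg.length) : (X h).LowDegree := by
  intro a ha
  rcases a with i | a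
  · change (i : ℕ) + i ≤ 1 at ha
    have hi : i = 0 := by
      ext
      simp only [Fin.val_zero]
      omega
    rw [hi]
  · have := a.1.2
    change (a.1 : ℕ) + (N - deg.length - a.1) ≤ 1 at ha
    omega

/-- the functional `l ↦ ∫ c_{D-1} ∪ φ_{l_1} ∪ ⋯` -/
theorem Jc_amb (Ng : ℕ → ℂ) (l : List (Basis N deg)) (hl : pr l = []) (hs : aS l = 1) :
    (H133.Jc (A h) (P h Ng) (one_le_D h)).J l = (hcD N deg : ℂ) := by
  have hD := h.lt
  have h1 : (H133.Jc (A h) (P h Ng) (one_le_D h)).J l =
      ∑ c : Basis N deg, (P h Ng).v c * intX (l ++ [c]) := rfl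
  rw [h1, Fintype.sum_sum_type]
  have h4 : ∀ b : (Σ r : Fin (N - deg.length + 1), Fin (prim N deg r)),
      (P h Ng).v (Sum.inr b) = 0 := fun b => rfl
  rw [Finset.sum_eq_zero (s := (Finset.univ :
      Finset (Σ r : Fin (N - deg.length + 1), Fin (prim N deg r)))) fun b _ => by
    rw [h4, zero_mul], add_zero,
    Finset.sum_eq_single (⟨N - deg.length - 1, by omega⟩ : Fin (N - deg.length + 1))]
  · have h5 : (P h Ng).v (Sum.inl ⟨N - deg.length - 1, by omega⟩) =
        (hcD N deg : ℂ) / dl deg := if_pos rfl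
    have h6 : intX (l ++ [Sum.inl ⟨N - deg.length - 1, by omega⟩]) = dl deg := by
      rw [intX_eq h, Ring.prodS_append, Ring.prodS_singleton, prodS_eq, hl, hs]
      change (if 1 + (N - deg.length - 1) = N - deg.length then dl deg else 0) = dl deg
      rw [if_pos (by omega)]
    rw [h5, h6, div_mul_cancel₀ _ (dl_ne h)]
  · intro i _ hi
    have h7 : (P h Ng).v (Sum.inl i) = 0 := if_neg fun h' => hi (by ext; exact h')
    rw [h7, zero_mul]
  · simp

theorem Jpt_amb : ∀ (l : List (Basis N deg)), pr l = [] → aS l = 0 →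
    (H133.Jpt (A h)).J l = 1
  | [], _, _ => H133.Jpt_nil (A h)
  | Sum.inl i :: l, hl, hs => by
    rw [aS_inl] at hs
    have hi : i = 0 := by
      ext
      simp only [Fin.val_zero]
      omega
    rw [hi]
    have h1 := (H133.Jpt (A h)).one l
    rw [show (X h).one = (Sum.inl 0 : Basis N deg) from rfl] at h1
    rw [h1]
    exact Jpt_amb l hl (by omega)
  | Sum.inr a :: l, hl, _ => by
    rw [pr_inr] at hl
    exact absurd hl (by simp)

theorem c1cD_eq (Ng : ℕ → ℂ) :
    H133.c1cD (A h) (P h Ng) (one_le_D h) = ix N deg * (hcD N deg : ℂ) := by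
  have hD := h.lt
  have h1 : H133.c1cD (A h) (P h Ng) (one_le_D h) =
      ∑ b : Basis N deg, RX (Sum.inl 0) b *
        (H133.Jc (A h) (P h Ng) (one_le_D h)).J [b] := rfl
  rw [h1, Fintype.sum_sum_type]
  have h2 : ∀ b : (Σ r : Fin (N - deg.length + 1), Fin (prim N deg r)),
      (RX (Sum.inl 0) (Sum.inr b) : ℂ) = 0 := fun b => rfl
  rw [Finset.sum_eq_zero (s := (Finset.univ :
      Finset (Σ r : Fin (N - deg.length + 1), Fin (prim N deg r)))) fun b _ => by
    rw [h2, zero_mul], add_zero]
  rw [Finset.sum_eq_single (⟨1, by omega⟩ : Fin (N - deg.length + 1))]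
  · have h3 : (RX (Sum.inl 0) (Sum.inl ⟨1, by omega⟩ : Basis N deg) : ℂ) = ix N deg := by
      simp [RX, ix]
    rw [h3, Jc_amb h Ng _ rfl rfl]
  · intro i _ hi
    have h3 : (RX (Sum.inl 0) (Sum.inl i : Basis N deg) : ℂ) = 0 := by
      simp only [RX]
      rw [if_neg]
      intro h'
      apply hi
      ext
      simpa using h'
    rw [h3, zero_mul]
  · simp

theorem pr_nil_of (l : List (Basis N deg)) (hD : 3 ≤ N - deg.length)
    (hl : (l.map pX).sum + (l.map qX).sum ≤ 2) : pr l = [] ∧ (l.map pX).sum = aS l := by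
  rw [sum_pX, sum_qX] at hl
  rcases hp : pr l with _ | ⟨a, t⟩
  · rw [sum_pX, hp]
    simp
  · exfalso
    rw [hp] at hl
    simp only [List.map_cons, List.sum_cons] at hl
    have := a.1.2
    omega

theorem theory_corr_eq (hD : 3 ≤ N - deg.length) (Ng : ℕ → ℂ) (g d : ℕ) (l : List (X h).Ins) :
    (theory h Ng).corr g d l = corr h Ng g d l := by
  rw [theory_corr]
  unfold corr
  by_cases hd : d = 0
  swap
  · rw [if_neg hd, if_pos hd]
  rw [if_pos hd, if_neg (not_not.2 hd)]
  unfold H133.corrZ
  by_cases hg : g = 0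
  · rw [if_pos hg, if_pos hg]
    unfold IntData.corr0 psi0 H728.W H728.gW H728.fP
    change _ * intX _ = _
    congr 1
    rw [← div_eq_mul_inv]
    split_ifs
    · rfl
    · rw [zero_div]
  rw [if_neg hg, if_neg hg]
  unfold H133.corrPos
  have hm1 : (l.map fun x => pX x.2).sum = ((l.map Prod.snd).map pX).sum := by
    rw [List.map_map]
    rfl
  have hm2 : (l.map fun x => qX x.2).sum = ((l.map Prod.snd).map qX).sum := by
    rw [List.map_map]
    rfl
  rw [hm1, hm2]
  generalize hl : l.map Prod.snd = t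
  have hms : H133.ms l = (l.map Prod.fst : List ℕ) := rfl
  have hJ0 : (H133.Jpt (A h)).J t = if (t.map pX).sum = 0 ∧ (t.map qX).sum = 0 then 1 else 0 := by
    split_ifs with hc
    · obtain ⟨h1, h2⟩ := pr_nil_of t hD (by omega)
      exact Jpt_amb h t h1 (by omega)
    · by_contra hne
      have := (H133.Jpt (A h)).deg t hne
      exact hc this
  have hJ1 : (H133.Jc (A h) (P h Ng) (one_le_D h)).J t =
      if (t.map pX).sum = 1 ∧ (t.map qX).sum = 1 then (hcD N deg : ℂ) else 0 := by
    split_ifs with hc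
    · obtain ⟨h1, h2⟩ := pr_nil_of t hD (by omega)
      exact Jc_amb h Ng t h1 (by omega)
    · by_contra hne
      have := (H133.Jc (A h) (P h Ng) (one_le_D h)).deg t hne
      exact hc this
  unfold H133.tens
  rw [hl, hJ0, hJ1]
  by_cases hg1 : g = 1
  · rw [if_pos hg1, if_pos hg1]
    by_cases hc : (t.map pX).sum = 0 ∧ (t.map qX).sum = 0
    · rw [if_pos hc, if_pos hc, if_neg (by omega)]
      simp only [mul_one, mul_zero, sub_zero]
      rfl
    · rw [if_neg hc, if_neg hc]
      split_ifs
      · rw [hms]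
        unfold lam1 H133.L1
        ring
      · ring
  · rw [if_neg hg1, if_neg hg1, X_D]
    by_cases h3 : N - deg.length = 3
    · rw [if_pos h3]
      by_cases hc : (t.map pX).sum = 0 ∧ (t.map qX).sum = 0
      · rw [if_pos hc, if_pos ⟨h3, hc⟩, mul_one]
        rfl
      · rw [if_neg hc, if_neg (fun h' => hc h'.2), mul_zero, mul_zero]
    · rw [if_neg h3, if_neg (fun h' => h3 h'.1)]

theorem theory_LW (hD : 2 ≤ N - deg.length) (Ng : ℕ → ℂ) :
    (X h).strμ2 = (X h).D * (X h).χ / 12 + (theory h Ng).c1cD / 6 := by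
  have h1 : (theory h Ng).c1cD = ix N deg * (hcD N deg : ℂ) := c1cD_eq h Ng
  rw [h1, LW.libgober_wood (isCI h) (by rw [X_D]; omega)]
  rfl

theorem theory_virasoro (hD : 3 ≤ N - deg.length) (hK : N + 1 ≤ deg.sum) (Ng : ℕ → ℂ)
    (K g d : ℕ) (l : List (X h).Ins) : (theory h Ng).virasoro K g d l = 0 := by
  by_cases hg : g = 0
  · subst hg
    exact (theory h Ng).virasoro_genus_zero K d l
  · refine (theory h Ng).virasoro_eq_zero_of_vdim_nonpos (lowDegree h (by omega))
      (theory_LW h (by omega) Ng) hg d ?_ K l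
    unfold GWTheory.vdim
    have h1 : (theory h Ng).c1 d = ((N : ℤ) + 1 - deg.sum) * d := rfl
    have h2 : ((N : ℤ) + 1 - deg.sum) * d ≤ 0 :=
      mul_nonpos_of_nonpos_of_nonneg (by
        have : (N : ℤ) + 1 ≤ ((deg.sum : ℕ) : ℤ) := by exact_mod_cast hK
        linarith) (by positivity)
    have h3 : (0 : ℤ) ≤ (g - 1) * ((X h).D - 3) := by
      rw [X_D]
      exact mul_nonneg (by omega) (by omega)
    rw [h1]
    linarith

section Potential

variable {Y : Cohomology} {B : Type} [AddCommMonoid B] [DecidableEq B]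
  [Finset.HasAntidiagonal B] (G : GWTheory Y B)

theorem powF_eq (m j : ℕ) (d : B) (l : List Y.Ins) : Y.powF G.corr m j d l = G.powF m j d l := by
  induction m generalizing j d l with
  | zero => rfl
  | succ m ih => simp only [Cohomology.powF, GWTheory.powF, ih]

theorem Z_eq (n : ℤ) (d : B) (l : List Y.Ins) : Y.Z G.corr n d l = G.Z n d l := by
  simp only [Cohomology.Z, GWTheory.Z, powF_eq]

theorem LZ_eq (K : ℕ) (n : ℤ) (d : B) (l : List Y.Ins) :
    Y.LZ G.corr K n d l = G.LZ K n d l := by
  have h1 : Y.Z G.corr = G.Z := by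
    funext n d l
    exact Z_eq G n d l
  unfold Cohomology.LZ GWTheory.LZ
  rw [h1]

end Potential

theorem LZ_corr (hD : 3 ≤ N - deg.length) (hK : N + 1 ≤ deg.sum) (Ng : ℕ → ℂ)
    (K : ℕ) (n : ℤ) (d : ℕ) (l : List (X h).Ins) : (X h).LZ (corr h Ng) K n d l = 0 := by
  have h1 : corr h Ng = (theory h Ng).corr := by
    funext g d l
    exact (theory_corr_eq h hD Ng g d l).symm
  rw [h1, LZ_eq]
  exact (theory h Ng).LZ_eq_zero (H := AddMonoidHom.id ℕ) (fun d hd => hd)
    (fun g d l => theory_virasoro h hD hK Ng K g d l) n d l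

/-- every system of invariants is the explicit one -/
theorem corr_unique (hD : 3 ≤ N - deg.length) (hdeg : N + (N - deg.length) ≤ deg.sum + 1)
    {B : Type} [AddCommMonoid B] [DecidableEq B] [Finset.HasAntidiagonal B]
    (G : GWTheory (X h) B) (H : B →+ ℕ) (hH : ∀ d, H d = 0 → d = 0)
    (hc1 : ∀ d, G.c1 d = ((N : ℤ) + 1 - (deg.sum : ℕ)) * H d)
    (hc1cD : G.c1cD = ((N : ℂ) + 1 - (deg.sum : ℕ)) * (hcD N deg : ℂ)) (g : ℕ) (d : B)
    (l : List (X h).Ins) (hgd : N - deg.length = 3 ∨ ¬ (g = 0 ∧ d = 0)) :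
    G.corr g d l = corr h (fun g => G.corr g 0 []) g (H d) l := by
  have hl := h.lt
  rw [← theory_corr_eq h hD]
  have key := H133.corr_explicit (lowDegree h (by omega)) (by rw [X_D]; exact hD)
    (one_le_D h) (h := (Sum.inl ⟨1, by omega⟩ : Basis N deg)) (fun a ha => ?_) ?_ G
    (fun d hd => ?_) (A h) (P h fun g => G.corr g 0 []) ?_ (fun _ g _ => rfl) g d l
    (by rw [X_D]; exact hgd)
  · rw [key, theory_corr]
    by_cases hd : d = 0
    · subst hd
      rw [map_zero, if_pos rfl, if_pos rfl]
    · rw [if_neg hd, if_neg fun h' => hd (hH d h')]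
  · rcases a with i | a
    · change (i : ℕ) + i = 2 at ha
      congr 1
      ext
      simp only
      omega
    · have := a.1.2
      change (a.1 : ℕ) + (N - deg.length - a.1) = 2 at ha
      omega
  · have h1 : (X h).R (X h).one (Sum.inl ⟨1, by omega⟩ : Basis N deg) = ix N deg := by
      change RX (Sum.inl 0) (Sum.inl ⟨1, by omega⟩ : Basis N deg) = _
      simp [RX, ix]
    rw [h1]
    unfold ix
    intro h0
    have h2 : ((N + 1 : ℕ) : ℂ) = (deg.sum : ℕ) := by
      rw [Nat.cast_add, Nat.cast_one]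
      exact sub_eq_zero.mp h0
    have h3 : N + 1 = deg.sum := by exact_mod_cast h2
    omega
  · rw [hc1, X_D]
    have h1 : 1 ≤ H d := Nat.one_le_iff_ne_zero.2 fun h' => hd (hH d h')
    have h2 : ((N : ℤ) + 1 - (deg.sum : ℕ)) * (H d : ℤ) ≤ ((N : ℤ) + 1 - (deg.sum : ℕ)) * 1 :=
      mul_le_mul_of_nonpos_left (by exact_mod_cast h1) (by omega)
    omega
  · rw [hc1cD, c1cD_eq]
    rfl

end Vale.Agent.P269.CI
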