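import Vale.Agent.P269.CIData

/-!
# P269: the primitive Hodge numbers of a complete intersection

Hirzebruch's formula gives non-negative and symmetric primitive Hodge numbers.
-/

namespace Vale.Agent.P269.Hodge

open PowerSeries CI

/-- `ℤ[y][[z]]` -/
abbrev A : Type := PowerSeries (Polynomial ℤ)

/-- the coefficient of `z^n` is a polynomial in `y` of degree at most `n`, symmetric up to the
sign `(-1)^n` -/
def Sy (f : A) : Prop :=
  ∀ n, (coeff n f).natDegree ≤ n ∧ (coeff n f).reflect n = (-1) ^ n * coeff n f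

/-- the sign of the coefficient of `z^n y^r` is `(-1)^{n+r}` -/
def Po (f : A) : Prop := ∀ n r, 0 ≤ (-1) ^ (n + r) * (coeff n f).coeff r

theorem Sy.add {f g : A} (hf : Sy f) (hg : Sy g) : Sy (f + g) := by
  intro n
  obtain ⟨h1, h2⟩ := hf n
  obtain ⟨h3, h4⟩ := hg n
  refine ⟨?_, ?_⟩
  · rw [map_add]
    exact (Polynomial.natDegree_add_le _ _).trans (max_le h1 h3)
  · rw [map_add, Polynomial.reflect_add, h2, h4, mul_add]

theorem Sy.neg {f : A} (hf : Sy f) : Sy (-f) := by
  intro n
  obtain ⟨h1, h2⟩ := hf n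
  refine ⟨?_, ?_⟩
  · rw [map_neg, Polynomial.natDegree_neg]
    exact h1
  · rw [map_neg, Polynomial.reflect_neg, h2, mul_neg]

theorem Sy.sub {f g : A} (hf : Sy f) (hg : Sy g) : Sy (f - g) := by
  rw [sub_eq_add_neg]
  exact hf.add hg.neg

theorem reflect_sum {ι : Type*} (s : Finset ι) (f : ι → Polynomial ℤ) (n : ℕ) :
    (∑ i ∈ s, f i).reflect n = ∑ i ∈ s, (f i).reflect n := by
  classical
  induction s using Finset.induction_on with
  | empty => simp
  | insert a s ha ih => rw [Finset.sum_insert ha, Finset.sum_insert ha, Polynomial.reflect_add, ih]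

theorem Sy.mul {f g : A} (hf : Sy f) (hg : Sy g) : Sy (f * g) := by
  intro n
  rw [coeff_mul]
  refine ⟨?_, ?_⟩
  · refine Polynomial.natDegree_sum_le_of_forall_le _ _ fun ij hij => ?_
    have := Finset.HasAntidiagonal.mem_antidiagonal.1 hij
    refine Polynomial.natDegree_mul_le.trans ?_
    have h1 := (hf ij.1).1
    have h2 := (hg ij.2).1
    omega
  · rw [reflect_sum, Finset.mul_sum]
    refine Finset.sum_congr rfl fun ij hij => ?_
    have hn := Finset.HasAntidiagonal.mem_antidiagonal.1 hij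
    rw [← hn, Polynomial.reflect_mul _ _ (hf ij.1).1 (hg ij.2).1, (hf ij.1).2, (hg ij.2).2,
      pow_add]
    ring

theorem Sy.one : Sy 1 := by
  intro n
  rw [coeff_one]
  split_ifs with h
  · subst h
    simp
  · simp

theorem Sy.zero : Sy 0 := by
  intro n
  simp

theorem Po.add {f g : A} (hf : Po f) (hg : Po g) : Po (f + g) := by
  intro n r
  have h1 := hf n r
  have h2 := hg n r
  rw [map_add, Polynomial.coeff_add, mul_add]
  linarith

theorem Po.zero : Po 0 := by
  intro n r
  simp

theorem Po.one : Po 1 := by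
  intro n r
  rw [coeff_one]
  split_ifs with h
  · subst h
    rw [Polynomial.coeff_one]
    split_ifs with h
    · subst h
      simp
    · simp
  · simp

theorem Po.mul {f g : A} (hf : Po f) (hg : Po g) : Po (f * g) := by
  intro n r
  rw [coeff_mul, Polynomial.finsetSum_coeff, Finset.mul_sum]
  refine Finset.sum_nonneg fun ij hij => ?_
  rw [Polynomial.coeff_mul, Finset.mul_sum]
  refine Finset.sum_nonneg fun ab hab => ?_
  have h1 := Finset.HasAntidiagonal.mem_antidiagonal.1 hij
  have h2 := Finset.HasAntidiagonal.mem_antidiagonal.1 hab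
  have h3 := mul_nonneg (hf ij.1 ab.1) (hg ij.2 ab.2)
  rw [← h1, ← h2]
  refine h3.trans (le_of_eq ?_)
  ring

theorem Po.pow {f : A} (hf : Po f) (k : ℕ) : Po (f ^ k) := by
  induction k with
  | zero => rw [pow_zero]; exact Po.one
  | succ k ih => rw [pow_succ]; exact ih.mul hf

theorem Po.sum {ι : Type*} (s : Finset ι) (f : ι → A) (h : ∀ i ∈ s, Po (f i)) :
    Po (∑ i ∈ s, f i) := by
  classical
  induction s using Finset.induction_on with
  | empty => rw [Finset.sum_empty]; exact Po.zero
  | insert a s ha ih =>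
    rw [Finset.sum_insert ha]
    exact (h a (Finset.mem_insert_self _ _)).add
      (ih fun i hi => h i (Finset.mem_insert_of_mem hi))

/-- `1 + z y` -/
noncomputable def a : A := 1 + C Polynomial.X * X

/-- `1 - z` -/
noncomputable def b : A := 1 - X

theorem Po_zy : Po (C Polynomial.X * X : A) := by
  intro n r
  rw [coeff_C_mul, coeff_X]
  split_ifs with h
  · subst h
    rw [mul_one, Polynomial.coeff_X]
    split_ifs with h
    · subst h
      simp
    · simp
  · simp

theorem Po_negz : Po (-X : A) := by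
  intro n r
  rw [map_neg, coeff_X]
  split_ifs with h
  · subst h
    rw [Polynomial.coeff_neg, Polynomial.coeff_one]
    split_ifs with h
    · subst h
      simp
    · simp
  · simp

theorem Po_a : Po a := Po.one.add Po_zy

theorem Po_b : Po b := by
  unfold b
  rw [sub_eq_add_neg]
  exact Po.one.add Po_negz

/-- `∑_{j<d} (1+zy)^j (1-z)^{d-1-j}` -/
noncomputable def s (d : ℕ) : A := ∑ j ∈ Finset.range d, a ^ j * b ^ (d - 1 - j)

theorem hirzA_eq (d : ℕ) : hirzA d = X * s d := rfl

theorem geom_succ {R : Type*} [CommRing R] (a b : R) (d : ℕ) :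
    ∑ j ∈ Finset.range (d + 1), a ^ j * b ^ (d + 1 - 1 - j) =
      b * (∑ j ∈ Finset.range d, a ^ j * b ^ (d - 1 - j)) + a ^ d := by
  rw [Finset.sum_range_succ, Finset.mul_sum, Nat.add_sub_cancel, Nat.sub_self, pow_zero, mul_one]
  congr 1
  refine Finset.sum_congr rfl fun j hj => ?_
  have := Finset.mem_range.1 hj
  rw [show d - j = (d - 1 - j) + 1 by omega, pow_succ]
  ring

theorem s_succ (d : ℕ) : s (d + 1) = b * s d + a ^ d := geom_succ a b d

theorem s_zero : s 0 = 0 := by simp [s]

theorem s_rec (d : ℕ) : s (d + 2) = (a + b) * s (d + 1) - a * b * s d := by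
  rw [s_succ (d + 1), s_succ d]
  ring

theorem Po_s (d : ℕ) : Po (s d) :=
  Po.sum _ _ fun _ _ => (Po_a.pow _).mul (Po_b.pow _)

theorem hirzB_eq (d : ℕ) : hirzB d = b ^ d + X * s d := rfl

theorem hirzB_rec (d : ℕ) : hirzB (d + 2) = (a + b) * hirzB (d + 1) - a * b * hirzB d := by
  rw [hirzB_eq, hirzB_eq, hirzB_eq, s_rec]
  ring

theorem hirzB_zero : hirzB 0 = 1 := by
  simp [hirzB, hirzA]

theorem hirzB_one : hirzB 1 = 1 := by
  simp [hirzB, hirzA]

theorem Sy_aux (c : ℤ) (e : ℤ) : Sy (C (Polynomial.C c) + C (Polynomial.C e) *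
    (C Polynomial.X * X - X) : A) := by
  intro n
  rw [map_add, coeff_C, coeff_C_mul, map_sub, coeff_C_mul, coeff_X]
  rcases n with _ | _ | n
  · rw [if_pos rfl, if_neg (by norm_num), mul_zero, sub_zero, mul_zero, add_zero]
    refine ⟨by simp, ?_⟩
    rw [Polynomial.reflect_C]
    simp
  · have e1 : (if 0 + 1 = 0 then Polynomial.C c else 0) + Polynomial.C e *
        (Polynomial.X * (if 0 + 1 = 1 then 1 else 0) - if 0 + 1 = 1 then 1 else 0) =
        (Polynomial.C e * Polynomial.X ^ 1 - Polynomial.C e : Polynomial ℤ) := by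
      simp
      ring
    rw [e1]
    refine ⟨?_, ?_⟩
    · refine (Polynomial.natDegree_sub_le _ _).trans (max_le ?_ ?_)
      · exact Polynomial.natDegree_C_mul_X_pow_le _ _
      · simp
    · rw [Polynomial.reflect_sub, Polynomial.reflect_C_mul_X_pow, Polynomial.reflect_C]
      simp [Polynomial.revAt]
  · simp

theorem Sy_apb : Sy (a + b) := by
  have := Sy_aux 2 1
  convert this using 1
  have h2 : (C (Polynomial.C 2) : A) = 2 := rfl
  have h1 : (C (Polynomial.C 1) : A) = 1 := rfl
  rw [h1, h2]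
  unfold a b
  ring

theorem Sy_ab : Sy (a * b) := by
  have h1 := Sy_aux 1 1
  have h2 : Sy (-(C Polynomial.X * X * X) : A) := by
    intro n
    rw [map_neg, mul_assoc, coeff_C_mul, ← pow_two, coeff_X_pow]
    split_ifs with h
    · subst h
      refine ⟨?_, ?_⟩
      · rw [Polynomial.natDegree_neg, mul_one]
        exact Polynomial.natDegree_X_le.trans (by norm_num)
      · rw [Polynomial.reflect_neg, mul_one]
        have := Polynomial.reflect_C_mul_X_pow (R := ℤ) 2 1 (c := 1)
        simp only [map_one, one_mul, pow_one] at this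
        rw [this]
        have h3 : Polynomial.revAt 2 1 = 1 := by decide
        rw [h3]
        simp
    · simp
  convert h1.add h2 using 1
  simp [a, b]
  ring

theorem Sy_s (d : ℕ) : Sy (s d) ∧ Sy (s (d + 1)) := by
  induction d with
  | zero =>
    refine ⟨by rw [s_zero]; exact Sy.zero, ?_⟩
    have : s (0 + 1) = 1 := by simp [s]
    rw [this]
    exact Sy.one
  | succ d ih => exact ⟨ih.2, by rw [s_rec]; exact (Sy_apb.mul ih.2).sub (Sy_ab.mul ih.1)⟩

theorem Sy_hirzB (d : ℕ) : Sy (hirzB d) ∧ Sy (hirzB (d + 1)) := by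
  induction d with
  | zero =>
    refine ⟨by rw [hirzB_zero]; exact Sy.one, ?_⟩
    rw [hirzB_one]
    exact Sy.one
  | succ d ih => exact ⟨ih.2, by rw [hirzB_rec]; exact (Sy_apb.mul ih.2).sub (Sy_ab.mul ih.1)⟩

theorem hirzB_const (d : ℕ) : constantCoeff (hirzB d) = 1 := by
  simp [hirzB, hirzA]

theorem hirzB_mul_inv (d : ℕ) : hirzB d * invOfUnit (hirzB d) 1 = 1 :=
  mul_invOfUnit _ _ (by rw [hirzB_const]; rfl)

theorem Sy.inv {f : A} (hf : Sy f) : Sy (invOfUnit f 1) := by
  intro n
  induction n using Nat.strong_induction_on with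
  | _ n ih =>
    rw [coeff_invOfUnit]
    split_ifs with h
    · subst h
      simp
    · simp only [inv_one, Units.val_one, neg_mul, one_mul]
      refine ⟨?_, ?_⟩
      · rw [Polynomial.natDegree_neg]
        refine Polynomial.natDegree_sum_le_of_forall_le _ _ fun ij hij => ?_
        have := Finset.HasAntidiagonal.mem_antidiagonal.1 hij
        split_ifs with h'
        · refine Polynomial.natDegree_mul_le.trans ?_
          have h1 := (hf ij.1).1
          have h2 := (ih ij.2 h').1
          omega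
        · simp
      · rw [Polynomial.reflect_neg, reflect_sum, mul_neg, Finset.mul_sum]
        congr 1
        refine Finset.sum_congr rfl fun ij hij => ?_
        have hn := Finset.HasAntidiagonal.mem_antidiagonal.1 hij
        split_ifs with h'
        · rw [← hn, Polynomial.reflect_mul _ _ (hf ij.1).1 (ih ij.2 h').1, (hf ij.1).2,
            (ih ij.2 h').2, pow_add]
          ring
        · simp

theorem Po_one_sub_inv {f : A} (h0 : constantCoeff f = 0) (hf : Po f) :
    Po (invOfUnit (1 - f) 1) := by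
  have key : invOfUnit (1 - f) 1 = 1 + f * invOfUnit (1 - f) 1 := by
    have : (1 - f) * invOfUnit (1 - f) 1 = 1 :=
      mul_invOfUnit _ _ (by simp [h0])
    linear_combination this
  intro n
  induction n using Nat.strong_induction_on with
  | _ n ih =>
    intro r
    rw [key, map_add, Polynomial.coeff_add, mul_add]
    refine add_nonneg (Po.one n r) ?_
    rw [coeff_mul, Polynomial.finsetSum_coeff, Finset.mul_sum]
    refine Finset.sum_nonneg fun ij hij => ?_
    have h1 := Finset.HasAntidiagonal.mem_antidiagonal.1 hij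
    by_cases hi : ij.1 = 0
    · rw [hi]
      have : coeff 0 f = 0 := by rw [coeff_zero_eq_constantCoeff_apply, h0]
      rw [this]
      simp
    · rw [Polynomial.coeff_mul, Finset.mul_sum]
      refine Finset.sum_nonneg fun ab hab => ?_
      have h2 := Finset.HasAntidiagonal.mem_antidiagonal.1 hab
      have h3 := mul_nonneg (hf ij.1 ab.1) (ih ij.2 (by omega) ab.2)
      refine h3.trans (le_of_eq ?_)
      rw [← h1, ← h2]
      ring

/-- `1 - hirzB d` -/
theorem Po_den (d : ℕ) : Po (1 - hirzB d) := by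
  have h1 : (1 : A) - b ^ d = X * ∑ j ∈ Finset.range d, b ^ (d - 1 - j) := by
    have h2 : (∑ j ∈ Finset.range d, b ^ j) * (b - 1) = b ^ d - 1 := geom_sum_mul b d
    rw [Finset.sum_range_reflect (fun j => b ^ j) d]
    have : b - 1 = -X := by simp [b]
    rw [this] at h2
    linear_combination h2
  have h2 : 1 - hirzB d = (-X) * ∑ j ∈ Finset.range d, b ^ (d - 1 - j) * (a ^ j - 1) := by
    unfold hirzB
    rw [hirzA_eq]
    change 1 - (b ^ d + X * s d) = _
    have : ∑ j ∈ Finset.range d, b ^ (d - 1 - j) * (a ^ j - 1) =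
        s d - ∑ j ∈ Finset.range d, b ^ (d - 1 - j) := by
      unfold s
      rw [← Finset.sum_sub_distrib]
      refine Finset.sum_congr rfl fun j _ => ?_
      ring
    rw [this]
    linear_combination h1
  rw [h2]
  refine Po_negz.mul (Po.sum _ _ fun j _ => (Po_b.pow _).mul ?_)
  have : a ^ j - 1 = (C Polynomial.X * X) * ∑ i ∈ Finset.range j, a ^ i := by
    rw [← geom_sum_mul a j]
    have : a - 1 = C Polynomial.X * X := by simp [a]
    rw [this]
    ring
  rw [this]
  exact Po_zy.mul (Po.sum _ _ fun i _ => Po_a.pow _)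

theorem Po_inv_hirzB (d : ℕ) : Po (invOfUnit (hirzB d) 1) := by
  have := Po_one_sub_inv (f := 1 - hirzB d) (by simp [hirzB_const]) (Po_den d)
  rwa [sub_sub_cancel] at this

/-- the primitive part of the factor of a hypersurface -/
noncomputable def pp (d : ℕ) : A := s (d - 1) * invOfUnit (hirzB d) 1

theorem Sy_pp (d : ℕ) : Sy (pp d) := (Sy_s _).1.mul (Sy_hirzB _).1.inv

theorem Po_pp (d : ℕ) : Po (pp d) := (Po_s _).mul (Po_inv_hirzB _)

theorem hirzA_mul_inv (d : ℕ) (hd : 1 ≤ d) :
    hirzA d * invOfUnit (hirzB d) 1 = X * (1 + a * b * pp d) := by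
  have h1 : hirzA d = X * (hirzB d + a * b * s (d - 1)) := by
    obtain ⟨e, rfl⟩ : ∃ e, d = e + 1 := ⟨d - 1, by omega⟩
    rw [Nat.add_sub_cancel]
    unfold hirzB
    rw [hirzA_eq, s_succ]
    change X * (b * s e + a ^ e) = X * (b ^ (e + 1) + X * (b * s e + a ^ e) + a * b * s e)
    have h2 : a ^ e = b ^ e + (a - b) * s e := by
      clear hd
      induction e with
      | zero => simp [s_zero]
      | succ e ih =>
        rw [s_succ, pow_succ, ih]
        ring
    rw [h2]
    have hX : (X : A) = 1 - b := by simp [b]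
    rw [hX]
    ring
  rw [h1]
  have h2 := hirzB_mul_inv d
  unfold pp
  linear_combination (X : A) * h2

/-- the primitive part of the product -/
noncomputable def qq : List ℕ → A
  | [] => 0
  | d :: l => qq l + pp d + a * b * pp d * qq l

theorem Sy_qq : ∀ l : List ℕ, Sy (qq l)
  | [] => Sy.zero
  | d :: l => ((Sy_qq l).add (Sy_pp d)).add ((Sy_ab.mul (Sy_pp d)).mul (Sy_qq l))

theorem Po_qq : ∀ l : List ℕ, Po (qq l)
  | [] => Po.zero
  | d :: l => ((Po_qq l).add (Po_pp d)).add (((Po_a.mul Po_b).mul (Po_pp d)).mul (Po_qq l))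

theorem prod_eq : ∀ (l : List ℕ) (_ : ∀ d ∈ l, 1 ≤ d),
    (l.map fun d : ℕ => hirzA d * invOfUnit (hirzB d) 1).prod =
      X ^ l.length * (1 + a * b * qq l)
  | [], _ => by simp [qq]
  | d :: l, h => by
    rw [List.map_cons, List.prod_cons, prod_eq l fun e he => h e (List.mem_cons_of_mem _ he),
      hirzA_mul_inv d (h d List.mem_cons_self), List.length_cons, qq]
    ring

theorem ab_inv : a * b * mk (fun n => ∑ p ∈ Finset.range (n + 1), (-Polynomial.X) ^ p) = 1 := by
  have h1 : b * mk (fun n => ∑ p ∈ Finset.range (n + 1), (-Polynomial.X : Polynomial ℤ) ^ p) =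
      mk (fun n => (-Polynomial.X : Polynomial ℤ) ^ n) := by
    ext1 n
    unfold b
    rw [sub_mul, one_mul, map_sub]
    rcases n with _ | n
    · simp
    · rw [coeff_succ_X_mul, coeff_mk, coeff_mk, coeff_mk, Finset.sum_range_succ _ (n + 1)]
      ring
  rw [mul_assoc, h1]
  ext1 n
  unfold a
  rw [add_mul, one_mul, map_add, mul_assoc, coeff_C_mul]
  rcases n with _ | n
  · simp
  · rw [coeff_succ_X_mul, coeff_mk, coeff_mk, coeff_one, if_neg (Nat.succ_ne_zero n), pow_succ]
    ring

theorem chiY_eq (N : ℕ) (deg : List ℕ) (hdeg : ∀ d ∈ deg, 1 ≤ d) (hN : deg.length ≤ N) :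
    chiY N deg = ∑ p ∈ Finset.range (N - deg.length + 1), (-Polynomial.X) ^ p +
      coeff (N - deg.length) (qq deg) := by
  have h0 : (1 - X) * (1 + C Polynomial.X * X) = a * b := by
    unfold a b
    ring
  have h1 : (a * b) * invOfUnit (a * b) 1 = 1 := mul_invOfUnit _ _ (by simp [a, b])
  have h2 : invOfUnit (a * b) 1 =
      mk (fun n => ∑ p ∈ Finset.range (n + 1), (-Polynomial.X) ^ p) := by
    have h3 := ab_inv
    calc invOfUnit (a * b) 1 = (a * b * mk (fun n => ∑ p ∈ Finset.range (n + 1),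
          (-Polynomial.X) ^ p)) * invOfUnit (a * b) 1 := by rw [h3, one_mul]
      _ = mk (fun n => ∑ p ∈ Finset.range (n + 1), (-Polynomial.X) ^ p) *
          ((a * b) * invOfUnit (a * b) 1) := by ring
      _ = _ := by rw [h1, mul_one]
  unfold chiY
  rw [prod_eq deg hdeg, h0]
  have h4 : invOfUnit (a * b) 1 * (X ^ deg.length * (1 + a * b * qq deg)) =
      X ^ deg.length * (invOfUnit (a * b) 1 + qq deg) := by
    linear_combination (X ^ deg.length * qq deg : A) * h1
  rw [h4]
  obtain ⟨D, rfl⟩ : ∃ D, N = D + deg.length := ⟨N - deg.length, by omega⟩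
  rw [Nat.add_sub_cancel, coeff_X_pow_mul, map_add, h2, coeff_mk]

theorem coeff_geom (D r : ℕ) : (∑ p ∈ Finset.range (D + 1), (-Polynomial.X : Polynomial ℤ) ^ p).coeff
    r = if r ≤ D then (-1) ^ r else 0 := by
  rw [Polynomial.finsetSum_coeff]
  have : ∀ p, ((-Polynomial.X : Polynomial ℤ) ^ p).coeff r = if r = p then (-1) ^ p else 0 := by
    intro p
    rw [neg_pow, show ((-1 : Polynomial ℤ) ^ p) = Polynomial.C ((-1) ^ p) by simp,
      Polynomial.coeff_C_mul, Polynomial.coeff_X_pow]
    split_ifs <;> simp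
  simp only [this]
  rw [Finset.sum_ite_eq]
  simp

theorem prim_eq {N : ℕ} {deg : List ℕ} (hdeg : ∀ d ∈ deg, 1 ≤ d) (hN : deg.length ≤ N) (r : ℕ) :
    (prim N deg r : ℤ) = (-1) ^ (N - deg.length + r) *
      (coeff (N - deg.length) (qq deg)).coeff r := by
  unfold prim
  rw [chiY_eq N deg hdeg hN, Polynomial.coeff_add, coeff_geom, add_sub_cancel_left]
  exact Int.toNat_of_nonneg (Po_qq deg _ _)

theorem chiY_coeff {N : ℕ} {deg : List ℕ} (hdeg : ∀ d ∈ deg, 1 ≤ d) (hN : deg.length ≤ N)
    (r : ℕ) : (chiY N deg).coeff r = (if r ≤ N - deg.length then (-1) ^ r else 0) +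
      (-1) ^ (N - deg.length + r) * (prim N deg r : ℤ) := by
  rw [prim_eq hdeg hN, chiY_eq N deg hdeg hN, Polynomial.coeff_add, coeff_geom, ← mul_assoc,
    ← mul_pow]
  simp

theorem prim_zero {N : ℕ} {deg : List ℕ} (hdeg : ∀ d ∈ deg, 1 ≤ d) (hN : deg.length ≤ N) (r : ℕ)
    (hr : N - deg.length < r) : prim N deg r = 0 := by
  have h1 := prim_eq hdeg hN r
  rw [Polynomial.coeff_eq_zero_of_natDegree_lt
    (lt_of_le_of_lt (Sy_qq deg (N - deg.length)).1 hr)] at h1
  simpa using h1

theorem prim_symm {N : ℕ} {deg : List ℕ} (hdeg : ∀ d ∈ deg, 1 ≤ d) (hN : deg.length ≤ N) (r : ℕ)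
    (hr : r ≤ N - deg.length) : prim N deg (N - deg.length - r) = prim N deg r := by
  have h1 := prim_eq hdeg hN r
  have h2 := prim_eq hdeg hN (N - deg.length - r)
  have h3 := congrArg (fun f => f.coeff r) (Sy_qq deg (N - deg.length)).2
  simp only [Polynomial.coeff_reflect, Polynomial.revAt_le hr] at h3
  have h4 : ((prim N deg (N - deg.length - r) : ℕ) : ℤ) = prim N deg r := by
    rw [h1, h2, h3, show ((-1 : Polynomial ℤ) ^ (N - deg.length)) =
      Polynomial.C ((-1) ^ (N - deg.length)) by simp, Polynomial.coeff_C_mul, ← mul_assoc]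
    congr 1
    rw [← pow_add]
    have : N - deg.length + (N - deg.length - r) + (N - deg.length) =
      (N - deg.length + r) + 2 * (N - deg.length - r) := by omega
    rw [this, pow_add, pow_mul]
    simp
  exact_mod_cast h4

end Vale.Agent.P269.Hodge
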