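import Mathlib

/-!
# Genus zero intersection numbers of `ψ` classes on `Mbar_{0,n}`

`W [m_1, …, m_n] = ∫_{Mbar_{0,n}} ψ_1^{m_1} ⋯ ψ_n^{m_n} = (n-3)! / ∏ m_i!`.
-/

namespace Vale.Agent.P269.H728

open Nat

/-- the numerator as a function of the number of points and of the sum of the exponents -/
noncomputable def gW (n s : ℕ) : ℂ := if 3 ≤ n ∧ s + 3 = n then ((n - 3)! : ℂ) else 0

/-- product of factorials -/
noncomputable def fP (m : List ℕ) : ℂ := (m.map fun k => ((k ! : ℕ) : ℂ)).prod

/-- the genus zero intersection numbers of `ψ` classes -/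
noncomputable def W (m : List ℕ) : ℂ := gW m.length m.sum * (fP m)⁻¹

@[simp] lemma fP_nil : fP [] = 1 := rfl
@[simp] lemma fP_cons (k : ℕ) (m : List ℕ) : fP (k :: m) = ((k ! : ℕ) : ℂ) * fP m := by
  simp [fP]

lemma fP_perm {m m' : List ℕ} (h : m.Perm m') : fP m = fP m' := by
  unfold fP
  exact (h.map _).prod_eq

lemma W_perm {m m' : List ℕ} (h : m.Perm m') : W m = W m' := by
  unfold W
  rw [fP_perm h, h.length_eq, h.sum_eq]

/-- lowering one entry by one -/
def lw (f : List ℕ → ℂ) : List ℕ → ℂ
  | [] => 0
  | k :: m => (if k = 0 then 0 else f ((k - 1) :: m)) + lw (fun m' => f (k :: m')) m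

lemma lw_nil (f : List ℕ → ℂ) : lw f [] = 0 := rfl
lemma lw_cons (f : List ℕ → ℂ) (k : ℕ) (m : List ℕ) :
    lw f (k :: m) = (if k = 0 then 0 else f ((k - 1) :: m)) + lw (fun m' => f (k :: m')) m := rfl

lemma lw_gen (g : ℕ → ℕ → ℂ) (m : List ℕ) :
    lw (fun m => g m.length m.sum * (fP m)⁻¹) m =
      m.sum * g m.length (m.sum - 1) * (fP m)⁻¹ := by
  induction m generalizing g with
  | nil => simp [lw]
  | cons k m ih =>
    rw [lw_cons]
    have h1 := ih (fun n s => g (n + 1) (k + s) * ((k ! : ℕ) : ℂ)⁻¹)
    have h2 : (fun m' : List ℕ => g (k :: m').length (k :: m').sum * (fP (k :: m'))⁻¹) =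
        fun m' => g (m'.length + 1) (k + m'.sum) * ((k ! : ℕ) : ℂ)⁻¹ * (fP m')⁻¹ := by
      funext m'
      rw [fP_cons, List.length_cons, List.sum_cons, mul_inv]
      ring
    rw [h2, h1]
    have h3 : (if k = 0 then (0 : ℂ) else g ((k - 1) :: m).length ((k - 1) :: m).sum *
        (fP ((k - 1) :: m))⁻¹) =
        k * g (m.length + 1) (k + m.sum - 1) * (fP (k :: m))⁻¹ := by
      rcases k with _ | k
      · simp
      · rw [if_neg (by omega), Nat.add_sub_cancel, fP_cons, fP_cons, List.length_cons,
          List.sum_cons, mul_inv, mul_inv, Nat.factorial_succ]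
        have hk : ((k + 1 : ℕ) : ℂ) ≠ 0 := by exact_mod_cast Nat.succ_ne_zero k
        rw [show k + 1 + m.sum - 1 = k + m.sum by omega]
        push_cast at hk ⊢
        field_simp
    rw [h3, List.length_cons, List.sum_cons, fP_cons, mul_inv]
    rcases Nat.eq_zero_or_pos m.sum with h0 | h0
    · rw [h0]
      push_cast
      ring
    · rw [show k + (m.sum - 1) = k + m.sum - 1 by omega]
      push_cast
      ring

/-- string equation for the numbers `W` -/
lemma W_string (m : List ℕ) : W (0 :: m) = lw W m + if m = [0, 0] then 1 else 0 := by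
  have h := lw_gen gW m
  have hW : (fun m => gW m.length m.sum * (fP m)⁻¹) = W := rfl
  rw [hW] at h
  rw [h]
  unfold W
  rw [fP_cons, List.length_cons, List.sum_cons, Nat.factorial_zero, Nat.cast_one, one_mul,
    zero_add]
  by_cases h2 : m.length = 2 ∧ m.sum = 0
  · have : m = [0, 0] := by
      match m, h2 with
      | [a, b], h2 =>
        simp at h2
        rw [h2.1, h2.2]
    subst this
    simp [gW]
  · have h3 : m ≠ [0, 0] := by
      rintro rfl
      exact h2 ⟨rfl, rfl⟩
    rw [if_neg h3, add_zero]
    congr 1
    unfold gW
    by_cases h4 : m.sum + 2 = m.length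
    · have h5 : 3 ≤ m.length ∧ m.sum - 1 + 3 = m.length := by
        constructor <;> omega
      rw [if_pos (by omega), if_pos h5]
      obtain ⟨s, hs⟩ : ∃ s, m.length = s + 3 := ⟨m.length - 3, by omega⟩
      rw [hs, show m.sum = s + 1 by omega, show s + 3 + 1 - 3 = s + 1 by omega,
        show s + 3 - 3 = s by omega, Nat.factorial_succ]
      push_cast
      ring
    · rw [if_neg (by omega)]
      rcases Nat.eq_zero_or_pos m.sum with h0 | h0
      · rw [h0]; simp
      · rw [if_neg (by omega), mul_zero]

/-- dilaton equation for the numbers `W` -/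
lemma W_dilaton (m : List ℕ) : W (1 :: m) = ((m.length : ℂ) - 2) * W m := by
  unfold W
  rw [fP_cons, List.length_cons, List.sum_cons, Nat.factorial_one, Nat.cast_one, one_mul,
    ← mul_assoc]
  congr 1
  unfold gW
  by_cases h4 : m.sum + 3 = m.length
  · rw [if_pos (by omega), if_pos (by omega)]
    obtain ⟨s, hs⟩ : ∃ s, m.length = s + 3 := ⟨m.length - 3, by omega⟩
    rw [hs, show s + 3 + 1 - 3 = s + 1 by omega, show s + 3 - 3 = s by omega,
      Nat.factorial_succ]
    push_cast
    ring
  · rw [if_neg (by omega), if_neg (by omega), mul_zero]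

lemma W_short (m : List ℕ) (h : m.length < 3) : W m = 0 := by
  unfold W gW
  rw [if_neg (by omega), zero_mul]

/-- unsigned unshuffle sum -/
def us (u : List ℕ → List ℕ → ℂ) : List ℕ → ℂ
  | [] => u [] []
  | k :: m => us (fun m₁ m₂ => u (k :: m₁) m₂) m + us (fun m₁ m₂ => u m₁ (k :: m₂)) m

lemma us_nil (u : List ℕ → List ℕ → ℂ) : us u [] = u [] [] := rfl
lemma us_cons (u : List ℕ → List ℕ → ℂ) (k : ℕ) (m : List ℕ) :
    us u (k :: m) = us (fun m₁ m₂ => u (k :: m₁) m₂) m + us (fun m₁ m₂ => u m₁ (k :: m₂)) m :=
  rfl

lemma us_congr {u v : List ℕ → List ℕ → ℂ} {m : List ℕ}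
    (h : ∀ m₁ m₂, m₁ ⊆ m → u m₁ m₂ = v m₁ m₂) : us u m = us v m := by
  induction m generalizing u v with
  | nil => exact h [] [] (by simp)
  | cons k m ih =>
    rw [us_cons, us_cons]
    congr 1
    · apply ih
      intro m₁ m₂ h1
      apply h
      intro x hx
      rw [List.mem_cons] at hx ⊢
      rcases hx with hx | hx
      · exact Or.inl hx
      · exact Or.inr (h1 hx)
    · apply ih
      intro m₁ m₂ h1
      apply h
      intro x hx
      exact List.mem_cons_of_mem _ (h1 hx)

lemma us_congr' {u v : List ℕ → List ℕ → ℂ} {m : List ℕ}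
    (h : ∀ m₁ m₂, u m₁ m₂ = v m₁ m₂) : us u m = us v m := us_congr fun a b _ => h a b

lemma us_zero (m : List ℕ) : us (fun _ _ => 0) m = 0 := by
  induction m with
  | nil => rfl
  | cons k m ih => rw [us_cons, ih, add_zero]

lemma us_add (u v : List ℕ → List ℕ → ℂ) (m : List ℕ) :
    us (fun a b => u a b + v a b) m = us u m + us v m := by
  induction m generalizing u v with
  | nil => rfl
  | cons k m ih =>
    rw [us_cons, us_cons, us_cons, ih, ih]
    ring

lemma us_perm {m m' : List ℕ} (h : m.Perm m') {u : List ℕ → List ℕ → ℂ}
    (hu : ∀ a a' b b', a.Perm a' → b.Perm b' → u a b = u a' b') : us u m = us u m' := by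
  induction h generalizing u with
  | nil => rfl
  | cons x h ih =>
    rw [us_cons, us_cons]
    rw [ih (fun a a' b b' h1 h2 => hu _ _ _ _ (h1.cons x) h2),
      ih (fun a a' b b' h1 h2 => hu _ _ _ _ h1 (h2.cons x))]
  | swap x y l =>
    simp only [us_cons]
    have e1 : us (fun m₁ m₂ => u (y :: x :: m₁) m₂) l = us (fun m₁ m₂ => u (x :: y :: m₁) m₂) l :=
      us_congr' fun a b => hu _ _ _ _ (List.Perm.swap x y a) (List.Perm.refl b)
    have e2 : us (fun m₁ m₂ => u m₁ (y :: x :: m₂)) l = us (fun m₁ m₂ => u m₁ (x :: y :: m₂)) l :=
      us_congr' fun a b => hu _ _ _ _ (List.Perm.refl a) (List.Perm.swap x y b)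
    rw [e1, e2]
    ring
  | trans _ _ ih1 ih2 => rw [ih1 hu, ih2 hu]

/-- lowering is a derivation for the unshuffle sum -/
lemma lw_us (u : List ℕ → List ℕ → ℂ) (m : List ℕ) :
    lw (us u) m = us (fun a b => lw (fun a => u a b) a + lw (fun b => u a b) b) m := by
  induction m generalizing u with
  | nil => simp [lw, us]
  | cons k m ih =>
    rw [lw_cons, us_cons]
    simp only [us_cons, lw_cons]
    have e1 : lw (fun m' => us (fun m₁ m₂ => u (k :: m₁) m₂) m' +
        us (fun m₁ m₂ => u m₁ (k :: m₂)) m') m =
        lw (us (fun m₁ m₂ => u (k :: m₁) m₂)) m + lw (us (fun m₁ m₂ => u m₁ (k :: m₂))) m := by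
      have : ∀ (f g : List ℕ → ℂ) (m : List ℕ), lw (fun m => f m + g m) m = lw f m + lw g m := by
        intro f g m
        induction m generalizing f g with
        | nil => simp [lw]
        | cons k m ih =>
          rw [lw_cons, lw_cons, lw_cons, ih]
          split_ifs <;> ring
      exact this _ _ m
    rw [e1, ih, ih]
    rcases Nat.eq_zero_or_pos k with hk | hk
    · subst hk
      simp
    · rw [if_neg (by omega)]
      simp only [if_neg (by omega : ¬ k = 0)]
      simp only [us_add]
      ring

lemma lw_mul_left (c : ℂ) (f : List ℕ → ℂ) (m : List ℕ) :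
    lw (fun m => c * f m) m = c * lw f m := by
  induction m generalizing f with
  | nil => simp [lw]
  | cons k m ih =>
    rw [lw_cons, lw_cons, ih]
    split_ifs <;> ring

lemma lw_append (f : List ℕ → ℂ) (m m' : List ℕ) :
    lw f (m ++ m') = lw (fun a => f (a ++ m')) m + lw (fun b => f (m ++ b)) m' := by
  induction m generalizing f with
  | nil => simp [lw]
  | cons k m ih =>
    rw [List.cons_append, lw_cons, lw_cons, ih]
    simp only [List.cons_append]
    ring

lemma us_first (c : List ℕ → ℂ) (m : List ℕ) :
    us (fun a b => if a = [] then c b else 0) m = c m := by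
  induction m generalizing c with
  | nil => simp [us]
  | cons k m ih =>
    rw [us_cons]
    simp only [reduceCtorEq, if_false]
    rw [us_zero, ih (fun b => c (k :: b)), zero_add]

/-- the topological recursion relation for the numbers `W` -/
theorem W_trr (n : ℕ) : ∀ (l : List ℕ), l.length = n → ∀ m x y,
    W ((m + 1) :: (l ++ [x, y])) =
      us (fun a b => W (m :: (a ++ [0])) * W (0 :: (b ++ [x, y]))) l := by
  induction n with
  | zero =>
    intro l hl m x y
    rw [List.length_eq_zero_iff] at hl
    subst hl
    rw [us_nil]
    have h1 : W (m :: ([] ++ [0])) = 0 := W_short _ (by simp)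
    rw [h1, zero_mul]
    unfold W gW
    rw [if_neg, zero_mul]
    simp
  | succ n ih =>
    intro l hl m x y
    by_cases h0 : 0 ∈ l
    · -- move the zero to the front
      have hp : l.Perm (0 :: l.erase 0) := List.perm_cons_erase h0
      have hlen : (l.erase 0).length = n := by
        rw [List.length_erase_of_mem h0, hl]; rfl
      set l' := l.erase 0 with hl'
      have hL : W ((m + 1) :: (l ++ [x, y])) = W (0 :: (m + 1) :: (l' ++ [x, y])) := by
        apply W_perm
        refine List.Perm.trans (List.Perm.cons _ (hp.append_right [x, y])) ?_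
        exact List.Perm.swap _ _ _
      have hR : us (fun a b => W (m :: (a ++ [0])) * W (0 :: (b ++ [x, y]))) l =
          us (fun a b => W (m :: (a ++ [0])) * W (0 :: (b ++ [x, y]))) (0 :: l') := by
        apply us_perm hp
        intro a a' b b' h1 h2
        rw [W_perm ((h1.append_right [0]).cons m), W_perm ((h2.append_right [x, y]).cons 0)]
      rw [hL, hR, us_cons, W_string, if_neg (by simp), add_zero, lw_cons, if_neg (by omega),
        Nat.add_sub_cancel, lw_append]
      -- the right hand side
      have r1 : ∀ a, W (m :: (0 :: a ++ [0])) = (if m = 0 then 0 else W ((m - 1) :: (a ++ [0]))) +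
          lw (fun a => W (m :: (a ++ [0]))) a + if a = [] then (if m = 0 then 1 else 0) else 0 := by
        intro a
        have e1 : W (m :: (0 :: a ++ [0])) = W (0 :: m :: (a ++ [0])) :=
          W_perm (List.Perm.swap _ _ _)
        rw [e1, W_string, lw_cons, lw_append]
        have e2 : lw (fun b => W (m :: (a ++ b))) [0] = 0 := by simp [lw]
        rw [e2, add_zero]
        congr 1
        by_cases ha : a = []
        · subst ha
          simp
        · rw [if_neg ha, if_neg]
          simp
          intro _ hcon
          exact absurd hcon ha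
      have r2 : ∀ b, W (0 :: (0 :: b ++ [x, y])) =
          lw (fun b => W (0 :: (b ++ [x, y]))) b +
          ((if x = 0 then 0 else W (0 :: (b ++ [x - 1, y]))) +
            if y = 0 then 0 else W (0 :: (b ++ [x, y - 1]))) := by
        intro b
        have e0 : W (0 :: (0 :: b ++ [x, y])) = W (0 :: (0 :: (b ++ [x, y]))) := rfl
        rw [e0, W_string, if_neg, add_zero, lw_cons, if_pos rfl, zero_add, lw_append]
        · congr 1
          simp [lw]
        · intro hcon
          have := congrArg List.length hcon
          simp at this
      have r3 : us (fun a b => W (m :: (0 :: a ++ [0])) * W (0 :: (b ++ [x, y]))) l' =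
          (if m = 0 then 0 else us (fun a b => W ((m - 1) :: (a ++ [0])) *
            W (0 :: (b ++ [x, y]))) l') +
          us (fun a b => lw (fun a => W (m :: (a ++ [0]))) a * W (0 :: (b ++ [x, y]))) l' +
          (if m = 0 then W (0 :: (l' ++ [x, y])) else 0) := by
        have e1 : us (fun a b => W (m :: (0 :: a ++ [0])) * W (0 :: (b ++ [x, y]))) l' =
            us (fun a b => (if m = 0 then 0 else W ((m - 1) :: (a ++ [0])) *
              W (0 :: (b ++ [x, y]))) +
              lw (fun a => W (m :: (a ++ [0]))) a * W (0 :: (b ++ [x, y])) +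
              (if a = [] then (if m = 0 then W (0 :: (b ++ [x, y])) else 0) else 0)) l' := by
          apply us_congr'
          intro a b
          rw [r1]
          split_ifs <;> ring
        rw [e1, us_add, us_add, us_first (fun b => if m = 0 then W (0 :: (b ++ [x, y])) else 0)]
        congr 2
        split_ifs
        · exact us_zero _
        · rfl
      have r4 : us (fun a b => W (m :: (a ++ [0])) * W (0 :: (0 :: b ++ [x, y]))) l' =
          us (fun a b => W (m :: (a ++ [0])) * lw (fun b => W (0 :: (b ++ [x, y]))) b) l' +
          ((if x = 0 then 0 else us (fun a b => W (m :: (a ++ [0])) *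
            W (0 :: (b ++ [x - 1, y]))) l') +
          (if y = 0 then 0 else us (fun a b => W (m :: (a ++ [0])) *
            W (0 :: (b ++ [x, y - 1]))) l')) := by
        have e1 : us (fun a b => W (m :: (a ++ [0])) * W (0 :: (0 :: b ++ [x, y]))) l' =
            us (fun a b => W (m :: (a ++ [0])) * lw (fun b => W (0 :: (b ++ [x, y]))) b +
              ((if x = 0 then 0 else W (m :: (a ++ [0])) * W (0 :: (b ++ [x - 1, y]))) +
              (if y = 0 then 0 else W (m :: (a ++ [0])) * W (0 :: (b ++ [x, y - 1]))))) l' := by
          apply us_congr'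
          intro a b
          rw [r2]
          split_ifs <;> ring
        rw [e1, us_add, us_add]
        congr 2
        · split_ifs
          · exact us_zero _
          · rfl
        · split_ifs
          · exact us_zero _
          · rfl
      rw [r3, r4]
      -- the left hand side
      have s1 : W (m :: (l' ++ [x, y])) = (if m = 0 then 0 else us (fun a b =>
          W ((m - 1) :: (a ++ [0])) * W (0 :: (b ++ [x, y]))) l') +
          (if m = 0 then W (0 :: (l' ++ [x, y])) else 0) := by
        rcases m with _ | m
        · simp
        · rw [if_neg (by omega), if_neg (by omega), add_zero]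
          exact ih l' hlen m x y
      have s2 : lw (fun a => W ((m + 1) :: (a ++ [x, y]))) l' =
          us (fun a b => lw (fun a => W (m :: (a ++ [0]))) a * W (0 :: (b ++ [x, y]))) l' +
          us (fun a b => W (m :: (a ++ [0])) * lw (fun b => W (0 :: (b ++ [x, y]))) b) l' := by
        have e1 : lw (fun a => W ((m + 1) :: (a ++ [x, y]))) l' =
            lw (us (fun a b => W (m :: (a ++ [0])) * W (0 :: (b ++ [x, y])))) l' := by
          have : ∀ (f g : List ℕ → ℂ) (k : List ℕ), (∀ k', k'.length = k.length → f k' = g k') →
              lw f k = lw g k := by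
            intro f g k hfg
            induction k generalizing f g with
            | nil => rfl
            | cons a k ihk =>
              rw [lw_cons, lw_cons]
              congr 1
              · split_ifs
                · rfl
                · exact hfg _ (by simp)
              · apply ihk
                intro k' hk'
                exact hfg _ (by simp [hk'])
          apply this
          intro k' hk'
          exact ih k' (hk'.trans hlen) m x y
        rw [e1, lw_us, ← us_add]
        apply us_congr'
        intro a b
        rw [lw_mul_left]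
        have e2 : lw (fun a => W (m :: (a ++ [0])) * W (0 :: (b ++ [x, y]))) a =
            lw (fun a => W (m :: (a ++ [0]))) a * W (0 :: (b ++ [x, y])) := by
          have := lw_mul_left (W (0 :: (b ++ [x, y]))) (fun a => W (m :: (a ++ [0]))) a
          rw [mul_comm, ← this]
          congr 1
          funext a
          ring
        rw [e2]
      have s3 : lw (fun b => W ((m + 1) :: (l' ++ b))) [x, y] =
          (if x = 0 then 0 else us (fun a b => W (m :: (a ++ [0])) *
            W (0 :: (b ++ [x - 1, y]))) l') +
          (if y = 0 then 0 else us (fun a b => W (m :: (a ++ [0])) *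
            W (0 :: (b ++ [x, y - 1]))) l') := by
        rw [lw_cons, lw_cons, lw_nil, add_zero]
        congr 1
        · split_ifs
          · rfl
          · exact ih l' hlen m (x - 1) y
        · split_ifs
          · rfl
          · exact ih l' hlen m x (y - 1)
      rw [s1, s2, s3]
      ring
    · -- no zero entry: both sides vanish
      have hs : ∀ a : List ℕ, 0 ∉ a → a.length ≤ a.sum := by
        intro a
        induction a with
        | nil => simp
        | cons k a iha =>
          intro ha
          rw [List.mem_cons, not_or] at ha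
          rw [List.length_cons, List.sum_cons]
          have := iha ha.2
          omega
      have hL : W ((m + 1) :: (l ++ [x, y])) = 0 := by
        unfold W gW
        rw [if_neg, zero_mul]
        have := hs l h0
        simp only [List.length_cons, List.length_append, List.sum_cons, List.sum_append,
          List.length_nil, List.sum_nil]
        omega
      have hR : us (fun a b => W (m :: (a ++ [0])) * W (0 :: (b ++ [x, y]))) l =
          us (fun _ _ => 0) l := by
        apply us_congr
        intro a b hab
        have ha : 0 ∉ a := fun h => h0 (hab h)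
        have : W (m :: (a ++ [0])) = 0 := by
          unfold W gW
          rw [if_neg, zero_mul]
          have := hs a ha
          simp only [List.length_cons, List.length_append, List.sum_cons, List.sum_append,
            List.length_nil, List.sum_nil]
          omega
        rw [this, zero_mul]
      rw [hL, hR, us_zero]

end Vale.Agent.P269.H728
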