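import Vale.Agent.P269.IntData
import Vale.Agent.P269.H728.Multi
import Vale.Agent.P269.H727.Basic

/-!
# The genus zero, degree zero invariants satisfy the axioms
-/

namespace Vale.Agent.P269

open H728

namespace IntData

variable {X : Cohomology} (J : IntData X)

/-- degree zero invariants in genus zero:
`⟨τ_{m_1}(φ_{a_1}) ⋯ τ_{m_n}(φ_{a_n})⟩_{0,0} = (n-3)!/∏ m_i! ∫_X φ_{a_1} ∪ ⋯ ∪ φ_{a_n}`. -/
noncomputable def corr0 (l : List X.Ins) : ℂ := W (l.map Prod.fst) * J.int (l.map Prod.snd)

/-- `∫_X c_1 ∪ φ_{a_1} ∪ ⋯` -/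
noncomputable def intC1 (l : List X.I) : ℂ := ∑ b, X.R X.one b * J.int (b :: l)

theorem corr0_swap (l₁ : List X.Ins) (x y : X.Ins) (l₂ : List X.Ins) :
    J.corr0 (l₁ ++ x :: y :: l₂) =
      (-1) ^ (X.par x * X.par y) * J.corr0 (l₁ ++ y :: x :: l₂) := by
  unfold corr0
  have h1 : W ((l₁ ++ x :: y :: l₂).map Prod.fst) = W ((l₁ ++ y :: x :: l₂).map Prod.fst) := by
    apply W_perm
    apply List.Perm.map
    apply List.Perm.append_left
    exact List.Perm.swap _ _ _
  rw [h1]
  simp only [List.map_append, List.map_cons]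
  rw [J.swap]
  unfold Cohomology.par
  ring

theorem corr0_unstable (l : List X.Ins) (h : l.length < 3) : J.corr0 l = 0 := by
  unfold corr0
  rw [W_short _ (by simpa using h), zero_mul]

lemma W_ne (m : List ℕ) (h : W m ≠ 0) : 3 ≤ m.length ∧ m.sum + 3 = m.length := by
  by_contra hc
  apply h
  unfold W gW
  rw [if_neg hc, zero_mul]

lemma sum_p (l : List X.Ins) (f : X.I → ℕ) : (l.map fun x => (x.1 + f x.2 : ℤ)).sum =
    (((l.map Prod.fst).sum : ℕ) : ℤ) + (((l.map Prod.snd).map f).sum : ℕ) := by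
  induction l with
  | nil => simp
  | cons x l ih =>
    simp only [List.map_cons, List.sum_cons]
    rw [ih]
    push_cast
    ring

theorem corr0_dim_p (l : List X.Ins) (h : J.corr0 l ≠ 0) :
    (l.map fun x => (x.1 + X.p x.2 : ℤ)).sum = (X.D - 3) + l.length := by
  have h1 := W_ne _ (left_ne_zero_of_mul h)
  have h2 := J.deg _ (right_ne_zero_of_mul h)
  rw [sum_p, h2.1]
  rw [List.length_map] at h1
  have := h1.2
  omega

theorem corr0_dim_q (l : List X.Ins) (h : J.corr0 l ≠ 0) :
    (l.map fun x => (x.1 + X.q x.2 : ℤ)).sum = (X.D - 3) + l.length := by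
  have h1 := W_ne _ (left_ne_zero_of_mul h)
  have h2 := J.deg _ (right_ne_zero_of_mul h)
  rw [sum_p, h2.2]
  rw [List.length_map] at h1
  have := h1.2
  omega

lemma derive_low_fst (f : List ℕ → ℂ) (h : List X.I → ℂ) (l : List X.Ins) :
    X.derive X.low (fun l => f (l.map Prod.fst) * h (l.map Prod.snd)) l =
      lw f (l.map Prod.fst) * h (l.map Prod.snd) := by
  induction l generalizing f h with
  | nil => simp [Cohomology.derive_nil, lw]
  | cons x l ih =>
    rw [Cohomology.derive_cons]
    simp only [List.map_cons]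
    rw [ih (fun m => f (x.1 :: m)) (fun a => h (x.2 :: a)), lw_cons, add_mul]
    congr 1
    unfold Cohomology.low
    split_ifs <;> simp

theorem corr0_string (l : List X.Ins) :
    J.corr0 ((0, X.one) :: l) = X.derive X.low J.corr0 l + X.pairing X.η l := by
  have h1 : X.derive X.low J.corr0 l = lw W (l.map Prod.fst) * J.int (l.map Prod.snd) :=
    derive_low_fst W J.int l
  rw [h1]
  unfold corr0
  simp only [List.map_cons]
  rw [W_string, J.one, add_mul]
  congr 1
  match l with
  | [] => simp [Cohomology.pairing]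
  | [x] => simp [Cohomology.pairing]
  | [(0, a), (0, b)] => simp [Cohomology.pairing, J.two]
  | [(n + 1, a), y] => simp [Cohomology.pairing]
  | [x, (n + 1, b)] => simp [Cohomology.pairing]
  | x :: y :: z :: l => simp [Cohomology.pairing]

theorem corr0_dilaton (l : List X.Ins) :
    J.corr0 ((1, X.one) :: l) = (l.length - 2) * J.corr0 l := by
  unfold corr0
  simp only [List.map_cons]
  rw [W_dilaton, J.one, List.length_map]
  ring

lemma derive_lowR_fst (f : List ℕ → ℂ) (pre : List X.I) (l : List X.Ins) :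
    X.derive X.lowR (fun l => f (l.map Prod.fst) * J.int (pre ++ l.map Prod.snd)) l =
      lw f (l.map Prod.fst) * J.intC1 (pre ++ l.map Prod.snd) := by
  induction l generalizing f pre with
  | nil => simp [Cohomology.derive_nil, lw]
  | cons x l ih =>
    rw [Cohomology.derive_cons]
    simp only [List.map_cons]
    have h1 := ih (fun m => f (x.1 :: m)) (pre ++ [x.2])
    simp only [List.append_assoc, List.singleton_append] at h1
    rw [h1, lw_cons, add_mul]
    congr 1
    unfold Cohomology.lowR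
    split_ifs
    · simp
    · unfold intC1
      rw [← J.c1, Finset.mul_sum]
      apply Finset.sum_congr rfl
      intro b _
      ring

theorem corr0_divisor (l : List X.Ins) :
    ∑ b, X.R X.one b * J.corr0 ((0, b) :: l) =
      X.derive X.lowR J.corr0 l + X.pairing (X.R * X.η) l := by
  have h1 : X.derive X.lowR J.corr0 l = lw W (l.map Prod.fst) * J.intC1 (l.map Prod.snd) :=
    J.derive_lowR_fst W [] l
  rw [h1]
  have h2 : ∑ b, X.R X.one b * J.corr0 ((0, b) :: l) =
      W (0 :: l.map Prod.fst) * J.intC1 (l.map Prod.snd) := by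
    unfold corr0 intC1
    rw [Finset.mul_sum]
    apply Finset.sum_congr rfl
    intro b _
    simp only [List.map_cons]
    ring
  rw [h2, W_string, add_mul]
  congr 1
  match l with
  | [] => simp [Cohomology.pairing]
  | [x] => simp [Cohomology.pairing]
  | [(0, a), (0, b)] =>
    simp only [Cohomology.pairing, List.map_cons, List.map_nil, if_true, one_mul]
    unfold intC1
    have := J.c1 [] a [b]
    simp only [List.nil_append] at this
    rw [← this, Matrix.mul_apply]
    apply Finset.sum_congr rfl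
    intro c _
    rw [J.two]
  | [(n + 1, a), y] => simp [Cohomology.pairing]
  | [x, (n + 1, b)] => simp [Cohomology.pairing]
  | x :: y :: z :: l => simp [Cohomology.pairing]

/-- the signed unshuffle sum of a function that only depends on the reassembled list of classes -/
lemma splitSum_us (u : List ℕ → List ℕ → ℂ) (h : List X.I → ℂ)
    (hh : ∀ l₁ a b l₂, h (l₁ ++ a :: b :: l₂) =
      (-1) ^ ((X.p a + X.q a) * (X.p b + X.q b)) * h (l₁ ++ b :: a :: l₂))
    (l : List X.Ins) :
    X.splitSum (fun l₁ l₂ => u (l₁.map Prod.fst) (l₂.map Prod.fst) *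
      h (l₁.map Prod.snd ++ l₂.map Prod.snd)) l = us u (l.map Prod.fst) * h (l.map Prod.snd) := by
  induction l generalizing u h with
  | nil => rfl
  | cons x l ih =>
    rw [Cohomology.splitSum_cons]
    simp only [List.map_cons]
    rw [us_cons, add_mul]
    have hmv : ∀ (l₁ : List X.Ins) (l₂ : List X.I),
        (-1) ^ (X.par x * (l₁.map X.par).sum) * h (l₁.map Prod.snd ++ x.2 :: l₂) =
        h (x.2 :: (l₁.map Prod.snd ++ l₂)) := by
      have gen : ∀ (l₁ : List X.Ins) (pre l₂ : List X.I),
          (-1) ^ (X.par x * (l₁.map X.par).sum) * h (pre ++ (l₁.map Prod.snd ++ x.2 :: l₂)) =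
          h (pre ++ x.2 :: (l₁.map Prod.snd ++ l₂)) := by
        intro l₁
        induction l₁ with
        | nil => simp
        | cons y l₁ ih₁ =>
          intro pre l₂
          have h1 := ih₁ (pre ++ [y.2]) l₂
          simp only [List.append_assoc, List.singleton_append] at h1
          simp only [List.map_cons, List.sum_cons, List.cons_append]
          rw [mul_add, pow_add, mul_assoc, h1, hh]
          rw [← mul_assoc, ← pow_add]
          have : (-1 : ℂ) ^ (X.par x * X.par y + (X.p y.2 + X.q y.2) * (X.p x.2 + X.q x.2)) = 1 := by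
            have e : X.par x * X.par y + (X.p y.2 + X.q y.2) * (X.p x.2 + X.q x.2) =
                2 * (X.par x * X.par y) := by
              unfold Cohomology.par
              ring
            rw [e, pow_mul]
            simp
          rw [this, one_mul]
      intro l₁ l₂
      exact gen l₁ [] l₂
    congr 1
    · exact ih (fun m₁ m₂ => u (x.1 :: m₁) m₂) (fun a => h (x.2 :: a))
        (fun l₁ a b l₂ => hh (x.2 :: l₁) a b l₂)
    · rw [← ih (fun m₁ m₂ => u m₁ (x.1 :: m₂)) (fun a => h (x.2 :: a))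
        (fun l₁ a b l₂ => hh (x.2 :: l₁) a b l₂)]
      congr 1
      funext l₁ l₂
      rw [← hmv]
      ring

theorem corr0_trr (m : ℕ) (a : X.I) (l : List X.Ins) (x y : X.Ins) :
    J.corr0 ((m + 1, a) :: l ++ [x, y]) = ∑ b, ∑ c, X.η⁻¹ b c *
      X.splitSum (fun l₁ l₂ => J.corr0 ((m, a) :: l₁ ++ [(0, b)]) *
        J.corr0 ((0, c) :: l₂ ++ [x, y])) l := by
  have h1 : ∀ b c, X.η⁻¹ b c *
      X.splitSum (fun l₁ l₂ => J.corr0 ((m, a) :: l₁ ++ [(0, b)]) *
        J.corr0 ((0, c) :: l₂ ++ [x, y])) l =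
      X.splitSum (fun l₁ l₂ => (W (m :: (l₁.map Prod.fst ++ [0])) *
        W (0 :: (l₂.map Prod.fst ++ [x.1, y.1]))) * (X.η⁻¹ b c *
        (J.int ((a :: l₁.map Prod.snd) ++ [b]) *
          J.int (c :: (l₂.map Prod.snd ++ [x.2, y.2]))))) l := by
    intro b c
    rw [← Cohomology.splitSum_smul]
    congr 1
    funext l₁ l₂
    unfold corr0
    simp only [List.map_cons, List.map_append, List.map_nil, List.cons_append]
    ring
  simp only [h1]
  have h2 : ∀ b, ∑ c, X.splitSum (fun l₁ l₂ => (W (m :: (l₁.map Prod.fst ++ [0])) *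
        W (0 :: (l₂.map Prod.fst ++ [x.1, y.1]))) * (X.η⁻¹ b c *
        (J.int ((a :: l₁.map Prod.snd) ++ [b]) *
          J.int (c :: (l₂.map Prod.snd ++ [x.2, y.2]))))) l =
      X.splitSum (fun l₁ l₂ => ∑ c, (W (m :: (l₁.map Prod.fst ++ [0])) *
        W (0 :: (l₂.map Prod.fst ++ [x.1, y.1]))) * (X.η⁻¹ b c *
        (J.int ((a :: l₁.map Prod.snd) ++ [b]) *
          J.int (c :: (l₂.map Prod.snd ++ [x.2, y.2]))))) l := by
    intro b
    rw [Cohomology.splitSum_sum]
  simp only [h2]
  rw [← Cohomology.splitSum_sum]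
  have h3 : (fun l₁ l₂ : List X.Ins => ∑ b, ∑ c, (W (m :: (l₁.map Prod.fst ++ [0])) *
        W (0 :: (l₂.map Prod.fst ++ [x.1, y.1]))) * (X.η⁻¹ b c *
        (J.int ((a :: l₁.map Prod.snd) ++ [b]) *
          J.int (c :: (l₂.map Prod.snd ++ [x.2, y.2]))))) =
      fun l₁ l₂ => (fun m₁ m₂ => W (m :: (m₁ ++ [0])) * W (0 :: (m₂ ++ [x.1, y.1])))
        (l₁.map Prod.fst) (l₂.map Prod.fst) *
        (fun k => J.int (a :: (k ++ [x.2, y.2]))) (l₁.map Prod.snd ++ l₂.map Prod.snd) := by
    funext l₁ l₂
    have e := J.split (a :: l₁.map Prod.snd) (l₂.map Prod.snd ++ [x.2, y.2])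
    have e' : J.int (a :: ((l₁.map Prod.snd ++ l₂.map Prod.snd) ++ [x.2, y.2])) =
        ∑ b, ∑ c, X.η⁻¹ b c * (J.int ((a :: l₁.map Prod.snd) ++ [b]) *
          J.int (c :: (l₂.map Prod.snd ++ [x.2, y.2]))) := by
      rw [← e, List.append_assoc]
      rfl
    change _ = (W (m :: (l₁.map Prod.fst ++ [0])) * W (0 :: (l₂.map Prod.fst ++ [x.1, y.1]))) *
      J.int (a :: ((l₁.map Prod.snd ++ l₂.map Prod.snd) ++ [x.2, y.2]))
    rw [e', Finset.mul_sum]
    apply Finset.sum_congr rfl
    intro b _
    rw [Finset.mul_sum]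
  have h4 := splitSum_us (X := X)
    (fun m₁ m₂ => W (m :: (m₁ ++ [0])) * W (0 :: (m₂ ++ [x.1, y.1])))
    (fun k => J.int (a :: (k ++ [x.2, y.2])))
    (fun l₁ a' b' l₂ => by
      have := J.swap (a :: l₁) a' b' (l₂ ++ [x.2, y.2])
      simpa using this) l
  rw [h3]
  refine Eq.trans ?_ h4.symm
  unfold corr0
  simp only [List.map_cons, List.map_append, List.map_nil, List.cons_append]
  rw [W_trr _ _ rfl]

end IntData

end Vale.Agent.P269
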