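import Vale.Agent.P269.H728.Abs

/-!
# Genus zero: the key two-point identity
-/

namespace Vale.Agent.P269.H728

open Vale.Agent.P269 Finset

variable {X : Cohomology} {R : Type*} [CommRing R] [Algebra ℂ R]

lemma par_one : X.par (0, X.one) = 0 := by
  simp [Cohomology.par, X.p_one, X.q_one]

lemma par_one' (n : ℕ) : X.par (n, X.one) = 0 := by
  simp [Cohomology.par, X.p_one, X.q_one]

namespace Gen0

variable {F : List X.Ins → R} (h : Gen0 F)
include h

/-- derivations acting on the second factor of the recursion relation -/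
lemma bside {T : X.Ins → (X.Ins → R) →ₗ[R] R} (hT : ParT T) (u v : X.Ins) (C : List X.Ins) :
    dv T (fun C' => F (u :: zz v :: C')) C = nd (fun b c => sp (fun A B =>
      F ((0, c) :: v :: A) * dv T (fun B' => F (u :: (0, b) :: B')) B) C) := by
  rw [dv_eq_pk hT ((h.sym.cons u).cons (zz v))]
  have h1 : ∀ y C', T y (fun y' => F (u :: zz v :: y' :: C')) = nd (fun b c => sp (fun A B =>
      (-1) ^ (X.par y * pl A) * (F ((0, c) :: v :: A) *
        T y (fun y' => F (u :: (0, b) :: y' :: B)))) C') := by
    intro y C'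
    have e1 : (fun y' => F (u :: zz v :: y' :: C')) = fun y' => nd (fun b c => sp (fun A B =>
        (-1) ^ (X.par y' * pl A) * (F ((0, c) :: v :: A) * F (u :: (0, b) :: y' :: B))) C') := by
      funext y'
      exact h.trr2 u v y' C'
    rw [e1, map_nd]
    apply nd_congr'
    intro b c
    rw [map_sp]
    apply sp_congr'
    intro A B
    have e2 := hT y (fun y' => F ((0, c) :: v :: A) * F (u :: (0, b) :: y' :: B)) (pl A)
    simp only [mul_comm (pl A)] at e2
    rw [e2]
    congr 1
    exact map_smul (T y) (F ((0, c) :: v :: A)) (fun y' => F (u :: (0, b) :: y' :: B))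
  rw [pk_congr' (h1), pk_nd]
  apply nd_congr'
  intro b c
  rw [pk_spB (fun A y B => F ((0, c) :: v :: A) * T y (fun y' => F (u :: (0, b) :: y' :: B)))]
  apply sp_congr'
  intro A B
  rw [pk_mul, dv_eq_pk hT ((h.sym.cons u).cons (0, b))]

/-- the two-point form of the recursion relation -/
lemma two (u v : X.Ins) (C : List X.Ins) :
    F (u :: zz v :: C) + F (zz u :: v :: C) = nd (fun b c => sp (fun A B =>
      F ((0, c) :: v :: A) * F (u :: (0, b) :: B)) C) := by
  -- the string equation for `zz u :: zz v :: C`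
  have s1 : F ((0, X.one) :: zz u :: zz v :: C) =
      F (u :: zz v :: C) + F (zz u :: v :: C) +
        dv lowT (fun C' => F (zz u :: zz v :: C')) C := by
    rw [h.string]
    have e1 : pairR (R := R) X.η (zz u :: zz v :: C) = 0 := pairR_succ _ _ _ _
    rw [e1, add_zero, dv, dv, zz, lowT_succ, zz, lowT_succ, add_assoc]
  have s2 : ∀ b B, F ((0, X.one) :: zz u :: (0, b) :: B) =
      F (u :: (0, b) :: B) + dv lowT (fun C' => F (zz u :: (0, b) :: C')) B := by
    intro b B
    rw [h.string]
    have e1 : pairR (R := R) X.η (zz u :: (0, b) :: B) = 0 := pairR_succ _ _ _ _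
    rw [e1, add_zero, dv, dv, zz, lowT_succ, lowT_zero, zero_add]
  have m1 : F ((0, X.one) :: zz u :: zz v :: C) = F (zz u :: zz v :: (0, X.one) :: C) := by
    rw [h.sym.sw, par_one, zero_mul, pow_zero, one_mul, h.sym.sw1, par_one, zero_mul,
      pow_zero, one_mul]
  have m2 : ∀ b B, F ((0, X.one) :: zz u :: (0, b) :: B) =
      F (zz u :: (0, b) :: (0, X.one) :: B) := by
    intro b B
    rw [h.sym.sw, par_one, zero_mul, pow_zero, one_mul, h.sym.sw1, par_one, zero_mul,
      pow_zero, one_mul]
  have t1 := h.trr2 (zz u) v (0, X.one) C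
  have t2 := h.bside par_lowT (zz u) v C
  rw [← m1, s1] at t1
  have t3 : nd (fun b c => sp (fun A B => (-1) ^ (X.par (0, X.one) * pl A) *
      (F ((0, c) :: v :: A) * F (zz u :: (0, b) :: (0, X.one) :: B))) C) =
      nd (fun b c => sp (fun A B => F ((0, c) :: v :: A) * F (u :: (0, b) :: B)) C) +
      nd (fun b c => sp (fun A B => F ((0, c) :: v :: A) *
        dv lowT (fun C' => F (zz u :: (0, b) :: C')) B) C) := by
    rw [← nd_add]
    apply nd_congr'
    intro b c
    rw [← sp_add]
    apply sp_congr'
    intro A B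
    rw [← m2, s2, par_one, zero_mul, pow_zero, one_mul]
    ring
  rw [t3, ← t2] at t1
  exact add_right_cancel t1

/-- The key identity: `⟨⟨u, l_0 z v⟩⟩ - ∑ η^{bc} (μ_b + 1/2) ⟨⟨φ_c, v⟩⟩ ⟨⟨u, φ_b⟩⟩ =
`⟨⟨z l_0 u, v⟩⟩`. -/
lemma key (u v : X.Ins) (C : List X.Ins) :
    virT 1 (zz v) (fun y => F (u :: y :: C)) =
      nT u (fun w => F (w :: v :: C)) +
      nd (fun b c => (X.μ b + 1 / 2) • sp (fun A B =>
        F ((0, c) :: v :: A) * F (u :: (0, b) :: B)) C) := by
  have l1 := h.el (u :: zz v :: C)
  have l2 : ∀ b B, - virT 1 (1, X.one) (fun y => F (y :: u :: (0, b) :: B)) +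
      (virT 1 u (fun y => F (y :: (0, b) :: B)) + ((X.μ b + 1 / 2) • F (u :: (0, b) :: B) +
        dv (virT 1) (fun l' => F (u :: (0, b) :: l')) B)) +
      pairR (X.R * X.η) (u :: (0, b) :: B) = 0 := by
    intro b B
    have := h.el (u :: (0, b) :: B)
    rw [dv, dv, virT_one_zero] at this
    exact this
  rw [dv, dv] at l1
  have l3 : pairR (R := R) (X.R * X.η) (u :: zz v :: C) = 0 := pairR_succ' _ _ _ _ _
  rw [l3, add_zero, h.bside (par_virT 1)] at l1
  -- multiply the second family and sum
  have l4 : nd (fun b c => sp (fun A B => F ((0, c) :: v :: A) *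
      (- virT 1 (1, X.one) (fun y => F (y :: u :: (0, b) :: B)) +
      (virT 1 u (fun y => F (y :: (0, b) :: B)) + ((X.μ b + 1 / 2) • F (u :: (0, b) :: B) +
        dv (virT 1) (fun l' => F (u :: (0, b) :: l')) B)) +
      pairR (X.R * X.η) (u :: (0, b) :: B))) C) = 0 := by
    have e0 : ∀ b c, sp (fun A B => F ((0, c) :: v :: A) *
      (- virT 1 (1, X.one) (fun y => F (y :: u :: (0, b) :: B)) +
      (virT 1 u (fun y => F (y :: (0, b) :: B)) + ((X.μ b + 1 / 2) • F (u :: (0, b) :: B) +
        dv (virT 1) (fun l' => F (u :: (0, b) :: l')) B)) +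
      pairR (X.R * X.η) (u :: (0, b) :: B))) C = 0 := by
      intro b c
      have e1 : sp (fun A B => F ((0, c) :: v :: A) *
        (- virT 1 (1, X.one) (fun y => F (y :: u :: (0, b) :: B)) +
        (virT 1 u (fun y => F (y :: (0, b) :: B)) + ((X.μ b + 1 / 2) • F (u :: (0, b) :: B) +
          dv (virT 1) (fun l' => F (u :: (0, b) :: l')) B)) +
        pairR (X.R * X.η) (u :: (0, b) :: B))) C = sp (fun _ _ => 0) C := by
        apply sp_congr'
        intro A B
        rw [l2, mul_zero]
      rw [e1, sp_zero]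
    rw [nd_congr' e0, nd_zero]
  -- the term with `l_0 z 1`
  have t1 : virT 1 (1, X.one) (fun y => F (y :: u :: zz v :: C)) = nd (fun b c => sp (fun A B =>
      F ((0, c) :: v :: A) * virT 1 (1, X.one) (fun y => F (y :: u :: (0, b) :: B))) C) := by
    have e1 : virT 1 (1, X.one) (fun y => F (y :: u :: zz v :: C)) =
        virT 1 (1, X.one) (fun y => F (u :: zz v :: y :: C)) := by
      have a1 := par_virT (X := X) (R := R) 1 (1, X.one) (fun y => F (u :: zz v :: y :: C))
        (X.par u + X.par v)
      rw [par_one', mul_zero, pow_zero, one_mul] at a1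
      rw [← a1]
      congr 1
      funext y
      rw [h.sym.sw, h.sym.sw1, ← mul_assoc, ← pow_add]
      congr 2
      have : X.par (zz v) = X.par v := rfl
      rw [this]
      ring
    have e2 : ∀ b B, virT 1 (1, X.one) (fun y => F (y :: u :: (0, b) :: B)) =
        virT 1 (1, X.one) (fun y => F (u :: (0, b) :: y :: B)) := by
      intro b B
      have a1 := par_virT (X := X) (R := R) 1 (1, X.one) (fun y => F (u :: (0, b) :: y :: B))
        (X.par u + X.par (0, b))
      rw [par_one', mul_zero, pow_zero, one_mul] at a1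
      rw [← a1]
      congr 1
      funext y
      rw [h.sym.sw, h.sym.sw1, ← mul_assoc, ← pow_add]
      congr 2
      ring
    rw [e1]
    simp only [e2]
    have e3 : (fun y' => F (u :: zz v :: y' :: C)) = fun y' => nd (fun b c => sp (fun A B =>
        (-1) ^ (X.par y' * pl A) * (F ((0, c) :: v :: A) * F (u :: (0, b) :: y' :: B))) C) := by
      funext y'
      exact h.trr2 u v y' C
    rw [e3, map_nd]
    apply nd_congr'
    intro b c
    rw [map_sp]
    apply sp_congr'
    intro A B
    have e4 := par_virT (X := X) (R := R) 1 (1, X.one) (fun y' => F ((0, c) :: v :: A) *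
      F (u :: (0, b) :: y' :: B)) (pl A)
    simp only [mul_comm (pl A)] at e4
    rw [e4, par_one', zero_mul, pow_zero, one_mul]
    exact map_smul (virT 1 (1, X.one)) (F ((0, c) :: v :: A))
      (fun y' => F (u :: (0, b) :: y' :: B))
  -- the term with `l_0 u`
  have t2 : virT 1 u (fun y => F (y :: zz v :: C)) = nd (fun b c => sp (fun A B =>
      F ((0, c) :: v :: A) * virT 1 u (fun y => F (y :: (0, b) :: B))) C) -
      virT 1 u (fun y => F (zz y :: v :: C)) := by
    have e1 : (fun y => F (y :: zz v :: C)) = (fun y => nd (fun b c => sp (fun A B =>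
        F ((0, c) :: v :: A) * F (y :: (0, b) :: B)) C)) - (fun y => F (zz y :: v :: C)) := by
      funext y
      rw [Pi.sub_apply, ← h.two]
      ring
    rw [e1, map_sub, map_nd]
    congr 1
    apply nd_congr'
    intro b c
    rw [map_sp]
    apply sp_congr'
    intro A B
    exact map_smul (virT 1 u) (F ((0, c) :: v :: A)) (fun y => F (y :: (0, b) :: B))
  -- the pairing term
  have t3 : nd (fun b c => sp (fun A B => F ((0, c) :: v :: A) *
      pairR (X.R * X.η) (u :: (0, b) :: B)) C) + virT 1 u (fun y => F (zz y :: v :: C)) =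
      nT u (fun w => F (w :: v :: C)) := by
    have hB : ∀ b (A B : List X.Ins) (c : X.I), F ((0, c) :: v :: A) *
        pairR (X.R * X.η) (u :: (0, b) :: B) = F ((0, c) :: v :: A) *
        (if B = [] then pairR (X.R * X.η) [u, (0, b)] else 0) := by
      intro b A B c
      by_cases hB : B = []
      · subst hB; simp
      · rw [if_neg hB, pairR_len]
        simp only [List.length_cons]
        have := List.length_pos_iff.mpr hB
        omega
    have e1 : nd (fun b c => sp (fun A B => F ((0, c) :: v :: A) *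
        pairR (X.R * X.η) (u :: (0, b) :: B)) C) =
        nd (fun b c => F ((0, c) :: v :: C) * pairR (X.R * X.η) [u, (0, b)]) := by
      apply nd_congr'
      intro b c
      rw [sp_congr' (fun A B => hB b A B c), sp_last _ (fun A => F ((0, c) :: v :: A))]
    rw [e1]
    rcases u with ⟨n, a⟩
    rcases n with _ | n
    · rw [virT_one_zero]
      unfold nT nd
      simp only [pairR_two, zz]
      have e2 : ∑ b, ∑ c, X.η⁻¹ b c • (F ((0, c) :: v :: C) *
          algebraMap ℂ R ((X.R * X.η) a b)) = ∑ c, X.R a c • F ((0, c) :: v :: C) := by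
        rw [Finset.sum_comm]
        apply Finset.sum_congr rfl
        intro c _
        have e3 : ∀ b, X.η⁻¹ b c • (F ((0, c) :: v :: C) *
            algebraMap ℂ R ((X.R * X.η) a b)) =
            ((X.R * X.η) a b * X.η⁻¹ b c) • F ((0, c) :: v :: C) := by
          intro b
          rw [mul_comm (F _), ← Algebra.smul_def, smul_smul, mul_comm]
        rw [Finset.sum_congr rfl fun b _ => e3 b, ← Finset.sum_smul, ← Matrix.mul_apply,
          Matrix.mul_assoc, η_nonsing_right, Matrix.mul_one]
      rw [e2, add_comm]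
      simp
    · rw [virT_one_succ]
      unfold nT
      have e2 : nd (fun b c => F ((0, c) :: v :: C) *
          pairR (X.R * X.η) [(n + 1, a), (0, b)]) = 0 := by
        have : ∀ b c, F ((0, c) :: v :: C) *
          pairR (X.R * X.η) [(n + 1, a), (0, b)] = 0 := by
          intro b c
          rw [pairR_succ, mul_zero]
        rw [nd_congr' this, nd_zero]
      rw [e2, zero_add]
      simp only [zz]
      congr 2
      push_cast
      ring
  -- assemble
  have l5 : nd (fun b c => sp (fun A B => F ((0, c) :: v :: A) *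
      (- virT 1 (1, X.one) (fun y => F (y :: u :: (0, b) :: B)) +
      (virT 1 u (fun y => F (y :: (0, b) :: B)) + ((X.μ b + 1 / 2) • F (u :: (0, b) :: B) +
        dv (virT 1) (fun l' => F (u :: (0, b) :: l')) B)) +
      pairR (X.R * X.η) (u :: (0, b) :: B))) C) =
      - nd (fun b c => sp (fun A B => F ((0, c) :: v :: A) *
        virT 1 (1, X.one) (fun y => F (y :: u :: (0, b) :: B))) C) +
      nd (fun b c => sp (fun A B => F ((0, c) :: v :: A) *
        virT 1 u (fun y => F (y :: (0, b) :: B))) C) +
      nd (fun b c => (X.μ b + 1 / 2) • sp (fun A B =>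
        F ((0, c) :: v :: A) * F (u :: (0, b) :: B)) C) +
      nd (fun b c => sp (fun A B => F ((0, c) :: v :: A) *
        dv (virT 1) (fun l' => F (u :: (0, b) :: l')) B) C) +
      nd (fun b c => sp (fun A B => F ((0, c) :: v :: A) *
        pairR (X.R * X.η) (u :: (0, b) :: B)) C) := by
    rw [← nd_neg, ← nd_add, ← nd_add, ← nd_add, ← nd_add]
    apply nd_congr'
    intro b c
    rw [← sp_smul, ← sp_neg, ← sp_add, ← sp_add, ← sp_add, ← sp_add]
    apply sp_congr'
    intro A B
    rw [← mul_smul_comm]
    ring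
  rw [l5, ← t1] at l4
  rw [t2] at l1
  linear_combination l1 - l4 + t3

end Gen0

end Vale.Agent.P269.H728
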