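import Vale.Agent.P269.H728.Ops

/-!
# The operator `l_k` on Laurent polynomials and its recursions
-/

namespace Vale.Agent.P269.H728

open Vale.Agent.P269 Finset

variable {X : Cohomology} {R : Type*} [CommRing R] [Algebra ℂ R]

/-- `l_k (z^s φ_a)`, `k = K - 1`, paired with a function `g` of the basis vectors `z^s φ_a`. -/
noncomputable def LX (K : ℕ) (s : ℤ) (a : X.I) : (ℤ × X.I → R) →ₗ[R] R where
  toFun g := ∑ i ∈ range (K + 1), Cohomology.br (X.μ a + s + 1 / 2) K i •
    ∑ c, (X.R ^ i) a c • g (s + K - 1 - i, c)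
  map_add' f g := by
    simp only [Pi.add_apply, smul_add, Finset.sum_add_distrib]
  map_smul' r g := by
    simp only [Pi.smul_apply, smul_eq_mul, RingHom.id_apply, Finset.mul_sum, Finset.smul_sum,
      mul_smul_comm]

lemma LX_apply (K : ℕ) (s : ℤ) (a : X.I) (g : ℤ × X.I → R) :
    LX K s a g = ∑ i ∈ range (K + 1), Cohomology.br (X.μ a + s + 1 / 2) K i •
      ∑ c, (X.R ^ i) a c • g (s + K - 1 - i, c) := rfl

/-- `l_0 z` paired with `g` -/
noncomputable def EZ (g : ℤ × X.I → R) (p : ℤ × X.I) : R :=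
  (X.μ p.2 + p.1 + 3 / 2) • g (p.1 + 1, p.2) + ∑ c, X.R p.2 c • g (p.1, c)

/-- `z l_0` paired with `g` -/
noncomputable def ZE (g : ℤ → X.I → R) (s : ℤ) (a : X.I) : R :=
  (X.μ a + s + 1 / 2) • g (s + 1) a + ∑ c, X.R a c • g s c

lemma LX_succ (K : ℕ) (s : ℤ) (a : X.I) (g : ℤ × X.I → R) :
    LX (K + 1) s a g = LX K s a (EZ g) := by
  set x : ℂ := X.μ a + s + 1 / 2 with hx
  rw [LX_apply, LX_apply]
  have h1 : ∀ i ∈ range (K + 1), Cohomology.br x K i •
      ∑ c, (X.R ^ i) a c • EZ g (s + K - 1 - i, c) =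
      ((x + K) * Cohomology.br x K i) • ∑ c, (X.R ^ i) a c • g (s + K - i, c) +
      Cohomology.br x K i • ∑ c, (X.R ^ (i + 1)) a c • g (s + K - 1 - i, c) := by
    intro i _
    have e1 : ∑ c, (X.R ^ i) a c • EZ g (s + K - 1 - i, c) =
        (x + K) • ∑ c, (X.R ^ i) a c • g (s + K - i, c) +
        ∑ c, (X.R ^ (i + 1)) a c • g (s + K - 1 - i, c) := by
      unfold EZ
      simp only [smul_add, Finset.sum_add_distrib]
      congr 1
      · rw [Finset.smul_sum]
        apply Finset.sum_congr rfl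
        intro c _
        by_cases hc : (X.R ^ i) a c = 0
        · simp [hc]
        · rw [Rpow_μ i a c hc, smul_smul, smul_smul]
          congr 1
          · push_cast
            rw [hx]
            ring
          · congr 2
            ring
      · simp only [Finset.smul_sum, smul_smul]
        rw [Finset.sum_comm]
        apply Finset.sum_congr rfl
        intro c _
        rw [← Finset.sum_smul, pow_succ, Matrix.mul_apply]
    rw [e1, smul_add, smul_smul, mul_comm]
  rw [Finset.sum_congr rfl h1, Finset.sum_add_distrib]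
  rw [Finset.sum_range_succ' (n := K + 1)]
  have h2 : ∀ i ∈ range (K + 1), Cohomology.br x (K + 1) (i + 1) •
      ∑ c, (X.R ^ (i + 1)) a c • g (s + (K + 1 : ℕ) - 1 - (i + 1 : ℕ), c) =
      ((x + K) * Cohomology.br x K (i + 1)) •
        ∑ c, (X.R ^ (i + 1)) a c • g (s + K - (i + 1 : ℕ), c) +
      Cohomology.br x K i • ∑ c, (X.R ^ (i + 1)) a c • g (s + K - 1 - i, c) := by
    intro i _
    rw [br_succ, add_smul]
    congr 3
    · funext c
      congr 3
      push_cast
      ring
    · funext c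
      congr 3
      push_cast
      ring
  rw [Finset.sum_congr rfl h2, Finset.sum_add_distrib]
  have h3 : Cohomology.br x (K + 1) 0 • ∑ c, (X.R ^ 0) a c • g (s + (K + 1 : ℕ) - 1 - (0 : ℕ), c) =
      ((x + K) * Cohomology.br x K 0) • ∑ c, (X.R ^ 0) a c • g (s + K - (0 : ℕ), c) := by
    rw [br_succ_zero]
    congr 3
    funext c
    congr 3
    push_cast
    ring
  rw [h3]
  have h4 : ∑ i ∈ range (K + 1), ((x + K) * Cohomology.br x K (i + 1)) •
        ∑ c, (X.R ^ (i + 1)) a c • g (s + K - (i + 1 : ℕ), c) +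
      ((x + K) * Cohomology.br x K 0) • ∑ c, (X.R ^ 0) a c • g (s + K - (0 : ℕ), c) =
      ∑ i ∈ range (K + 1), ((x + K) * Cohomology.br x K i) •
        ∑ c, (X.R ^ i) a c • g (s + K - i, c) := by
    rw [← Finset.sum_range_succ' (fun i => ((x + K) * Cohomology.br x K i) •
        ∑ c, (X.R ^ i) a c • g (s + K - i, c)) (K + 1), Finset.sum_range_succ _ (K + 1),
        br_gt x K (K + 1) (by omega)]
    simp
  rw [← h4]
  abel

lemma LX_succ' (K : ℕ) (s : ℤ) (a : X.I) (g : ℤ × X.I → R) :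
    LX (K + 1) s a g = ZE (fun s a => LX K s a g) s a := by
  set x : ℂ := X.μ a + s + 1 / 2 with hx
  unfold ZE
  have hx1 : X.μ a + ((s + 1 : ℤ) : ℂ) + 1 / 2 = x + 1 := by rw [hx]; push_cast; ring
  have hR : ∑ c, X.R a c • LX K s c g = ∑ i ∈ range (K + 1), Cohomology.br (x + 1) K i •
      ∑ c, (X.R ^ (i + 1)) a c • g (s + K - 1 - i, c) := by
    simp only [LX_apply]
    have : ∀ c, X.R a c • ∑ i ∈ range (K + 1), Cohomology.br (X.μ c + s + 1 / 2) K i •
        ∑ d, (X.R ^ i) c d • g (s + K - 1 - i, d) =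
        ∑ i ∈ range (K + 1), Cohomology.br (x + 1) K i • ∑ d, (X.R a c * (X.R ^ i) c d) •
          g (s + K - 1 - i, d) := by
      intro c
      by_cases hc : X.R a c = 0
      · simp [hc]
      · have hμ : X.μ c = X.μ a + (1 : ℕ) := Rpow_μ 1 a c (by rwa [pow_one])
        rw [Finset.smul_sum]
        apply Finset.sum_congr rfl
        intro i _
        rw [hμ, smul_comm, show X.μ a + ((1 : ℕ) : ℂ) + s + 1 / 2 = x + 1 by
          rw [hx]; push_cast; ring]
        congr 1
        rw [Finset.smul_sum]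
        apply Finset.sum_congr rfl
        intro d _
        rw [smul_smul]
    rw [Finset.sum_congr rfl fun c _ => this c, Finset.sum_comm]
    apply Finset.sum_congr rfl
    intro i _
    rw [← Finset.smul_sum]
    congr 1
    rw [Finset.sum_comm]
    apply Finset.sum_congr rfl
    intro d _
    rw [← Finset.sum_smul, pow_succ', Matrix.mul_apply]
  rw [hR]
  simp only [LX_apply, hx1]
  rw [Finset.sum_range_succ' (n := K + 1)]
  have h2 : ∀ i ∈ range (K + 1), Cohomology.br x (K + 1) (i + 1) •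
      ∑ c, (X.R ^ (i + 1)) a c • g (s + (K + 1 : ℕ) - 1 - (i + 1 : ℕ), c) =
      x • (Cohomology.br (x + 1) K (i + 1) •
        ∑ c, (X.R ^ (i + 1)) a c • g (s + 1 + K - 1 - (i + 1 : ℕ), c)) +
      Cohomology.br (x + 1) K i • ∑ c, (X.R ^ (i + 1)) a c • g (s + K - 1 - i, c) := by
    intro i _
    rw [br_succ', add_smul, smul_smul]
    congr 3
    · funext c
      congr 3
      push_cast
      ring
    · funext c
      congr 3
      push_cast
      ring
  rw [Finset.sum_congr rfl h2, Finset.sum_add_distrib]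
  have h3 : Cohomology.br x (K + 1) 0 • ∑ c, (X.R ^ 0) a c • g (s + (K + 1 : ℕ) - 1 - (0 : ℕ), c) =
      x • (Cohomology.br (x + 1) K 0 • ∑ c, (X.R ^ 0) a c • g (s + 1 + K - 1 - (0 : ℕ), c)) := by
    rw [br_succ_zero', smul_smul]
    congr 3
    funext c
    congr 3
    push_cast
    ring
  rw [h3]
  have h4 : ∑ i ∈ range (K + 1), x • (Cohomology.br (x + 1) K (i + 1) •
        ∑ c, (X.R ^ (i + 1)) a c • g (s + 1 + K - 1 - (i + 1 : ℕ), c)) +
      x • (Cohomology.br (x + 1) K 0 • ∑ c, (X.R ^ 0) a c • g (s + 1 + K - 1 - (0 : ℕ), c)) =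
      x • ∑ i ∈ range (K + 1), (Cohomology.br (x + 1) K i) •
        ∑ c, (X.R ^ i) a c • g (s + 1 + K - 1 - i, c) := by
    rw [← Finset.smul_sum, ← smul_add,
      ← Finset.sum_range_succ' (fun i => (Cohomology.br (x + 1) K i) •
        ∑ c, (X.R ^ i) a c • g (s + 1 + K - 1 - i, c)) (K + 1), Finset.sum_range_succ _ (K + 1),
        br_gt (x + 1) K (K + 1) (by omega)]
    simp
  rw [← h4]
  abel

/-- extension of a function on insertions by `0` on negative powers -/
noncomputable def pos : (X.Ins → R) →ₗ[R] (ℤ × X.I → R) where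
  toFun f p := if 0 ≤ p.1 then f (p.1.toNat, p.2) else 0
  map_add' f g := by
    funext p
    by_cases h : 0 ≤ p.1 <;> simp [h]
  map_smul' r f := by
    funext p
    by_cases h : 0 ≤ p.1 <;> simp [h]

omit [Algebra ℂ R] in
lemma pos_apply (f : X.Ins → R) (p : ℤ × X.I) :
    pos f p = if 0 ≤ p.1 then f (p.1.toNat, p.2) else 0 := rfl

omit [Algebra ℂ R] in
lemma pos_nat (f : X.Ins → R) (n : ℕ) (a : X.I) : pos f ((n : ℤ), a) = f (n, a) := by
  rw [pos_apply]; simp

omit [Algebra ℂ R] in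
lemma pos_neg (f : X.Ins → R) (s : ℤ) (hs : s < 0) (a : X.I) : pos f (s, a) = 0 := by
  rw [pos_apply, if_neg (by simpa using hs)]

/-- `[l_k x]_+` paired with `f`, `k = K - 1` -/
noncomputable def virT (K : ℕ) (x : X.Ins) : (X.Ins → R) →ₗ[R] R :=
  LX K x.1 x.2 ∘ₗ pos

lemma virT_apply (K : ℕ) (x : X.Ins) (f : X.Ins → R) : virT K x f = LX K x.1 x.2 (pos f) := rfl

/-- comparison with the definition in `Defs` -/
lemma virT_eq (K : ℕ) (x : X.Ins) (f : X.Ins → R) :
    virT K x f = ∑ i ∈ range (K + 1), if i < x.1 + K then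
      Cohomology.br (X.μ x.2 + x.1 + 1 / 2) K i •
        ∑ b, (X.R ^ i) x.2 b • f (x.1 + K - 1 - i, b) else 0 := by
  rw [virT_apply, LX_apply]
  apply Finset.sum_congr rfl
  intro i _
  split_ifs with h
  · congr 1
    apply Finset.sum_congr rfl
    intro c _
    congr 1
    rw [show ((x.1 : ℤ) + K - 1 - i) = ((x.1 + K - 1 - i : ℕ) : ℤ) by omega]
    exact pos_nat _ _ _
  · rw [Finset.sum_eq_zero, smul_zero]
    intro c _
    rw [pos_neg _ _ (by omega), smul_zero]

/-- lowering -/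
noncomputable def lowT (x : X.Ins) : (X.Ins → R) →ₗ[R] R :=
  if x.1 = 0 then 0 else LinearMap.proj (x.1 - 1, x.2)

omit [Algebra ℂ R] in
lemma lowT_zero (a : X.I) (f : X.Ins → R) : lowT (0, a) f = 0 := by
  unfold lowT; simp

omit [Algebra ℂ R] in
lemma lowT_succ (n : ℕ) (a : X.I) (f : X.Ins → R) : lowT (n + 1, a) f = f (n, a) := by
  unfold lowT; simp

lemma virT_zero (x : X.Ins) (f : X.Ins → R) : virT 0 x f = lowT x f := by
  rw [virT_eq]
  rcases x with ⟨n, a⟩
  rcases n with _ | n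
  · rw [lowT_zero]; simp
  · rw [lowT_succ]
    simp [br_zero_left, Matrix.one_apply, ite_smul]

/-- `[l_0 x]_+` -/
lemma virT_one_zero (a : X.I) (f : X.Ins → R) :
    virT 1 (0, a) f = (X.μ a + 1 / 2) • f (0, a) := by
  rw [virT_eq, Finset.sum_range_succ, Finset.sum_range_one]
  have h1 : Cohomology.br (X.μ a + (0 : ℕ) + 1 / 2) 1 0 = X.μ a + 1 / 2 := by
    rw [br_succ_zero, br_zero_left]; simp
  simp only [h1]
  simp [Matrix.one_apply, ite_smul]

lemma virT_one_succ (n : ℕ) (a : X.I) (f : X.Ins → R) :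
    virT 1 (n + 1, a) f = (X.μ a + n + 3 / 2) • f (n + 1, a) + ∑ b, X.R a b • f (n, b) := by
  rw [virT_eq, Finset.sum_range_succ, Finset.sum_range_one]
  have h1 : Cohomology.br (X.μ a + (n + 1 : ℕ) + 1 / 2) 1 0 = X.μ a + n + 3 / 2 := by
    rw [br_succ_zero, br_zero_left]; push_cast; simp; ring
  simp only [h1, br_top]
  simp [Matrix.one_apply, ite_smul]

/-- raising the power of `ψ` -/
def zz (x : X.Ins) : X.Ins := (x.1 + 1, x.2)

/-- `z l_0 u` paired with `f` -/
noncomputable def nT (u : X.Ins) (f : X.Ins → R) : R :=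
  (X.μ u.2 + u.1 + 1 / 2) • f (zz u) + ∑ c, X.R u.2 c • f (u.1, c)

/-- the residual term at `z^{-1}` -/
noncomputable def res (f : X.Ins → R) (p : ℤ × X.I) : R :=
  if p.1 = -1 then (X.μ p.2 + 1 / 2) • f (0, p.2) else 0

lemma EZ_pos (f : X.Ins → R) :
    EZ (pos f) = pos (fun y => virT 1 (zz y) f) + res f := by
  funext p
  rcases p with ⟨s, a⟩
  rw [Pi.add_apply]
  unfold EZ res
  simp only
  rcases lt_trichotomy s (-1) with h | h | h
  · rw [pos_neg _ _ (by omega), pos_neg _ _ (by omega), if_neg (by omega)]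
    have : ∀ c, X.R a c • pos f (s, c) = 0 := fun c => by
      rw [pos_neg _ _ (by omega), smul_zero]
    simp [this]
  · subst h
    rw [pos_neg (fun y => virT 1 (zz y) f) _ (by omega), if_pos rfl]
    have : ∀ c, X.R a c • pos f (-1, c) = 0 := fun c => by
      rw [pos_neg _ _ (by omega), smul_zero]
    simp only [this, Finset.sum_const_zero, add_zero, zero_add]
    rw [show (-1 : ℤ) + 1 = ((0 : ℕ) : ℤ) by norm_num, pos_nat]
    congr 1
    push_cast
    ring
  · obtain ⟨n, rfl⟩ : ∃ n : ℕ, s = n := ⟨s.toNat, by omega⟩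
    rw [pos_nat, if_neg (by omega), add_zero, zz, virT_one_succ]
    rw [show ((n : ℤ) + 1) = ((n + 1 : ℕ) : ℤ) by push_cast; ring, pos_nat]
    simp only [pos_nat]
    push_cast
    rfl

lemma LX_succ_pos (K : ℕ) (s : ℤ) (a : X.I) (f : X.Ins → R) :
    LX (K + 1) s a (pos f) =
      LX K s a (pos (fun y => virT 1 (zz y) f)) + LX K s a (res f) := by
  rw [LX_succ, EZ_pos, map_add]

lemma virT_succ' (K : ℕ) (u : X.Ins) (f : X.Ins → R) :
    virT (K + 1) u f = nT u (fun w => virT K w f) := by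
  rw [virT_apply, LX_succ']
  unfold ZE nT
  simp only [virT_apply, zz]
  push_cast
  rfl

/-- the residual term of `l_k z^s φ_a` -/
lemma LX_res (K : ℕ) (s : ℤ) (a : X.I) (f : X.Ins → R) (i : ℕ) (hi : i ≤ K)
    (h : s + K - 1 - i = -1) :
    LX K s a (res f) = Cohomology.br (X.μ a + s + 1 / 2) K i •
      ∑ c, (X.R ^ i) a c • ((X.μ c + 1 / 2) • f (0, c)) := by
  rw [LX_apply, Finset.sum_eq_single i]
  · congr 1
    apply Finset.sum_congr rfl
    intro c _
    unfold res
    rw [if_pos (by simpa using h)]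
  · intro j _ hj
    rw [Finset.sum_eq_zero, smul_zero]
    intro c _
    unfold res
    rw [if_neg, smul_zero]
    simp only
    omega
  · intro h
    exfalso
    apply h
    rw [Finset.mem_range]
    omega

lemma LX_res_zero (K : ℕ) (s : ℤ) (a : X.I) (f : X.Ins → R)
    (h : ∀ i : ℕ, i ≤ K → s + K - 1 - i ≠ -1) :
    LX K s a (res f) = 0 := by
  rw [LX_apply]
  apply Finset.sum_eq_zero
  intro j hj
  rw [Finset.sum_eq_zero, smul_zero]
  intro c _
  unfold res
  rw [if_neg, smul_zero]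
  rw [Finset.mem_range] at hj
  exact h j (by omega)

/-- `res` of `l_k` on an insertion of level `0` -/
lemma virT_succ_zero (K : ℕ) (a : X.I) (f : X.Ins → R) :
    virT (K + 1) (0, a) f = virT K (0, a) (fun y => virT 1 (zz y) f) +
      ∑ c, (X.R ^ K) a c • ((X.μ c + 1 / 2) • f (0, c)) := by
  rw [virT_apply, virT_apply, LX_succ_pos]
  congr 1
  rw [LX_res K _ a f K le_rfl (by simp), br_top, one_smul]

lemma virT_succ_succ (K n : ℕ) (a : X.I) (f : X.Ins → R) :
    virT (K + 1) (n + 1, a) f = virT K (n + 1, a) (fun y => virT 1 (zz y) f) := by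
  rw [virT_apply, virT_apply, LX_succ_pos, LX_res_zero, add_zero]
  intro i hi
  simp only
  push_cast
  omega

end Vale.Agent.P269.H728
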