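import Vale.Agent.P269.H728.Split

/-!
# The operators of the Virasoro constraints, coefficients and linear algebra
-/

namespace Vale.Agent.P269.H728

open Vale.Agent.P269 Finset

section br

open Polynomial in
lemma br_zero_left (x : ℂ) (i : ℕ) : Cohomology.br x 0 i = if i = 0 then 1 else 0 := by
  simp [Cohomology.br, Polynomial.coeff_one]

lemma br_succ_zero (x : ℂ) (K : ℕ) :
    Cohomology.br x (K + 1) 0 = (x + K) * Cohomology.br x K 0 := by
  unfold Cohomology.br
  rw [Finset.prod_range_succ, mul_comm]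
  simp [add_mul]

lemma br_succ (x : ℂ) (K i : ℕ) :
    Cohomology.br x (K + 1) (i + 1) =
      (x + K) * Cohomology.br x K (i + 1) + Cohomology.br x K i := by
  unfold Cohomology.br
  rw [Finset.prod_range_succ, mul_comm, add_mul, Polynomial.coeff_add, Polynomial.coeff_X_mul,
    Polynomial.coeff_C_mul]
  ring

lemma br_prod' (x : ℂ) (K : ℕ) :
    ∏ j ∈ Finset.range (K + 1), (Polynomial.X + Polynomial.C (x + (j : ℂ))) =
    (Polynomial.X + Polynomial.C x) *
      ∏ j ∈ Finset.range K, (Polynomial.X + Polynomial.C (x + 1 + (j : ℂ))) := by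
  rw [Finset.prod_range_succ', mul_comm]
  congr 1
  · simp
  · apply Finset.prod_congr rfl
    intro j _
    congr 2
    push_cast
    ring

lemma br_succ_zero' (x : ℂ) (K : ℕ) :
    Cohomology.br x (K + 1) 0 = x * Cohomology.br (x + 1) K 0 := by
  unfold Cohomology.br
  rw [br_prod', add_mul, Polynomial.coeff_add, Polynomial.coeff_C_mul]
  simp

lemma br_succ' (x : ℂ) (K i : ℕ) :
    Cohomology.br x (K + 1) (i + 1) =
      x * Cohomology.br (x + 1) K (i + 1) + Cohomology.br (x + 1) K i := by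
  unfold Cohomology.br
  rw [br_prod', add_mul, Polynomial.coeff_add, Polynomial.coeff_X_mul,
    Polynomial.coeff_C_mul]
  ring

lemma br_gt (x : ℂ) (K i : ℕ) (h : K < i) : Cohomology.br x K i = 0 := by
  induction K generalizing i with
  | zero => rw [br_zero_left, if_neg (by omega)]
  | succ K ih =>
    obtain ⟨i, rfl⟩ : ∃ j, i = j + 1 := ⟨i - 1, by omega⟩
    rw [br_succ, ih _ (by omega), ih _ (by omega)]
    simp

lemma br_top (x : ℂ) (K : ℕ) : Cohomology.br x K K = 1 := by
  induction K with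
  | zero => rw [br_zero_left, if_pos rfl]
  | succ K ih => rw [br_succ, br_gt _ _ _ (by omega), ih]; simp

lemma br_symm (x : ℂ) (K i : ℕ) :
    Cohomology.br (1 - K - x) K i = (-1) ^ (K + i) * Cohomology.br x K i := by
  induction K generalizing i with
  | zero =>
    rw [br_zero_left, br_zero_left]
    by_cases h : i = 0
    · simp [h]
    · simp [h]
  | succ K ih =>
    have e : (1 : ℂ) - ((K + 1 : ℕ) : ℂ) - x + 1 = 1 - K - x := by push_cast; ring
    cases i with
    | zero =>
      rw [br_succ_zero', br_succ_zero, e, ih]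
      push_cast
      ring
    | succ i =>
      rw [br_succ', br_succ, e, ih, ih]
      push_cast
      ring

end br

section linalg

variable {X : Cohomology}

lemma η_nonsing_left : X.η⁻¹ * X.η = 1 := Matrix.nonsing_inv_mul _ X.η_nondeg
lemma η_nonsing_right : X.η * X.η⁻¹ = 1 := Matrix.mul_nonsing_inv _ X.η_nondeg

/-- total degrees of paired classes add up to `2D` -/
lemma η_par (a b : X.I) (h : X.η a b ≠ 0) :
    (X.p a + X.q a) + (X.p b + X.q b) = 2 * X.D := by
  have := X.η_deg a b h
  omega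

/-- a diagonal matrix commutes past: `η⁻¹` respects any function on which `η` is supported. -/
lemma inv_supp {ι : Type} [Fintype ι] [DecidableEq ι] (A : Matrix ι ι ℂ) (hA : IsUnit A.det)
    (f g : ι → ℂ) (h : ∀ a b, A a b ≠ 0 → f a = g b) :
    ∀ a b, A⁻¹ a b ≠ 0 → g a = f b := by
  intro a b hab
  have h1 : Matrix.diagonal f * A = A * Matrix.diagonal g := by
    ext i j
    rw [Matrix.diagonal_mul, Matrix.mul_diagonal]
    by_cases hij : A i j = 0
    · simp [hij]
    · rw [h i j hij]; ring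
  have h2 : A⁻¹ * Matrix.diagonal f = Matrix.diagonal g * A⁻¹ := by
    calc A⁻¹ * Matrix.diagonal f = A⁻¹ * (Matrix.diagonal f * A) * A⁻¹ := by
          rw [Matrix.mul_assoc, Matrix.mul_assoc, Matrix.mul_nonsing_inv _ hA, Matrix.mul_one]
      _ = A⁻¹ * (A * Matrix.diagonal g) * A⁻¹ := by rw [h1]
      _ = Matrix.diagonal g * A⁻¹ := by
          rw [← Matrix.mul_assoc, Matrix.nonsing_inv_mul _ hA, Matrix.one_mul]
  have h3 := congrFun (congrFun h2 a) b
  rw [Matrix.mul_diagonal, Matrix.diagonal_mul] at h3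
  have h4 : A⁻¹ a b * (f b - g a) = 0 := by linear_combination h3
  rcases mul_eq_zero.mp h4 with h5 | h5
  · exact absurd h5 hab
  · linear_combination -h5

lemma ηinv_deg (a b : X.I) (h : X.η⁻¹ a b ≠ 0) :
    X.p a + X.p b = X.D ∧ X.q a + X.q b = X.D := by
  have h1 := inv_supp X.η X.η_nondeg (fun a => (X.p a : ℂ)) (fun b => (X.D : ℂ) - X.p b)
    (fun a b hab => by
      have := (X.η_deg a b hab).1
      have h' : (X.p a : ℂ) + X.p b = X.D := by exact_mod_cast this
      linear_combination h') a b h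
  have h2 := inv_supp X.η X.η_nondeg (fun a => (X.q a : ℂ)) (fun b => (X.D : ℂ) - X.q b)
    (fun a b hab => by
      have := (X.η_deg a b hab).2
      have h' : (X.q a : ℂ) + X.q b = X.D := by exact_mod_cast this
      linear_combination h') a b h
  constructor
  · have : ((X.p a + X.p b : ℕ) : ℂ) = X.D := by push_cast; linear_combination -h1
    exact_mod_cast this
  · have : ((X.q a + X.q b : ℕ) : ℂ) = X.D := by push_cast; linear_combination -h2
    exact_mod_cast this

lemma ηinv_μ (a b : X.I) (h : X.η⁻¹ a b ≠ 0) : X.μ a = - X.μ b := by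
  have := (ηinv_deg a b h).1
  have h' : (X.p a : ℂ) + X.p b = X.D := by exact_mod_cast this
  unfold Cohomology.μ
  linear_combination h'

/-- parity of a class -/
def pc (a : X.I) : ℕ := X.p a + X.q a

lemma ηinv_par (a b : X.I) (h : X.η⁻¹ a b ≠ 0) : (Even (pc a) ↔ Even (pc b)) := by
  have := ηinv_deg a b h
  have h2 : Even (pc a + pc b) := ⟨X.D, by unfold pc; omega⟩
  rw [Nat.even_add] at h2
  exact h2

lemma ηinv_symm (a b : X.I) : X.η⁻¹ b a = (-1) ^ (pc a) * X.η⁻¹ a b := by
  -- S = diagonal of signs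
  set S : Matrix X.I X.I ℂ := Matrix.diagonal fun a => (-1 : ℂ) ^ (pc a) with hS
  have hSS : S * S = 1 := by
    rw [hS, Matrix.diagonal_mul_diagonal]
    ext i j
    by_cases hij : i = j
    · subst hij
      simp [← pow_add, ← two_mul]
    · simp [Matrix.diagonal, hij]
  have h1 : X.η.transpose = S * X.η := by
    ext i j
    rw [Matrix.transpose_apply, hS, Matrix.diagonal_mul, X.η_symm]
    by_cases hij : X.η i j = 0
    · simp [hij]
    · congr 1
      have h2 : Even (pc i + pc j) := ⟨X.D, by have := X.η_deg i j hij; unfold pc; omega⟩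
      rw [Nat.even_add] at h2
      change (-1 : ℂ) ^ (pc i * pc j) = (-1) ^ (pc i)
      rcases Nat.even_or_odd (pc i) with hi | hi
      · rw [Even.neg_one_pow (hi.mul_right _), Even.neg_one_pow hi]
      · have hj : Odd (pc j) := by
          rw [← Nat.not_even_iff_odd] at hi ⊢
          tauto
        rw [Odd.neg_one_pow (hi.mul hj), Odd.neg_one_pow hi]
  have h2 : (X.η⁻¹).transpose = X.η⁻¹ * S := by
    rw [Matrix.transpose_nonsing_inv, h1, Matrix.mul_inv_rev]
    congr 1
    exact Matrix.inv_eq_left_inv hSS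
  have h3 := congrFun (congrFun h2 a) b
  rw [Matrix.transpose_apply, hS, Matrix.mul_diagonal] at h3
  rw [h3]
  by_cases hab : X.η⁻¹ a b = 0
  · simp [hab]
  · have := ηinv_par a b hab
    rw [mul_comm]
    congr 1
    rcases Nat.even_or_odd (pc a) with hi | hi
    · rw [Even.neg_one_pow hi, Even.neg_one_pow (this.mp hi)]
    · have hj : Odd (pc b) := by
        rw [← Nat.not_even_iff_odd] at hi ⊢
        tauto
      rw [Odd.neg_one_pow hi, Odd.neg_one_pow hj]

lemma Rη : X.R * X.η = X.η * X.R.transpose := by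
  ext i j
  rw [Matrix.mul_apply, Matrix.mul_apply]
  simpa [Matrix.transpose_apply] using X.R_self i j

lemma Rpow_η (i : ℕ) : X.R ^ i * X.η = X.η * (X.R ^ i).transpose := by
  induction i with
  | zero => simp
  | succ i ih =>
    rw [pow_succ, Matrix.mul_assoc, Rη, ← Matrix.mul_assoc, ih, Matrix.mul_assoc,
      ← Matrix.transpose_mul, ← pow_succ']
    rfl

lemma ηinv_Rpow (i : ℕ) : X.η⁻¹ * X.R ^ i = (X.R ^ i).transpose * X.η⁻¹ := by
  calc X.η⁻¹ * X.R ^ i = X.η⁻¹ * (X.R ^ i * X.η) * X.η⁻¹ := by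
        rw [Matrix.mul_assoc, Matrix.mul_assoc, Matrix.mul_nonsing_inv _ X.η_nondeg,
          Matrix.mul_one]
    _ = X.η⁻¹ * (X.η * (X.R ^ i).transpose) * X.η⁻¹ := by rw [Rpow_η]
    _ = (X.R ^ i).transpose * X.η⁻¹ := by
        rw [← Matrix.mul_assoc, Matrix.nonsing_inv_mul _ X.η_nondeg, Matrix.one_mul]

lemma Rpow_deg (i : ℕ) (a b : X.I) (h : (X.R ^ i) a b ≠ 0) :
    X.p b = X.p a + i ∧ X.q b = X.q a + i := by
  induction i generalizing b with
  | zero =>
    rw [pow_zero, Matrix.one_apply] at h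
    have : a = b := by
      by_contra hab
      simp [hab] at h
    subst this
    simp
  | succ i ih =>
    rw [pow_succ, Matrix.mul_apply] at h
    obtain ⟨c, _, hc⟩ := Finset.exists_ne_zero_of_sum_ne_zero h
    have h1 := ih c (left_ne_zero_of_mul hc)
    have h2 := X.R_deg c b (right_ne_zero_of_mul hc)
    omega

lemma Rpow_μ (i : ℕ) (a b : X.I) (h : (X.R ^ i) a b ≠ 0) : X.μ b = X.μ a + i := by
  have := (Rpow_deg i a b h).1
  unfold Cohomology.μ
  rw [this]
  push_cast
  ring

lemma Rpow_par (i : ℕ) (a b : X.I) (h : (X.R ^ i) a b ≠ 0) : (Even (pc b) ↔ Even (pc a)) := by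
  have := Rpow_deg i a b h
  unfold pc
  rw [this.1, this.2, show X.p a + i + (X.q a + i) = X.p a + X.q a + 2 * i by ring, Nat.even_add]
  simp

/-- `(η⁻¹ R^i)` is graded symmetric -/
lemma ηR_symm (i : ℕ) (a b : X.I) :
    (X.η⁻¹ * X.R ^ i) b a = (-1) ^ (pc a) * (X.η⁻¹ * X.R ^ i) a b := by
  rw [ηinv_Rpow i, Matrix.mul_apply, ← ηinv_Rpow i, Matrix.mul_apply, Finset.mul_sum]
  apply Finset.sum_congr rfl
  intro c _
  rw [Matrix.transpose_apply, ηinv_symm a c]
  ring

end linalg

end Vale.Agent.P269.H728
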