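import Vale.Agent.P269.H728.Star

/-!
# Genus zero: the recursion in `k`, end of the proof
-/

namespace Vale.Agent.P269.H728

open Vale.Agent.P269 Finset

variable {X : Cohomology} {R : Type*} [CommRing R] [Algebra ℂ R]

lemma virT_level0 (K : ℕ) (c : X.I) (f : X.Ins → R) :
    virT K (0, c) f = ∑ m ∈ range K, Cohomology.br (X.μ c + 1 / 2) K (K - 1 - m) •
      ∑ d, (X.R ^ (K - 1 - m)) c d • f (m, d) := by
  rw [virT_eq, Finset.sum_range_succ, if_neg (by simp), add_zero,
    ← Finset.sum_range_reflect]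
  apply Finset.sum_congr rfl
  intro m hm
  rw [Finset.mem_range] at hm
  rw [if_pos (by simp only; omega)]
  have e : (0 + K - 1 - (K - 1 - m) : ℕ) = m := by omega
  simp only [e]
  congr 3
  simp

lemma coef1 (K m : ℕ) (hm : m < K) (a c : X.I) :
    ∑ b, X.η⁻¹ a b * (Cohomology.br (X.μ b + ((-(m : ℤ) - 1 : ℤ) : ℂ) + 1 / 2) K (K - 1 - m) *
      (X.R ^ (K - 1 - m)) b c) =
    Cohomology.br (X.μ c - K + 1 / 2) K (K - 1 - m) * (X.η⁻¹ * X.R ^ (K - 1 - m)) a c := by
  rw [Matrix.mul_apply, Finset.mul_sum]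
  apply Finset.sum_congr rfl
  intro b _
  by_cases hb : (X.R ^ (K - 1 - m)) b c = 0
  · simp [hb]
  · have h1 := Rpow_μ _ b c hb
    have h2 : ((K - 1 - m : ℕ) : ℂ) = K - 1 - m := by
      rw [Nat.sub_sub, Nat.cast_sub (by omega)]
      push_cast
      ring
    have h3 : X.μ b + ((-(m : ℤ) - 1 : ℤ) : ℂ) + 1 / 2 = X.μ c - K + 1 / 2 := by
      rw [h1, h2]
      push_cast
      ring
    rw [h3]
    ring

lemma coef2 (K i : ℕ) (c a : X.I) :
    ∑ e, X.η⁻¹ c e * (Cohomology.br (X.μ e + 1 / 2) K i * (X.R ^ i) e a) =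
    Cohomology.br (1 / 2 - X.μ c) K i * (X.η⁻¹ * X.R ^ i) c a := by
  rw [Matrix.mul_apply, Finset.mul_sum]
  apply Finset.sum_congr rfl
  intro e _
  by_cases he : X.η⁻¹ c e = 0
  · simp [he]
  · rw [ηinv_μ c e he, show (1 / 2 : ℂ) - -X.μ e = X.μ e + 1 / 2 by ring]
    ring

lemma coef3 (K m : ℕ) (hm : m < K) (a c : X.I) :
    (-1) ^ (m + 1) * ((-1) ^ (pc a) *
      ∑ b, X.η⁻¹ a b * (Cohomology.br (X.μ b + ((-(m : ℤ) - 1 : ℤ) : ℂ) + 1 / 2) K (K - 1 - m) *
      (X.R ^ (K - 1 - m)) b c)) =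
    ∑ e, X.η⁻¹ c e * (Cohomology.br (X.μ e + 1 / 2) K (K - 1 - m) *
      (X.R ^ (K - 1 - m)) e a) := by
  rw [coef1 K m hm, coef2, ηR_symm _ a c]
  have h1 := br_symm (1 / 2 - X.μ c) K (K - 1 - m)
  rw [show (1 : ℂ) - K - (1 / 2 - X.μ c) = X.μ c - K + 1 / 2 by ring] at h1
  rw [h1]
  have h2 : (-1 : ℂ) ^ (m + 1) * (-1) ^ (K + (K - 1 - m)) = 1 := by
    rw [← pow_add, show m + 1 + (K + (K - 1 - m)) = 2 * K by omega, pow_mul]
    simp
  linear_combination ((-1) ^ (pc a) * Cohomology.br (1 / 2 - X.μ c) K (K - 1 - m) *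
    (X.η⁻¹ * X.R ^ (K - 1 - m)) a c) * h2

lemma algebraMap_neg_one_pow (n : ℕ) : ((-1 : R)) ^ n = algebraMap ℂ R ((-1) ^ n) := by
  simp

lemma neg_one_pow_mul (n : ℕ) (x : R) : (-1 : R) ^ n * x = ((-1 : ℂ) ^ n) • x := by
  rw [algebraMap_neg_one_pow, Algebra.smul_def]

namespace Gen0

variable {F : List X.Ins → R} (h : Gen0 F)

lemma res1 (F : List X.Ins → R) (K : ℕ) (u : X.Ins) (I : List X.Ins) :
    pk (fun y I' => rs K y (fun y' => F (u :: y' :: I'))) I =
      nd (fun b c => (X.μ b + 1 / 2) • sp (fun A B =>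
        pairR (X.R ^ K * X.η) ((0, c) :: A) * F (u :: (0, b) :: B)) I) := by
  have e1 : ∀ b c, sp (fun A B =>
        pairR (X.R ^ K * X.η) ((0, c) :: A) * F (u :: (0, b) :: B)) I =
      pk (fun y I' => pairR (X.R ^ K * X.η) [(0, c), y] * F (u :: (0, b) :: I')) I := by
    intro b c
    exact sp_single (fun A => pairR (X.R ^ K * X.η) ((0, c) :: A))
      (fun l hl => pairR_len _ _ (by simpa using hl)) (fun B => F (u :: (0, b) :: B)) I
  simp only [e1]
  have e2 : ∀ b c, (X.μ b + 1 / 2) •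
      pk (fun y I' => pairR (X.R ^ K * X.η) [(0, c), y] * F (u :: (0, b) :: I')) I =
      pk (fun y I' => (X.μ b + 1 / 2) •
        (pairR (X.R ^ K * X.η) [(0, c), y] * F (u :: (0, b) :: I'))) I := fun b c =>
    (pk_smul _ _ _).symm
  simp only [e2]
  rw [← pk_nd]
  apply pk_congr'
  intro y I'
  rcases y with ⟨n, a⟩
  rcases n with _ | n
  · unfold rs nd
    rw [if_pos rfl]
    apply Finset.sum_congr rfl
    intro b _
    have e3 : ∀ c, X.η⁻¹ b c • (X.μ b + 1 / 2) •
        (pairR (R := R) (X.R ^ K * X.η) [(0, c), (0, a)] * F (u :: (0, b) :: I')) =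
        (X.η⁻¹ b c * (X.R ^ K * X.η) c a) • ((X.μ b + 1 / 2) • F (u :: (0, b) :: I')) := by
      intro c
      rw [pairR_two, ← Algebra.smul_def, smul_comm (X.μ b + 1 / 2), smul_smul]
    rw [Finset.sum_congr rfl fun c _ => e3 c, ← Finset.sum_smul, ← Matrix.mul_apply, Rpow_η,
      ← Matrix.mul_assoc, η_nonsing_left, Matrix.one_mul, Matrix.transpose_apply]
  · unfold rs
    rw [if_neg (by simp)]
    have : ∀ b c, (X.μ b + 1 / 2) •
        (pairR (R := R) (X.R ^ K * X.η) [(0, c), (n + 1, a)] * F (u :: (0, b) :: I')) = 0 := by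
      intro b c
      rw [pairR_succ', zero_mul, smul_zero]
    rw [nd_congr' this, nd_zero]

lemma res3 (F : List X.Ins → R) (K : ℕ) (u : X.Ins) (I : List X.Ins) :
    ∑ m ∈ range (K + 1), (-1) ^ (m + 1) *
        nd (fun a b => LX K (-(m : ℤ) - 1) b (res (Qf F u I (m, a)))) =
      nd (fun b c => (X.μ b + 1 / 2) • sp (fun A B =>
        virT K (0, c) (fun y => F (y :: A)) * F (u :: (0, b) :: B)) I) := by
  set P : ℕ → X.I → X.I → R := fun m a c =>
    sp (fun A B => F ((m, a) :: A) * F (u :: (0, c) :: B)) I with hP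
  have e1 : ∀ b c, sp (fun A B =>
        virT K (0, c) (fun y => F (y :: A)) * F (u :: (0, b) :: B)) I =
      ∑ m ∈ range K, Cohomology.br (X.μ c + 1 / 2) K (K - 1 - m) •
        ∑ d, (X.R ^ (K - 1 - m)) c d • P m d b := by
    intro b c
    simp only [virT_level0, Finset.sum_mul, smul_mul_assoc]
    rw [sp_sum]
    apply Finset.sum_congr rfl
    intro m _
    rw [sp_smul, sp_sum]
    congr 1
    apply Finset.sum_congr rfl
    intro d _
    rw [sp_smul]
  simp only [e1, Finset.smul_sum]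
  rw [nd_sum, Finset.sum_range_succ]
  have e2 : ∀ a b, LX K (-(K : ℤ) - 1) b (res (Qf F u I (K, a))) = 0 := fun a b =>
    LX_res_zero _ _ _ _ (fun i hi => by omega)
  rw [nd_congr' e2, nd_zero, mul_zero, add_zero]
  apply Finset.sum_congr rfl
  intro m hm
  rw [Finset.mem_range] at hm
  have e3 : ∀ a b, LX K (-(m : ℤ) - 1) b (res (Qf F u I (m, a))) =
      Cohomology.br (X.μ b + ((-(m : ℤ) - 1 : ℤ) : ℂ) + 1 / 2) K (K - 1 - m) •
      ∑ c, (X.R ^ (K - 1 - m)) b c • ((X.μ c + 1 / 2) • (((-1 : ℂ) ^ (pc a)) • P m a c)) := by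
    intro a b
    rw [LX_res K _ b _ (K - 1 - m) (by omega) (by omega)]
    congr 1
    apply Finset.sum_congr rfl
    intro c _
    congr 2
    unfold Qf
    rw [neg_one_pow_mul]
    rfl
  rw [nd_congr' e3]
  -- both sides as sums over `P m a c`
  have eL : nd (fun a b => Cohomology.br (X.μ b + ((-(m : ℤ) - 1 : ℤ) : ℂ) + 1 / 2) K (K - 1 - m) •
      ∑ c, (X.R ^ (K - 1 - m)) b c • ((X.μ c + 1 / 2) • (((-1 : ℂ) ^ (pc a)) • P m a c))) =
      ∑ a, ∑ c, ((X.μ c + 1 / 2) * ((-1) ^ (pc a) * ∑ b, X.η⁻¹ a b *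
        (Cohomology.br (X.μ b + ((-(m : ℤ) - 1 : ℤ) : ℂ) + 1 / 2) K (K - 1 - m) *
      (X.R ^ (K - 1 - m)) b c))) • P m a c := by
    unfold nd
    apply Finset.sum_congr rfl
    intro a _
    simp only [Finset.smul_sum]
    rw [Finset.sum_comm]
    apply Finset.sum_congr rfl
    intro c _
    rw [Finset.mul_sum, Finset.mul_sum, Finset.sum_smul]
    apply Finset.sum_congr rfl
    intro b _
    simp only [smul_smul]
    congr 1
    ring
  have eR : nd (fun b c => ∑ d, (X.μ b + 1 / 2) • Cohomology.br (X.μ c + 1 / 2) K (K - 1 - m) •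
      (X.R ^ (K - 1 - m)) c d • P m d b) =
      ∑ a, ∑ c, ((X.μ c + 1 / 2) * ∑ e, X.η⁻¹ c e *
        (Cohomology.br (X.μ e + 1 / 2) K (K - 1 - m) * (X.R ^ (K - 1 - m)) e a)) • P m a c := by
    unfold nd
    rw [Finset.sum_comm (s := univ) (t := univ) (f := fun a c => ((X.μ c + 1 / 2) *
      ∑ e, X.η⁻¹ c e *
        (Cohomology.br (X.μ e + 1 / 2) K (K - 1 - m) * (X.R ^ (K - 1 - m)) e a)) • P m a c)]
    apply Finset.sum_congr rfl
    intro b _
    simp only [Finset.smul_sum]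
    rw [Finset.sum_comm]
    apply Finset.sum_congr rfl
    intro d _
    rw [Finset.mul_sum, Finset.sum_smul]
    apply Finset.sum_congr rfl
    intro c _
    simp only [smul_smul]
    congr 1
    ring
  rw [eL, eR, neg_one_pow_mul, Finset.smul_sum]
  apply Finset.sum_congr rfl
  intro a _
  rw [Finset.smul_sum]
  apply Finset.sum_congr rfl
  intro c _
  rw [smul_smul, ← coef3 K m hm a c]
  congr 1
  ring

lemma pair5 (K : ℕ) (u : X.Ins) (I : List X.Ins) :
    pairR (R := R) (X.R ^ (K + 1) * X.η) (u :: I) =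
      nT u (fun w => pairR (X.R ^ K * X.η) (w :: I)) := by
  rcases u with ⟨n, a⟩
  change _ = (X.μ a + (n : ℂ) + 1 / 2) • pairR (R := R) (X.R ^ K * X.η) (zz (n, a) :: I) +
    ∑ c, X.R a c • pairR (R := R) (X.R ^ K * X.η) ((n, c) :: I)
  have e0 : pairR (R := R) (X.R ^ K * X.η) (zz (n, a) :: I) = 0 := pairR_succ _ _ _ _
  rw [e0, smul_zero, zero_add]
  rcases n with _ | n
  · match I with
    | [] =>
      rw [pairR_len _ _ (by simp)]
      symm
      apply Finset.sum_eq_zero
      intro c _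
      rw [pairR_len _ _ (by simp), smul_zero]
    | [(0, b)] =>
      rw [pairR_two, pow_succ', Matrix.mul_assoc, Matrix.mul_apply, map_sum]
      apply Finset.sum_congr rfl
      intro c _
      rw [pairR_two, map_mul, Algebra.smul_def]
    | [(n + 1, b)] =>
      rw [pairR_succ']
      symm
      apply Finset.sum_eq_zero
      intro c _
      rw [pairR_succ', smul_zero]
    | x :: y :: I =>
      rw [pairR_len _ _ (by simp)]
      symm
      apply Finset.sum_eq_zero
      intro c _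
      rw [pairR_len _ _ (by simp), smul_zero]
  · rw [pairR_succ]
    symm
    apply Finset.sum_eq_zero
    intro c _
    rw [pairR_succ, smul_zero]

include h

theorem star (K : ℕ) (u : X.Ins) (I : List X.Ins) :
    CK F (K + 1) u I = nT u (fun w => CK F K w I) +
      nd (fun b c => (X.μ b + 1 / 2) • sp (fun A B =>
        CK F K (0, c) A * F (u :: (0, b) :: B)) I) := by
  have e1 : nT u (fun w => CK F K w I) =
      - nT u (fun w => virT K (1, X.one) (fun y => F (w :: y :: I))) +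
      nT u (fun w => dv (virT K) (fun I' => F (w :: I')) I) +
      nT u (fun w => qdM K K (Qf F w I)) +
      nT u (fun w => virT K w (fun y => F (y :: I))) +
      nT u (fun w => pairR (X.R ^ K * X.η) (w :: I)) := by
    unfold CK
    rw [nT_add, nT_add, nT_add, nT_add, nT_neg]
  have e2 : nd (fun b c => (X.μ b + 1 / 2) • sp (fun A B =>
        CK F K (0, c) A * F (u :: (0, b) :: B)) I) =
      - nd (fun b c => (X.μ b + 1 / 2) • sp (fun A B =>
        virT K (1, X.one) (fun y => F ((0, c) :: y :: A)) * F (u :: (0, b) :: B)) I) +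
      nd (fun b c => (X.μ b + 1 / 2) • sp (fun A B =>
        dv (virT K) (fun I' => F ((0, c) :: I')) A * F (u :: (0, b) :: B)) I) +
      nd (fun b c => (X.μ b + 1 / 2) • sp (fun A B =>
        qdM K K (Qf F (0, c) A) * F (u :: (0, b) :: B)) I) +
      nd (fun b c => (X.μ b + 1 / 2) • sp (fun A B =>
        virT K (0, c) (fun y => F (y :: A)) * F (u :: (0, b) :: B)) I) +
      nd (fun b c => (X.μ b + 1 / 2) • sp (fun A B =>
        pairR (X.R ^ K * X.η) ((0, c) :: A) * F (u :: (0, b) :: B)) I) := by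
    rw [← nd_neg, ← nd_add, ← nd_add, ← nd_add, ← nd_add]
    apply nd_congr'
    intro b c
    rw [← smul_neg, ← smul_add, ← smul_add, ← smul_add, ← smul_add]
    congr 1
    rw [← sp_neg, ← sp_add, ← sp_add, ← sp_add, ← sp_add]
    apply sp_congr'
    intro A B
    unfold CK
    ring
  have e3 : CK F (K + 1) u I = - virT (K + 1) (1, X.one) (fun y => F (u :: y :: I)) +
      dv (virT (K + 1)) (fun I' => F (u :: I')) I +
      qdM (K + 1) (K + 1) (Qf F u I) + virT (K + 1) u (fun y => F (y :: I)) +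
      pairR (X.R ^ (K + 1) * X.η) (u :: I) := rfl
  rw [e3, e1, e2, h.star1, h.star2, h.star3, virT_succ', pair5, res1 F, res3 F]
  ring

lemma CK_zero (u : X.Ins) (I : List X.Ins) : CK F 0 u I = 0 := by
  unfold CK
  have e1 : dv (virT 0) (fun I' => F (u :: I')) I = dv lowT (fun I' => F (u :: I')) I := by
    have : (virT 0 : X.Ins → (X.Ins → R) →ₗ[R] R) = lowT := by
      funext x
      apply LinearMap.ext
      intro f
      rw [virT_zero]
    rw [this]
  have e2 : qdM 0 0 (Qf F u I) = 0 := by simp [qdM]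
  have e3 := h.string (u :: I)
  rw [h.sym.sw, par_one, zero_mul, pow_zero, one_mul, dv] at e3
  have e4 : lowT (1, X.one) (fun y => F (u :: y :: I)) = F (u :: (0, X.one) :: I) :=
    lowT_succ 0 X.one _
  rw [e1, e2, virT_zero, virT_zero, e4, e3, pow_zero, Matrix.one_mul]
  ring

theorem CK_eq_zero (K : ℕ) (u : X.Ins) (I : List X.Ins) : CK F K u I = 0 := by
  induction K generalizing u I with
  | zero => exact h.CK_zero u I
  | succ K ih =>
    rw [h.star]
    simp only [ih]
    have e1 : nT u (fun _ => (0 : R)) = 0 := by simp [nT]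
    have e2 : ∀ b, sp (fun A B => 0 * F (u :: (0, b) :: B)) I = 0 := by
      intro b
      simp only [zero_mul]
      exact sp_zero I
    rw [e1]
    simp only [e2, smul_zero]
    rw [nd_zero, add_zero]

end Gen0

end Vale.Agent.P269.H728
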