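import Vale.Agent.P269.H728.Key

/-!
# Genus zero: the recursion in `k`
-/

namespace Vale.Agent.P269.H728

open Vale.Agent.P269 Finset

variable {X : Cohomology} {R : Type*} [CommRing R] [Algebra ℂ R]

lemma nd_sum {ι : Type*} (s : Finset ι) (f : ι → X.I → X.I → R) :
    nd (fun b c => ∑ m ∈ s, f m b c) = ∑ m ∈ s, nd (f m) := by
  classical
  induction s using Finset.induction_on with
  | empty => simp [nd_zero]
  | insert i s hi ih =>
    simp only [Finset.sum_insert hi]
    rw [nd_add, ih]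

lemma nd_nd (f : X.I → X.I → X.I → X.I → R) :
    nd (fun b c => nd (fun b' c' => f b c b' c')) =
      nd (fun b' c' => nd (fun b c => f b c b' c')) := by
  have e1 : ∀ g : X.I → X.I → R, nd g = ∑ b, ∑ c, X.η⁻¹ b c • g b c := fun g => rfl
  have e2 : nd (fun b c => nd (fun b' c' => f b c b' c')) =
      nd (fun b c => ∑ b', ∑ c', X.η⁻¹ b' c' • f b c b' c') := rfl
  rw [e2, nd_sum, e1]
  apply Finset.sum_congr rfl
  intro b' _
  rw [nd_sum]
  apply Finset.sum_congr rfl
  intro c' _
  rw [nd_smul]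

/-- the quadratic term, as a sum over `m < M` -/
noncomputable def qdM (M K : ℕ) (Q : X.Ins → X.Ins → R) : R :=
  ∑ m ∈ range M, (-1) ^ (m + 1) * nd (fun a b => LX K (-(m : ℤ) - 1) b (pos (Q (m, a))))

lemma LX_pos_far (K : ℕ) (s : ℤ) (hs : s + K - 1 < 0) (b : X.I) (f : X.Ins → R) :
    LX K s b (pos f) = 0 := by
  rw [LX_apply]
  apply Finset.sum_eq_zero
  intro i _
  rw [Finset.sum_eq_zero, smul_zero]
  intro c _
  rw [pos_neg _ _ (by omega), smul_zero]

lemma qdM_succ (K : ℕ) (Q : X.Ins → X.Ins → R) : qdM (K + 1) K Q = qdM K K Q := by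
  unfold qdM
  rw [Finset.sum_range_succ]
  have : ∀ a b, LX K (-(K : ℤ) - 1) b (pos (Q (K, a))) = 0 := fun a b =>
    LX_pos_far K _ (by omega) b _
  rw [nd_congr' this, nd_zero, mul_zero, add_zero]

namespace Gen0

variable {F : List X.Ins → R} (h : Gen0 F)
include h

lemma key_map (φ : (X.Ins → R) →ₗ[R] R) (u : X.Ins) (I : List X.Ins) :
    φ (fun y => virT 1 (zz y) (fun y' => F (u :: y' :: I))) =
      nT u (fun w => φ (fun y => F (w :: y :: I))) +
      nd (fun b c => (X.μ b + 1 / 2) • sp (fun A B =>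
        φ (fun y => F ((0, c) :: y :: A)) * F (u :: (0, b) :: B)) I) := by
  have e1 : (fun y => virT 1 (zz y) (fun y' => F (u :: y' :: I))) =
      (fun y => nT u (fun w => F (w :: y :: I))) +
      (fun y => nd (fun b c => (X.μ b + 1 / 2) • sp (fun A B =>
        F ((0, c) :: y :: A) * F (u :: (0, b) :: B)) I)) := by
    funext y
    exact h.key u y I
  rw [e1, map_add, map_nT, map_nd]
  congr 1
  apply nd_congr'
  intro b c
  have e2 : (fun y => (X.μ b + 1 / 2) • sp (fun A B =>
        F ((0, c) :: y :: A) * F (u :: (0, b) :: B)) I) =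
      (X.μ b + 1 / 2) • (fun y => sp (fun A B =>
        F ((0, c) :: y :: A) * F (u :: (0, b) :: B)) I) := rfl
  rw [e2, LinearMap.map_smul_of_tower, map_sp]
  congr 1
  apply sp_congr'
  intro A B
  have e3 : (fun y => F ((0, c) :: y :: A) * F (u :: (0, b) :: B)) =
      (F (u :: (0, b) :: B)) • (fun y => F ((0, c) :: y :: A)) := by
    funext y
    rw [Pi.smul_apply, smul_eq_mul, mul_comm]
  rw [e3, map_smul, smul_eq_mul, mul_comm]

omit h in
/-- the quadratic integrand of the derivative of the constraint -/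
def Qf (F : List X.Ins → R) (u : X.Ins) (I : List X.Ins) (x y : X.Ins) : R :=
  (-1) ^ (X.par x) * sp (fun A B => F (x :: A) * F (u :: y :: B)) I

omit h [Algebra ℂ R] in
lemma map_Qf (φ : (X.Ins → R) →ₗ[R] R) (u : X.Ins) (I : List X.Ins) (x : X.Ins) :
    φ (Qf F u I x) =
      (-1) ^ (X.par x) * sp (fun A B => F (x :: A) * φ (fun y => F (u :: y :: B))) I := by
  have e1 : Qf F u I x = ((-1) ^ (X.par x) : R) •
      (fun y => sp (fun A B => F (x :: A) * F (u :: y :: B)) I) := rfl
  rw [e1, map_smul, smul_eq_mul, map_sp]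
  congr 1
  apply sp_congr'
  intro A B
  exact map_smul φ (F (x :: A)) (fun y => F (u :: y :: B))

lemma key_map_Q (φ : (X.Ins → R) →ₗ[R] R) (u : X.Ins) (I : List X.Ins) (x : X.Ins) :
    φ (fun y => virT 1 (zz y) (Qf F u I x)) =
      nT u (fun w => φ (Qf F w I x)) +
      nd (fun b c => (X.μ b + 1 / 2) • sp (fun A B =>
        φ (Qf F (0, c) A x) * F (u :: (0, b) :: B)) I) := by
  have e1 : (fun y => virT 1 (zz y) (Qf F u I x)) = ((-1) ^ (X.par x) : R) •
      (fun y => sp (fun A B => F (x :: A) * virT 1 (zz y) (fun y' => F (u :: y' :: B))) I) := by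
    funext y
    rw [map_Qf]
    rfl
  rw [e1, map_smul, smul_eq_mul, map_sp]
  have e2 : ∀ A B, φ (fun y => F (x :: A) * virT 1 (zz y) (fun y' => F (u :: y' :: B))) =
      F (x :: A) * nT u (fun w => φ (fun y => F (w :: y :: B))) +
      nd (fun b c => (X.μ b + 1 / 2) • sp (fun B₁ B₂ =>
        F (x :: A) * (φ (fun y => F ((0, c) :: y :: B₁)) * F (u :: (0, b) :: B₂))) B) := by
    intro A B
    have e3 : φ (fun y => F (x :: A) * virT 1 (zz y) (fun y' => F (u :: y' :: B))) =
        F (x :: A) * φ (fun y => virT 1 (zz y) (fun y' => F (u :: y' :: B))) :=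
      map_smul φ (F (x :: A)) (fun y => virT 1 (zz y) (fun y' => F (u :: y' :: B)))
    rw [e3, h.key_map, mul_add, ← nd_mul]
    congr 1
    apply nd_congr'
    intro b c
    rw [sp_mul, mul_smul_comm]
  rw [sp_congr' e2, sp_add, mul_add]
  congr 1
  · have e4 : ∀ w, φ (Qf F w I x) = (-1) ^ (X.par x) *
        sp (fun A B => F (x :: A) * φ (fun y => F (w :: y :: B))) I := fun w => map_Qf φ w I x
    simp only [e4]
    rw [nT_mul, nT_sp]
    congr 1
    apply sp_congr'
    intro A B
    rw [nT_mul]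
  · rw [sp_nd, ← nd_mul]
    apply nd_congr'
    intro b c
    rw [sp_smul, mul_smul_comm]
    congr 1
    rw [sp_assoc (fun A B₁ B₂ => F (x :: A) * (φ (fun y => F ((0, c) :: y :: B₁)) *
      F (u :: (0, b) :: B₂))), ← sp_mul]
    apply sp_congr'
    intro A B
    rw [map_Qf, mul_assoc]
    congr 1
    rw [mul_comm (sp _ A), ← sp_mul]
    apply sp_congr'
    intro A₁ A₂
    ring

/-- the derivative at `u` of the constraint -/
noncomputable def CK (F : List X.Ins → R) (K : ℕ) (u : X.Ins) (I : List X.Ins) : R :=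
  - virT K (1, X.one) (fun y => F (u :: y :: I)) + dv (virT K) (fun I' => F (u :: I')) I +
    qdM K K (Qf F u I) + virT K u (fun y => F (y :: I)) + pairR (X.R ^ K * X.η) (u :: I)

lemma star1 (K : ℕ) (u : X.Ins) (I : List X.Ins) :
    virT (K + 1) (1, X.one) (fun y => F (u :: y :: I)) =
      nT u (fun w => virT K (1, X.one) (fun y => F (w :: y :: I))) +
      nd (fun b c => (X.μ b + 1 / 2) • sp (fun A B =>
        virT K (1, X.one) (fun y => F ((0, c) :: y :: A)) * F (u :: (0, b) :: B)) I) := by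
  rw [← h.key_map]
  exact virT_succ_succ K 0 X.one _

omit h in
/-- the residual operator at level zero -/
noncomputable def rs (K : ℕ) (y : X.Ins) (f : X.Ins → R) : R :=
  if y.1 = 0 then ∑ c, (X.R ^ K) y.2 c • ((X.μ c + 1 / 2) • f (0, c)) else 0

omit h in
lemma virT_rs (K : ℕ) (y : X.Ins) (f : X.Ins → R) :
    virT (K + 1) y f = virT K y (fun y => virT 1 (zz y) f) + rs K y f := by
  rcases y with ⟨n, a⟩
  rcases n with _ | n
  · rw [virT_succ_zero]
    simp [rs]
  · rw [virT_succ_succ]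
    simp [rs]

lemma star2 (K : ℕ) (u : X.Ins) (I : List X.Ins) :
    dv (virT (K + 1)) (fun I' => F (u :: I')) I =
      nT u (fun w => dv (virT K) (fun I' => F (w :: I')) I) +
      nd (fun b c => (X.μ b + 1 / 2) • sp (fun A B =>
        dv (virT K) (fun I' => F ((0, c) :: I')) A * F (u :: (0, b) :: B)) I) +
      pk (fun y I' => rs K y (fun y' => F (u :: y' :: I'))) I := by
  rw [dv_eq_pk (par_virT _) (h.sym.cons u)]
  simp only [dv_eq_pk (par_virT _) (h.sym.cons _), virT_rs (R := R) K]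
  rw [pk_add]
  congr 1
  simp only [h.key_map]
  rw [pk_add, nT_pk, pk_nd]
  congr 1
  apply nd_congr'
  intro b c
  rw [pk_smul, pk_spA (fun y A B => virT K y (fun y => F ((0, c) :: y :: A)) *
    F (u :: (0, b) :: B))]
  congr 1
  apply sp_congr'
  intro A B
  simp only [mul_comm _ (F (u :: (0, b) :: B))]
  rw [pk_mul]

omit h in
lemma qdM_nT (M K : ℕ) (u : X.Ins) (Q : X.Ins → X.Ins → X.Ins → R) :
    nT u (fun w => qdM M K (Q w)) = ∑ m ∈ range M, (-1) ^ (m + 1) *
      nd (fun a b => nT u (fun w => LX K (-(m : ℤ) - 1) b (pos (Q w (m, a))))) := by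
  unfold qdM
  rw [nT_sum]
  apply Finset.sum_congr rfl
  intro m _
  rw [nT_mul, nT_nd]

omit h in
lemma qdM_sp (M K : ℕ) (I : List X.Ins) (Q : X.I → List X.Ins → X.Ins → X.Ins → R)
    (k : X.I → List X.Ins → R) (r : X.I → ℂ) :
    nd (fun b c => r b • sp (fun A B => qdM M K (Q c A) * k b B) I) =
    ∑ m ∈ range M, (-1) ^ (m + 1) *
      nd (fun a b => nd (fun b' c' => r b' • sp (fun A B =>
        LX K (-(m : ℤ) - 1) b (pos (Q c' A (m, a))) * k b' B) I)) := by
  have e1 : ∀ (b' c' : X.I), r b' • sp (fun A B => qdM M K (Q c' A) * k b' B) I =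
      ∑ m ∈ range M, (-1) ^ (m + 1) * nd (fun a b => r b' • sp (fun A B =>
        LX K (-(m : ℤ) - 1) b (pos (Q c' A (m, a))) * k b' B) I) := by
    intro b' c'
    unfold qdM
    simp only [Finset.sum_mul]
    rw [sp_sum, Finset.smul_sum]
    apply Finset.sum_congr rfl
    intro m _
    simp only [mul_assoc]
    rw [sp_mul, ← mul_smul_comm, nd_smul]
    congr 2
    rw [← sp_nd]
    apply sp_congr'
    intro A B
    rw [mul_comm, ← nd_mul]
    apply nd_congr'
    intro a b
    rw [mul_comm]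
  rw [nd_congr' e1, nd_sum]
  apply Finset.sum_congr rfl
  intro m _
  rw [nd_mul, nd_nd]

lemma star3 (K : ℕ) (u : X.Ins) (I : List X.Ins) :
    qdM (K + 1) (K + 1) (Qf F u I) =
      nT u (fun w => qdM K K (Qf F w I)) +
      nd (fun b c => (X.μ b + 1 / 2) • sp (fun A B =>
        qdM K K (Qf F (0, c) A) * F (u :: (0, b) :: B)) I) +
      ∑ m ∈ range (K + 1), (-1) ^ (m + 1) *
        nd (fun a b => LX K (-(m : ℤ) - 1) b (res (Qf F u I (m, a)))) := by
  simp only [← qdM_succ (R := R) K]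
  rw [qdM_nT, qdM_sp (K + 1) K I (fun c A => Qf F (0, c) A) (fun b B => F (u :: (0, b) :: B))
    (fun b => X.μ b + 1 / 2)]
  rw [← Finset.sum_add_distrib, ← Finset.sum_add_distrib]
  unfold qdM
  apply Finset.sum_congr rfl
  intro m _
  rw [← mul_add, ← mul_add, ← nd_add, ← nd_add]
  congr 1
  apply nd_congr'
  intro a b
  rw [LX_succ_pos]
  congr 1
  exact h.key_map_Q (LX K (-(m : ℤ) - 1) b ∘ₗ pos) u I (m, a)

end Gen0

end Vale.Agent.P269.H728
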