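import Vale.Agent.P269.H728.Rec

/-!
# Genus zero: the constraints vanish (abstract form)
-/

namespace Vale.Agent.P269.H728

open Vale.Agent.P269 Finset

variable {X : Cohomology} {R : Type*} [CommRing R] [Algebra ℂ R]

lemma qdM_congr (M K : ℕ) {Q Q' : X.Ins → X.Ins → R}
    (h : ∀ x y, (Even (X.par x) ↔ Even (X.par y)) → Q x y = Q' x y) :
    qdM M K Q = qdM M K Q' := by
  unfold qdM
  apply Finset.sum_congr rfl
  intro m _
  congr 1
  apply nd_congr
  intro a b hab
  rw [LX_apply, LX_apply]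
  apply Finset.sum_congr rfl
  intro i _
  congr 1
  apply Finset.sum_congr rfl
  intro c _
  by_cases hc : (X.R ^ i) b c = 0
  · simp [hc]
  · congr 1
    rw [pos_apply, pos_apply]
    split_ifs
    · apply h
      have h1 := ηinv_par a b hab
      have h2 := Rpow_par i b c hc
      unfold pc at h1 h2
      unfold Cohomology.par
      simp only
      tauto
    · rfl

lemma qdM_add (M K : ℕ) (Q Q' : X.Ins → X.Ins → R) :
    qdM M K (fun x y => Q x y + Q' x y) = qdM M K Q + qdM M K Q' := by
  unfold qdM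
  rw [← Finset.sum_add_distrib]
  apply Finset.sum_congr rfl
  intro m _
  rw [← mul_add, ← nd_add]
  congr 1
  apply nd_congr'
  intro a b
  rw [← map_add, ← map_add]
  rfl

lemma qdM_smul (M K : ℕ) (r : ℂ) (Q : X.Ins → X.Ins → R) :
    qdM M K (fun x y => r • Q x y) = r • qdM M K Q := by
  unfold qdM
  rw [Finset.smul_sum]
  apply Finset.sum_congr rfl
  intro m _
  rw [← mul_smul_comm, ← nd_smul]
  congr 1
  apply nd_congr'
  intro a b
  rw [← LinearMap.map_smul_of_tower, ← LinearMap.map_smul_of_tower]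
  rfl

/-- the coefficients of the quadratic form -/
noncomputable def Cf (X : Cohomology) (K i m : ℕ) (a c : X.I) : ℂ :=
  (-1) ^ (m + 1) * ∑ b, X.η⁻¹ a b * Cohomology.br (X.μ b - m - 1 / 2) K i * (X.R ^ i) b c

lemma Cf_eq (K i m : ℕ) (a c : X.I) :
    Cf X K i m a c = (-1) ^ (m + 1) *
      (Cohomology.br (X.μ c - i - m - 1 / 2) K i * (X.η⁻¹ * X.R ^ i) a c) := by
  unfold Cf
  rw [Matrix.mul_apply, Finset.mul_sum (s := univ) (a := Cohomology.br _ _ _)]
  congr 1
  apply Finset.sum_congr rfl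
  intro b _
  by_cases hb : (X.R ^ i) b c = 0
  · simp [hb]
  · rw [Rpow_μ i b c hb, show X.μ b + (i : ℂ) - i - m - 1 / 2 = X.μ b - m - 1 / 2 by ring]
    ring

lemma Cf_symm (K i m n : ℕ) (hK : i + 2 + m + n = K) (a c : X.I) :
    (-1) ^ (pc c) * Cf X K i n c a = Cf X K i m a c := by
  rw [Cf_eq, Cf_eq, ηR_symm i c a]
  by_cases h0 : (X.η⁻¹ * X.R ^ i) c a = 0
  · simp [h0]
  · obtain ⟨e, _, he⟩ := Finset.exists_ne_zero_of_sum_ne_zero
      (by rwa [Matrix.mul_apply] at h0)
    have h1 := ηinv_μ c e (left_ne_zero_of_mul he)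
    have h2 := Rpow_μ i e a (right_ne_zero_of_mul he)
    have h3 := br_symm (X.μ c - i - m - 1 / 2) K i
    have h4 : (1 : ℂ) - K - (X.μ c - i - m - 1 / 2) = X.μ a - i - n - 1 / 2 := by
      rw [h2, h1, ← hK]
      push_cast
      ring
    rw [h4] at h3
    rw [h3]
    have h5 : (-1 : ℂ) ^ (n + 1) * (-1) ^ (K + i) = (-1) ^ (m + 1) := by
      rw [← pow_add, ← hK, show n + 1 + (i + 2 + m + n + i) = (m + 1) + 2 * (i + n + 1) by ring,
        pow_add _ (m + 1), pow_mul]
      simp
    linear_combination ((-1) ^ (pc c) * Cohomology.br (X.μ c - i - m - 1 / 2) K i *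
      (X.η⁻¹ * X.R ^ i) c a) * h5

/-- the quadratic term as in `Defs` -/
noncomputable def qq (K : ℕ) (Q : X.Ins → X.Ins → R) : R :=
  ∑ i ∈ range (K - 1), ∑ mn ∈ Finset.HasAntidiagonal.antidiagonal (K - 2 - i),
    ∑ a, ∑ c, Cf X K i mn.1 a c • Q (mn.1, a) (mn.2, c)

lemma qdM_eq_qq (K : ℕ) (Q : X.Ins → X.Ins → R) : qdM K K Q = qq K Q := by
  unfold qdM qq
  -- the terms
  set g : ℕ → ℕ → R := fun m i => (-1) ^ (m + 1) * nd (fun a b =>
    Cohomology.br (X.μ b + ((-(m : ℤ) - 1 : ℤ) : ℂ) + 1 / 2) K i •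
    ∑ c, (X.R ^ i) b c • pos (Q (m, a)) (-(m : ℤ) - 1 + K - 1 - i, c)) with hg
  have e1 : ∀ m ∈ range K, (-1) ^ (m + 1) *
      nd (fun a b => LX K (-(m : ℤ) - 1) b (pos (Q (m, a)))) = ∑ i ∈ range (K + 1), g m i := by
    intro m _
    simp only [LX_apply]
    rw [nd_sum, Finset.mul_sum]
  rw [Finset.sum_congr rfl e1, Finset.sum_comm]
  have gz : ∀ m i, ¬ (m + i + 2 ≤ K) → g m i = 0 := by
    intro m i hmi
    have : ∀ a b, Cohomology.br (X.μ b + ((-(m : ℤ) - 1 : ℤ) : ℂ) + 1 / 2) K i •
        ∑ c, (X.R ^ i) b c • pos (Q (m, a)) (-(m : ℤ) - 1 + K - 1 - i, c) = 0 := by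
      intro a b
      rw [Finset.sum_eq_zero, smul_zero]
      intro c _
      rw [pos_neg _ _ (by omega), smul_zero]
    rw [hg]
    simp only
    rw [nd_congr' this, nd_zero, mul_zero]
  have ge : ∀ m i, m + i + 2 ≤ K → g m i =
      ∑ a, ∑ c, Cf X K i m a c • Q (m, a) (K - 2 - i - m, c) := by
    intro m i hmi
    rw [hg]
    simp only
    rw [neg_one_pow_mul]
    unfold nd Cf
    rw [Finset.smul_sum]
    apply Finset.sum_congr rfl
    intro a _
    simp only [Finset.smul_sum]
    rw [Finset.sum_comm]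
    apply Finset.sum_congr rfl
    intro c _
    rw [mul_smul, Finset.sum_smul, Finset.smul_sum]
    apply Finset.sum_congr rfl
    intro b _
    rw [show (-(m : ℤ) - 1 + K - 1 - i) = ((K - 2 - i - m : ℕ) : ℤ) by omega, pos_nat]
    simp only [smul_smul]
    congr 1
    rw [show X.μ b + ((-(m : ℤ) - 1 : ℤ) : ℂ) + 1 / 2 = X.μ b - m - 1 / 2 by push_cast; ring]
    ring
  have e2 : ∑ i ∈ range (K + 1), ∑ m ∈ range K, g m i =
      ∑ i ∈ range (K - 1), ∑ m ∈ range K, g m i := by
    symm
    apply Finset.sum_subset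
    · intro i hi
      rw [Finset.mem_range] at hi ⊢
      omega
    · intro i _ hi
      apply Finset.sum_eq_zero
      intro m _
      apply gz
      rw [Finset.mem_range] at hi
      omega
  rw [e2]
  apply Finset.sum_congr rfl
  intro i hi
  rw [Finset.mem_range] at hi
  have e3 : ∑ m ∈ range K, g m i = ∑ m ∈ range (K - 2 - i + 1), g m i := by
    symm
    apply Finset.sum_subset
    · intro m hm
      rw [Finset.mem_range] at hm ⊢
      omega
    · intro m _ hm
      apply gz
      rw [Finset.mem_range] at hm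
      omega
  rw [e3, Finset.Nat.sum_antidiagonal_eq_sum_range_succ_mk]
  apply Finset.sum_congr rfl
  intro m hm
  rw [Finset.mem_range] at hm
  exact ge m i (by omega)

lemma qq_symm (K : ℕ) (Q : X.Ins → X.Ins → R) :
    qq K (fun x y => (-1) ^ (X.par x) * Q y x) = qq K Q := by
  unfold qq
  apply Finset.sum_congr rfl
  intro i hi
  rw [Finset.mem_range] at hi
  rw [← Finset.Nat.sum_antidiagonal_swap]
  apply Finset.sum_congr rfl
  intro mn hmn
  have hmn := Finset.HasAntidiagonal.mem_antidiagonal.mp hmn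
  rw [Finset.sum_comm]
  apply Finset.sum_congr rfl
  intro a _
  apply Finset.sum_congr rfl
  intro c _
  simp only [Prod.fst_swap, Prod.snd_swap]
  rw [neg_one_pow_mul, smul_smul, ← Cf_symm K i mn.1 mn.2 (by omega) a c, mul_comm]
  rfl

lemma qdM_symm (K : ℕ) (Q : X.Ins → X.Ins → R) :
    qdM K K (fun x y => (-1) ^ (X.par x) * Q y x) = qdM K K Q := by
  rw [qdM_eq_qq, qdM_eq_qq, qq_symm]

/-- the constraint -/
noncomputable def VK (F : List X.Ins → R) (K : ℕ) (l : List X.Ins) : R :=
  - virT K (1, X.one) (fun y => F (y :: l)) + dv (virT K) F l +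
    (1 / 2 : ℂ) • qdM K K (fun x y => sp (fun A B => F (A ++ [x]) * F (y :: B)) l) +
    pairR (X.R ^ K * X.η) l

omit [Algebra ℂ R] in
lemma sign_a (u x y A : ℕ) (h1 : Even (x + A)) (h2 : Even x ↔ Even y) :
    (-1 : R) ^ (u * A + x * A + y * u) = (-1) ^ x := by
  apply sgn_z
  have e1 := even_z h1
  have e2 := iff_z h2
  have e3 := sq_z (x : ZMod 2)
  have e4 : (2 : ZMod 2) = 0 := rfl
  push_cast at e1 ⊢
  linear_combination ((u : ZMod 2) + x) * e1 - (u : ZMod 2) * e2 - e3 - (x : ZMod 2) * e4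

omit [Algebra ℂ R] in
lemma sign_b (u x y A B : ℕ) (h1 : Even (y + A)) (h3 : Even (x + (u + B)))
    (h2 : Even x ↔ Even y) :
    (-1 : R) ^ (A * B + x * (u + B) + y * A) = (-1) ^ (x + u * A) := by
  apply sgn_z
  have e1 := even_z h1
  have e2 := iff_z h2
  have e3 := sq_z (x : ZMod 2)
  have e4 : (2 : ZMod 2) = 0 := rfl
  have e5 := even_z h3
  push_cast at e1 e5 ⊢
  linear_combination (A + x : ZMod 2) * e5 - (A : ZMod 2) * e2 - (u * A : ZMod 2) * e4 - e3 -
    (x : ZMod 2) * e4

namespace Gen0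

variable {F : List X.Ins → R} (h : Gen0 F)
include h

/-- the part of the quadratic term with `u` in the second factor -/
lemma quad2 (u : X.Ins) (I : List X.Ins) (x y : X.Ins)
    (hxy : Even (X.par x) ↔ Even (X.par y)) :
    sp (fun A B => (-1) ^ (X.par u * pl A) * (F (A ++ [x]) * F (y :: u :: B))) I =
      Qf F u I x y := by
  unfold Qf
  rw [← sp_mul]
  apply sp_congr'
  intro A B
  have e1 : F (A ++ [x]) = (-1) ^ (X.par x * pl A) * F (x :: A) := by
    have := h.sym.mv [] A x []
    simpa using this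
  rw [e1, h.sym.sw y u]
  by_cases hz : F (x :: A) = 0
  · rw [hz]; simp
  · have hev := h.even _ hz
    rw [pl_cons] at hev
    rw [← sign_a (X.par u) (X.par x) (X.par y) (pl A) hev hxy]
    simp only [pow_add]
    ring

/-- the part of the quadratic term with `u` in the first factor -/
lemma quad1 (u : X.Ins) (I : List X.Ins) (x y : X.Ins)
    (hxy : Even (X.par x) ↔ Even (X.par y)) :
    sp (fun A B => F (u :: A ++ [x]) * F (y :: B)) I = (-1) ^ (X.par x) *
      sp (fun A B => (-1) ^ (X.par u * pl A) * (F (A ++ [y]) * F (x :: u :: B))) I := by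
  rw [sp_comm, ← sp_mul]
  apply sp_congr'
  intro A B
  have e1 : F (A ++ [y]) = (-1) ^ (X.par y * pl A) * F (y :: A) := by
    have := h.sym.mv [] A y []
    simpa using this
  have e2 : F (u :: B ++ [x]) = (-1) ^ (X.par x * (X.par u + pl B)) * F (x :: u :: B) := by
    have := h.sym.mv [] (u :: B) x []
    simpa using this
  rw [e1, e2]
  by_cases hz : F (y :: A) = 0
  · rw [hz]; simp
  by_cases hz' : F (x :: u :: B) = 0
  · rw [hz']; simp
  · have hev := h.even _ hz
    have hev' := h.even _ hz'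
    rw [pl_cons] at hev
    rw [pl_cons, pl_cons] at hev'
    have key := sign_b (R := R) (X.par u) (X.par x) (X.par y) (pl A) (pl B) hev hev' hxy
    have key2 : (-1 : R) ^ (pl A * pl B + X.par x * (X.par u + pl B)) =
        (-1) ^ (X.par x + X.par u * pl A) * (-1) ^ (X.par y * pl A) := by
      rw [← key, ← pow_add]
      apply sgn_z
      have e4 : (2 : ZMod 2) = 0 := rfl
      push_cast
      linear_combination (-(X.par y : ZMod 2) * pl A) * e4
    calc (-1 : R) ^ (pl A * pl B) * ((-1) ^ (X.par x * (X.par u + pl B)) * F (x :: u :: B) *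
          F (y :: A)) = (-1 : R) ^ (pl A * pl B + X.par x * (X.par u + pl B)) *
          (F (x :: u :: B) * F (y :: A)) := by rw [pow_add]; ring
      _ = _ := by rw [key2, pow_add]; ring

lemma VK_cons (K : ℕ) (u : X.Ins) (I : List X.Ins) : VK F K (u :: I) = CK F K u I := by
  unfold VK CK
  have e1 : virT K (1, X.one) (fun y => F (y :: u :: I)) =
      virT K (1, X.one) (fun y => F (u :: y :: I)) := by
    have a1 := par_virT (X := X) (R := R) K (1, X.one) (fun y => F (u :: y :: I)) (X.par u)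
    rw [par_one', mul_zero, pow_zero, one_mul] at a1
    rw [← a1]
    congr 1
    funext y
    rw [h.sym.sw, mul_comm (X.par y)]
  have e2 : (fun x y => sp (fun A B => F (A ++ [x]) * F (y :: B)) (u :: I)) =
      fun x y => sp (fun A B => F (u :: A ++ [x]) * F (y :: B)) I +
        sp (fun A B => (-1) ^ (X.par u * pl A) * (F (A ++ [x]) * F (y :: u :: B))) I := by
    funext x y
    rw [sp_cons]
  have e3 : qdM K K (fun x y => sp (fun A B => F (u :: A ++ [x]) * F (y :: B)) I) =
      qdM K K (Qf F u I) := by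
    rw [qdM_congr K K (fun x y hxy => h.quad1 u I x y hxy), qdM_symm K
      (fun x y => sp (fun A B => (-1) ^ (X.par u * pl A) * (F (A ++ [x]) * F (y :: u :: B))) I)]
    exact qdM_congr K K (fun x y hxy => h.quad2 u I x y hxy)
  have e4 : qdM K K (fun x y => sp (fun A B => (-1) ^ (X.par u * pl A) *
      (F (A ++ [x]) * F (y :: u :: B))) I) = qdM K K (Qf F u I) :=
    qdM_congr K K (fun x y hxy => h.quad2 u I x y hxy)
  rw [e1, e2, qdM_add, e3, e4, dv, smul_add, ← add_smul,
    show (1 / 2 + 1 / 2 : ℂ) = 1 by norm_num, one_smul]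
  ring

theorem VK_eq_zero (K : ℕ) (l : List X.Ins) : VK F K l = 0 := by
  cases l with
  | cons u I => rw [h.VK_cons, h.CK_eq_zero]
  | nil =>
    have h1 : VK F K [(1, X.one)] = 0 := by rw [h.VK_cons, h.CK_eq_zero]
    have d1 : ∀ y, F [(1, X.one), y] = - F [y] := by
      intro y
      rw [h.dilaton]
      norm_num
    have d2 : ∀ y, F [y, (1, X.one)] = - F [y] := by
      intro y
      rw [← d1, h.sym.sw, par_one', mul_zero, pow_zero, one_mul]
    have e1 : VK F K [(1, X.one)] = (-2 : ℂ) • VK F K [] := by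
      unfold VK
      have a1 : virT K (1, X.one) (fun y => F [y, (1, X.one)]) =
          - virT K (1, X.one) (fun y => F [y]) := by
        rw [← map_neg]
        congr 1
        funext y
        exact d2 y
      have a2 : (fun x y => sp (fun A B => F (A ++ [x]) * F (y :: B)) [(1, X.one)]) =
          fun x y => (-2 : ℂ) • (F [x] * F [y]) := by
        funext x y
        rw [sp_cons]
        simp only [sp_nil, pl_nil, mul_zero, pow_zero, one_mul, List.nil_append,
          List.cons_append]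
        rw [d1, d2]
        rw [neg_smul, two_smul]
        ring
      have a3 : (fun x y => sp (fun A B => F (A ++ [x]) * F (y :: B)) []) =
          fun x y => (F [x] * F [y]) := by
        funext x y
        simp
      rw [a1, a2, a3, qdM_smul, pairR_len _ _ (by simp), pairR_len _ _ (by simp)]
      simp only [dv]
      rw [neg_smul, neg_smul, two_smul, two_smul]
      module
    rw [h1] at e1
    have e2 : (-2 : ℂ)⁻¹ • ((-2 : ℂ) • VK F K []) = 0 := by rw [← e1, smul_zero]
    rwa [smul_smul, inv_mul_cancel₀ (by norm_num), one_smul] at e2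

end Gen0

end Vale.Agent.P269.H728
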